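import Vale.Agent.P159.H159.FinLim
import Vale.Agent.P159.H730.Bad

/-!
P159, module FINEN (helper159), part 2: UV1, fine energy and fine mass change (F0, F1, F2 of
H375/FineM) in the NEUTRAL model, for arbitrary neutral mass forms.
-/

namespace Vale.Agent.P159.H159

open Finset Matrix MeasureTheory Filter Topology
open Vale.Agent.P159.TM.H104 (EM Ex Cv Lg li Gr)
open Vale.Agent.P159.TM.Spec (V)
open Vale.Agent.P159.TM.SpecC (wT)
open Vale.Agent.P159.H37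
open Vale.Agent.P159.H375 (MasM uv1_M fine_M)
open Vale.Agent.P159.H963 (GrI pin Neu Pn ntr nM GW MF gw_wT)

noncomputable section

section gen

variable {V : Type} [Fintype V] [DecidableEq V]

lemma qf_ntr_Pn [Nonempty V] {M : Matrix V V ℝ} {m : ℝ} (hM : MF M m) (u : V → ℝ) :
    qf (ntr M m) u = qf M ((Pn : Matrix V V ℝ) *ᵥ u) := by
  have h1 := H963.qf_addc (H963.ntr_transpose hM.symm m) (H963.ntr_row (V := V) hM.row)
    ((Pn : Matrix V V ℝ) *ᵥ u) ((∑ y, u y) / Fintype.card V)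
  have h2 : (fun x => ((Pn : Matrix V V ℝ) *ᵥ u) x + (∑ y, u y) / Fintype.card V) = u := by
    funext x
    rw [H963.Pn_mulVec]
    ring
  rw [h2, H963.qf_ntr_neu M m (H963.neu_Pn u)] at h1
  exact h1

lemma sum_Pn_sq [Nonempty V] (u : V → ℝ) :
    ∑ x, u x ^ 2 = ∑ x, ((Pn : Matrix V V ℝ) *ᵥ u) x ^ 2 +
      (∑ x, u x) ^ 2 / Fintype.card V := by
  have hN : (Fintype.card V : ℝ) ≠ 0 := Nat.cast_ne_zero.2 Fintype.card_ne_zero
  rw [H963.Pn_mulVec]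
  simp only
  have h1 : ∀ x, (u x - (∑ y, u y) / (Fintype.card V : ℝ)) ^ 2 =
      u x ^ 2 - 2 * ((∑ y, u y) / Fintype.card V) * u x +
        ((∑ y, u y) / Fintype.card V) ^ 2 := fun x => by ring
  simp only [h1]
  rw [Finset.sum_add_distrib, Finset.sum_sub_distrib, ← Finset.mul_sum, Finset.sum_const,
    Finset.card_univ, nsmul_eq_mul]
  field_simp
  ring

/-- two neutral mass forms `a ≤ M₀ ≤ M ≤ t` (on neutral vectors) -/
structure MasN (t a : ℝ) (M₀ : Matrix V V ℝ) (m₀ : ℝ) (M : Matrix V V ℝ) (m : ℝ) : Prop where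
  mf0 : MF M₀ m₀
  mf1 : MF M m
  apos : 0 < a
  lo : ∀ u, Neu u → a * ∑ x, u x ^ 2 ≤ qf M₀ u
  mid : ∀ u, Neu u → qf M₀ u ≤ qf M u
  up : ∀ u, Neu u → qf M u ≤ t * ∑ x, u x ^ 2

lemma MF.Ms [Nonempty V] {M : Matrix V V ℝ} {m : ℝ} (hM : MF M m) {s : ℝ} (hs : 0 < s) :
    MF (Ms M m s) s := by
  refine ⟨Ms_transpose hM.symm m s, fun x => Ms_row hM.row s x, ?_⟩
  obtain ⟨m0, hm0, hc⟩ := hM.coer
  refine ⟨min m0 s, lt_min hm0 hs, fun u => ?_⟩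
  rw [qf_Ms, qf_ntr_Pn hM, sum_Pn_sq u]
  have hN : (0 : ℝ) < Fintype.card V := Nat.cast_pos.2 Fintype.card_pos
  have h1 := hc ((Pn : Matrix V V ℝ) *ᵥ u)
  have h2 : 0 ≤ ∑ x, ((Pn : Matrix V V ℝ) *ᵥ u) x ^ 2 := sum_nonneg fun _ _ => sq_nonneg _
  have h3 := mul_le_mul_of_nonneg_right (min_le_left m0 s) h2
  have h4 : 0 ≤ (∑ x, u x) ^ 2 / (Fintype.card V : ℝ) := by positivity
  have h5 := mul_le_mul_of_nonneg_right (min_le_right m0 s) h4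
  have h6 : s / Fintype.card V * (∑ x, u x) ^ 2 = s * ((∑ x, u x) ^ 2 / Fintype.card V) := by ring
  rw [h6]
  linarith

lemma qf_Gm_li {μ : (V → ℤ) → ℝ} (hE : EM μ) (hev : Ev μ) (u : V → ℝ) :
    qf (Gm μ) u = Ex μ 0 (fun h => li u h ^ 2) := by
  rw [H789.qf_Gm hE]
  unfold Cv
  rw [H789.Ex_zero_li hev, mul_zero, sub_zero]
  congr 1
  funext h
  exact (pow_two (li u h)).symm

lemma gr_li_sq (u : V → ℝ) : Gr fun h : V → ℤ => li u h ^ 2 := by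
  have h := (Gr.li u).mul (Gr.li u)
  refine (congrArg Gr (funext fun h => ?_)).mp h
  exact (pow_two (li u h)).symm

/-- **limit of the covariance forms** -/
theorem lim_Gm [Nonempty V] {w : (V → ℤ) → ℝ} (hw : GW w) {M : Matrix V V ℝ} {m : ℝ}
    (hM : MF M m) (x₀ : V) {u : V → ℝ} (hu : Neu u) :
    Tendsto (fun s : ℝ => qf (Gm (wM w (Ms M m s))) u) (𝓝[>] 0)
      (𝓝 (qf (Gm (nM w M m x₀)) u)) := by
  rw [qf_Gm_li (hw.em_nM hM x₀) (hw.ev_nM M m x₀)]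
  refine (lim_Ex hw.grd hw.nn hM.symm hM.row (hw.em_nM hM x₀) (F := fun h => li u h ^ 2)
    (fun h => sq_nonneg _) ((H963.grI_li hu).pow 2) (gr_li_sq u)).congr' ?_
  filter_upwards [self_mem_nhdsWithin] with s hs
  exact (qf_Gm_li (hw.em_wM (MF.Ms hM hs)) (ev_wM hw.ev _) u).symm

/-- inverse mass form on neutral vectors -/
lemma qf_inv_neu_le [Nonempty V] {M : Matrix V V ℝ} {m a : ℝ} (hM : MF M m) (ha : 0 < a)
    (hc : ∀ u : V → ℝ, Neu u → a * ∑ x, u x ^ 2 ≤ qf M u) {u : V → ℝ} (hu : Neu u) :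
    qf M⁻¹ u ≤ (∑ x, u x ^ 2) / a := by
  set F := M⁻¹ *ᵥ u with hF
  have h1 := hc F (hM.neu_inv hu)
  have h2 : qf M F = ∑ x, u x * F x := by
    rw [hF, hM.qf_inv, H37.qf_eq]
    rfl
  have h3 : qf M⁻¹ u = ∑ x, u x * F x := by rw [← hM.qf_inv, ← hF, h2]
  rw [h3, le_div_iff₀ ha]
  rw [h2] at h1
  have h4 : ∑ x, u x * F x ≤ (∑ x, u x ^ 2) / (2 * a) + a / 2 * ∑ x, F x ^ 2 := by
    rw [Finset.sum_div, Finset.mul_sum, ← Finset.sum_add_distrib]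
    refine Finset.sum_le_sum fun x _ => ?_
    have h5 : u x ^ 2 / (2 * a) + a / 2 * F x ^ 2 - u x * F x = (u x - a * F x) ^ 2 / (2 * a) := by
      field_simp
      ring
    have h6 : 0 ≤ (u x - a * F x) ^ 2 / (2 * a) := by positivity
    linarith
  have h7 : (∑ x, u x ^ 2) / (2 * a) * (2 * a) = ∑ x, u x ^ 2 := by field_simp
  nlinarith

lemma pow4_le_exp (x : ℝ) : x ^ 4 ≤ 12 * (Real.exp x + Real.exp (-x)) := by
  have h := TM.H574.pow4_le_cosh x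
  rw [Real.cosh_eq] at h
  linarith

/-- fourth moment of a sub-Gaussian coordinate -/
lemma mom4 {μ : (V → ℤ) → ℝ} (hμ : EM μ) {q : V → ℝ} {v : ℝ} (hv : 0 < v)
    (h : ∀ lam : ℝ, Lg μ (lam • q) - Lg μ 0 ≤ lam ^ 2 * v / 2) :
    Ex μ 0 (fun k => li q k ^ 4) ≤ 41 * v ^ 2 := by
  set lam := (Real.sqrt v)⁻¹ with hl
  have hl2 : lam ^ 2 = v⁻¹ := by
    rw [hl, inv_pow, Real.sq_sqrt hv.le]
  have hl4 : lam ^ 4 = (v ^ 2)⁻¹ := by
    have : lam ^ 4 = (lam ^ 2) ^ 2 := by ring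
    rw [this, hl2, inv_pow]
  have h1 : Ex μ 0 (fun k => Real.exp (li (lam • q) k)) ≤ Real.exp (1 / 2) := by
    rw [H730.Ex_exp hμ]
    refine Real.exp_le_exp.2 ((h lam).trans (le_of_eq ?_))
    rw [hl2]
    field_simp
  have h2 : Ex μ 0 (fun k => Real.exp (li ((-lam) • q) k)) ≤ Real.exp (1 / 2) := by
    rw [H730.Ex_exp hμ]
    refine Real.exp_le_exp.2 ((h (-lam)).trans (le_of_eq ?_))
    rw [neg_sq, hl2]
    field_simp
  have g4 : Gr fun k : V → ℤ => li q k ^ 4 := H730.Gr.four (Gr.li q)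
  have gE := ((Gr.exp_li (V := V) (lam • q)).add (Gr.exp_li ((-lam) • q))).cmul (12 * v ^ 2)
  have h3 : Ex μ 0 (fun k => li q k ^ 4) ≤ Ex μ 0 fun k => 12 * v ^ 2 *
      (Real.exp (li (lam • q) k) + Real.exp (li ((-lam) • q) k)) := by
    refine TM.H104.Ex_mono hμ g4 gE (fun k => ?_) 0
    have h4 := pow4_le_exp (li (lam • q) k)
    have e : li ((-lam) • q) k = -li (lam • q) k := by
      rw [neg_smul, TM.H104.li_neg]
    rw [e]
    have e2 : li (lam • q) k ^ 4 = (v ^ 2)⁻¹ * li q k ^ 4 := by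
      rw [TM.H104.li_smul, mul_pow, hl4]
    rw [e2] at h4
    have hv4 : 0 < v ^ 2 := by positivity
    have h5 := mul_le_mul_of_nonneg_left h4 hv4.le
    have e3 : v ^ 2 * ((v ^ 2)⁻¹ * li q k ^ 4) = li q k ^ 4 := by
      field_simp
    rw [e3] at h5
    linarith
  refine h3.trans ?_
  rw [TM.H104.Ex_cmul, TM.H104.Ex_add hμ (Gr.exp_li _) (Gr.exp_li _)]
  have h5 := H730.exp_half_le
  have hv4 : 0 < v ^ 2 := by positivity
  nlinarith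

theorem mom4_nM [Nonempty V] {w : (V → ℤ) → ℝ} (hw : GW w) {M : Matrix V V ℝ} {m a : ℝ}
    (hM : MF M m) (ha : 0 < a) (hc : ∀ u : V → ℝ, Neu u → a * ∑ x, u x ^ 2 ≤ qf M u) (x₀ : V)
    {u : V → ℝ} (hu : Neu u) :
    Ex (nM w M m x₀) 0 (fun k => li u k ^ 4) ≤ 41 * ((∑ x, u x ^ 2) / a) ^ 2 := by
  rcases (sum_nonneg fun x (_ : x ∈ univ) => sq_nonneg (u x)).eq_or_lt with h0 | h0
  · have hz : u = 0 := by
      funext x
      exact pow_eq_zero_iff (by norm_num) |>.1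
        ((sum_eq_zero_iff_of_nonneg fun x _ => sq_nonneg (u x)).1 h0.symm x (mem_univ x))
    have : (fun k : V → ℤ => li u k ^ 4) = fun k => (0 : ℝ) * 1 := by
      funext k
      rw [hz, TM.H104.li_zero]
      norm_num
    rw [this, TM.H104.Ex_cmul, zero_mul]
    positivity
  · refine mom4 (hw.em_nM hM x₀) (by positivity) fun lam => ?_
    have h1 := hw.Lg_nM_le_inv hM x₀ (hu.smul lam)
    have h2 := qf_inv_neu_le hM ha hc (hu.smul lam)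
    have h3 : ∑ x, (lam • u) x ^ 2 = lam ^ 2 * ∑ x, u x ^ 2 := by
      rw [mul_sum]
      exact sum_congr rfl fun x _ => by rw [Pi.smul_apply, smul_eq_mul]; ring
    rw [h3] at h2
    have h4 : lam ^ 2 * ((∑ x, u x ^ 2) / a) = lam ^ 2 * (∑ x, u x ^ 2) / a := by ring
    rw [h4]
    linarith

end gen

/-! ### the torus -/

section tor

variable {N : ℕ} [NeZero N] {b : ℝ}

lemma MasN.masM {t a : ℝ} {M₀ M : Matrix (V N) (V N) ℝ} {m₀ m : ℝ} (h : MasN t a M₀ m₀ M m)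
    {s : ℝ} (hs : 0 < s) (hsa : s ≤ a) (hst : s ≤ t) : MasM t s (Ms M₀ m₀ s) (Ms M m s) where
  s0 := Ms_transpose h.mf0.symm m₀ s
  s1 := Ms_transpose h.mf1.symm m s
  lo u := by
    rw [qf_Ms, qf_ntr_Pn h.mf0, sum_Pn_sq u]
    have h1 := h.lo _ (H963.neu_Pn u)
    have h2 : 0 ≤ ∑ x, ((Pn : Matrix (V N) (V N) ℝ) *ᵥ u) x ^ 2 :=
      sum_nonneg fun _ _ => sq_nonneg _
    have h3 := mul_le_mul_of_nonneg_right hsa h2
    have h6 : s / Fintype.card (V N) * (∑ x, u x) ^ 2 =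
        s * ((∑ x, u x) ^ 2 / Fintype.card (V N)) := by ring
    rw [h6]
    linarith
  mid u := by
    rw [qf_Ms, qf_ntr_Pn h.mf0, qf_Ms, qf_ntr_Pn h.mf1]
    have h1 := h.mid _ (H963.neu_Pn u)
    linarith
  up u := by
    rw [qf_Ms, qf_ntr_Pn h.mf1, sum_Pn_sq u]
    have h1 := h.up _ (H963.neu_Pn u)
    have hN : (0 : ℝ) < Fintype.card (V N) := Nat.cast_pos.2 Fintype.card_pos
    have h2 : 0 ≤ (∑ x, u x) ^ 2 / (Fintype.card (V N) : ℝ) := by positivity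
    have h3 := mul_le_mul_of_nonneg_right hst h2
    have h6 : s / Fintype.card (V N) * (∑ x, u x) ^ 2 =
        s * ((∑ x, u x) ^ 2 / Fintype.card (V N)) := by ring
    rw [h6]
    linarith

/-- for small `s` the mass forms with the mass `s` on the constants are admissible -/
lemma MasN.ev {t a : ℝ} {M₀ M : Matrix (V N) (V N) ℝ} {m₀ m : ℝ} (h : MasN t a M₀ m₀ M m)
    (ht : 0 < t) : ∀ᶠ s in 𝓝[>] (0 : ℝ), 0 < s ∧ MasM t s (Ms M₀ m₀ s) (Ms M m s) := by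
  have h1 : Set.Ioo (0 : ℝ) (min a t) ∈ 𝓝[>] (0 : ℝ) :=
    Ioo_mem_nhdsGT (lt_min h.apos ht)
  filter_upwards [h1] with s hs
  exact ⟨hs.1, h.masM hs.1 (hs.2.le.trans (min_le_left _ _)) (hs.2.le.trans (min_le_right _ _))⟩

/-- **(F0, neutral)** UV1 in the neutral model -/
theorem uv1_N (hb : 0 ≤ b) : ∃ C c : ℝ, 0 < C ∧ 0 < c ∧
    ∀ (N : ℕ) [NeZero N] (t : ℝ), 0 < t → 9 ≤ t * (N : ℝ) ^ 2 →
    ∀ r : ℕ, 2 ≤ r → t * (r : ℝ) ^ 2 ≤ 1 →
    ∀ (y : V N) (u : V N → ℝ), Neu u → (∀ x, x ∉ H375.sq y r → u x = 0) →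
      (∀ x, |u x| ≤ 1 / (r : ℝ) ^ 2) →
    ∀ (a : ℝ) (M₀ M : Matrix (V N) (V N) ℝ) (m₀ m : ℝ), MasN t a M₀ m₀ M m → ∀ x₀ : V N,
      0 ≤ qf (Gm (nM (wT b N) M₀ m₀ x₀)) u - qf (Gm (nM (wT b N) M m x₀)) u ∧
      qf (Gm (nM (wT b N) M₀ m₀ x₀)) u - qf (Gm (nM (wT b N) M m x₀)) u ≤
        C * (t * (r : ℝ) ^ 2) ^ c := by
  obtain ⟨C, c, hC, hc, hU⟩ := uv1_M (b := b) hb
  refine ⟨C, c, hC, hc, ?_⟩
  intro N _ t ht htN r hr htr y u hu hus hub a M₀ M m₀ m hM x₀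
  have hw := gw_wT (N := N) hb
  have hlim := (lim_Gm hw hM.mf0 x₀ hu).sub (lim_Gm hw hM.mf1 x₀ hu)
  have hev := hM.ev ht
  have h1 : ∀ᶠ s in 𝓝[>] (0 : ℝ),
      0 ≤ qf (Gm (wM (wT b N) (Ms M₀ m₀ s))) u - qf (Gm (wM (wT b N) (Ms M m s))) u ∧
      qf (Gm (wM (wT b N) (Ms M₀ m₀ s))) u - qf (Gm (wM (wT b N) (Ms M m s))) u ≤
        C * (t * (r : ℝ) ^ 2) ^ c := by
    filter_upwards [hev] with s hs
    exact hU N t ht htN r hr htr y u hu hus hub s _ _ hs.1 hs.2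
  exact ⟨ge_of_tendsto hlim (h1.mono fun s hs => hs.1), le_of_tendsto hlim (h1.mono fun s hs => hs.2)⟩

lemma nez_div {l : ℕ} (hl : l ∣ N) : NeZero (N / l) :=
  ⟨(Nat.div_pos (Nat.le_of_dvd (NeZero.pos N) hl)
    (Nat.pos_of_dvd_of_pos hl (NeZero.pos N))).ne'⟩

lemma fine_row {l : ℕ} (hl : l ∣ N) (x : V N) :
    ∑ y, (1 - cellP N l : Matrix (V N) (V N) ℝ) x y = 0 := by
  have := nez_div hl
  simp only [Matrix.sub_apply, Finset.sum_sub_distrib, H963.row_one]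
  rw [H963.cellP_ones hl, sub_self]

lemma fine_tr (N l : ℕ) [NeZero N] : (1 - cellP N l : Matrix (V N) (V N) ℝ)ᵀ = 1 - cellP N l := by
  rw [Matrix.transpose_sub, Matrix.transpose_one]
  congr 1
  unfold cellP
  rw [Matrix.transpose_mul, Matrix.transpose_transpose]

lemma grI_fine {l : ℕ} (hl : l ∣ N) :
    GrI fun h : V N → ℤ => qf (1 - cellP N l) (re h) := by
  intro h n
  simp only [H963.re_addc]
  exact H963.qf_addc (fine_tr N l) (fine_row hl) _ _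

lemma fine_nonneg {l : ℕ} (hl : l ∣ N) (u : V N → ℝ) : 0 ≤ qf (1 - cellP N l) u := by
  have := nez_div hl
  rw [H864.qf_one_sub_cellP hl]
  exact sum_nonneg fun _ _ => sq_nonneg _

/-- **(F1, neutral)** the fine energy -/
theorem fine_N (hb : 0 ≤ b) : ∃ C c : ℝ, 0 < C ∧ 0 < c ∧
    ∀ (N : ℕ) [NeZero N] (t : ℝ), 0 < t → 9 ≤ t * (N : ℝ) ^ 2 →
    ∀ l : ℕ, l ∣ N → t * (l : ℝ) ^ 2 ≤ 1 →
    ∀ (a : ℝ) (M₀ M : Matrix (V N) (V N) ℝ) (m₀ m : ℝ), MasN t a M₀ m₀ M m → ∀ x₀ : V N,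
      0 ≤ Ex (nM (wT b N) M₀ m₀ x₀) 0 (fun h => qf (1 - cellP N l) (re h)) -
        Ex (nM (wT b N) M m x₀) 0 (fun h => qf (1 - cellP N l) (re h)) ∧
      Ex (nM (wT b N) M₀ m₀ x₀) 0 (fun h => qf (1 - cellP N l) (re h)) -
        Ex (nM (wT b N) M m x₀) 0 (fun h => qf (1 - cellP N l) (re h)) ≤
        C * (N : ℝ) ^ 2 * (t * (l : ℝ) ^ 2) ^ c := by
  obtain ⟨C, c, hC, hc, hU⟩ := fine_M (b := b) hb
  refine ⟨C, c, hC, hc, ?_⟩
  intro N _ t ht htN l hl htl a M₀ M m₀ m hM x₀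
  have hw := gw_wT (N := N) hb
  have g : Gr fun h : V N → ℤ => qf (1 - cellP N l) (re h) := H447.gr_qf _
  have hlim := (lim_Ex hw.grd hw.nn hM.mf0.symm hM.mf0.row (hw.em_nM hM.mf0 x₀)
    (F := fun h => qf (1 - cellP N l) (re h)) (fun h => fine_nonneg hl _) (grI_fine hl) g).sub
    (lim_Ex hw.grd hw.nn hM.mf1.symm hM.mf1.row (hw.em_nM hM.mf1 x₀)
    (F := fun h => qf (1 - cellP N l) (re h)) (fun h => fine_nonneg hl _) (grI_fine hl) g)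
  have h1 : ∀ᶠ s in 𝓝[>] (0 : ℝ),
      0 ≤ Ex (wM (wT b N) (Ms M₀ m₀ s)) 0 (fun h => qf (1 - cellP N l) (re h)) -
        Ex (wM (wT b N) (Ms M m s)) 0 (fun h => qf (1 - cellP N l) (re h)) ∧
      Ex (wM (wT b N) (Ms M₀ m₀ s)) 0 (fun h => qf (1 - cellP N l) (re h)) -
        Ex (wM (wT b N) (Ms M m s)) 0 (fun h => qf (1 - cellP N l) (re h)) ≤
        C * (N : ℝ) ^ 2 * (t * (l : ℝ) ^ 2) ^ c := by
    filter_upwards [hM.ev ht] with s hs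
    exact hU N t ht htN l hl htl s _ _ hs.1 hs.2
  exact ⟨ge_of_tendsto hlim (h1.mono fun s hs => hs.1), le_of_tendsto hlim (h1.mono fun s hs => hs.2)⟩

/-- the mass path in the neutral model -/
lemma Et_nM {w : (V N → ℤ) → ℝ} (M₀ Q : Matrix (V N) (V N) ℝ) (m₀ : ℝ) (x₀ : V N)
    (F : (V N → ℤ) → ℝ) (v : ℝ) :
    TM.H574.Et (nM w M₀ m₀ x₀) (fun h => qf Q (re h)) F v = Ex (nM w (M₀ + v • Q) m₀ x₀) 0 F := by
  have e : ∀ h, nM w (M₀ + v • Q) m₀ x₀ h =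
      nM w M₀ m₀ x₀ h * Real.exp (-(v / 2) * qf Q (re h)) := by
    intro h
    unfold nM pin
    by_cases h0 : h x₀ = 0
    · rw [if_pos h0, if_pos h0]
      unfold wM
      have e1 : ntr (M₀ + v • Q) m₀ = ntr M₀ m₀ + v • Q := by
        unfold ntr
        abel
      rw [e1, H37.qf_add_mat, H864.qf_smul_mat, mul_assoc, ← Real.exp_add]
      congr 2
      ring
    · rw [if_neg h0, if_neg h0, zero_mul]
  unfold TM.H574.Et TM.H574.At Ex TM.H104.T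
  congr 1
  · refine tsum_congr fun h => ?_
    rw [TM.H104.li_zero, Real.exp_zero, mul_one, e]
    ring
  · refine tsum_congr fun h => ?_
    rw [TM.H104.li_zero, Real.exp_zero, mul_one, e]
    ring

/-- neutral variances decrease in the mass form -/
theorem mono_N (hb : 0 ≤ b) {t a : ℝ} (ht : 0 < t) {M₀ M : Matrix (V N) (V N) ℝ} {m₀ m : ℝ}
    (hM : MasN t a M₀ m₀ M m) (x₀ : V N) {u : V N → ℝ} (hu : Neu u) :
    0 ≤ qf (Gm (nM (wT b N) M₀ m₀ x₀)) u - qf (Gm (nM (wT b N) M m x₀)) u := by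
  have hw := gw_wT (N := N) hb
  have hlim := (lim_Gm hw hM.mf0 x₀ hu).sub (lim_Gm hw hM.mf1 x₀ hu)
  refine ge_of_tendsto hlim ?_
  filter_upwards [hM.ev ht] with s hs
  rw [H375.qf_Gm_ex hb hs.1 hs.2.lo, H375.qf_Gm_ex hb hs.1 fun v => (hs.2.lo v).trans (hs.2.mid v)]
  exact H375.Dm_nonneg hb (hs.2.mas hs.1) u

lemma MF.addf {M₀ : Matrix (V N) (V N) ℝ} {m₀ : ℝ} (h : MF M₀ m₀) {l : ℕ} (hl : l ∣ N) {v : ℝ}
    (hv : 0 ≤ v) : MF (M₀ + v • (1 - cellP N l)) m₀ := by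
  refine ⟨?_, fun x => ?_, ?_⟩
  · rw [Matrix.transpose_add, h.symm, Matrix.transpose_smul, fine_tr]
  · simp only [Matrix.add_apply, Matrix.smul_apply, smul_eq_mul, Finset.sum_add_distrib,
      ← Finset.mul_sum]
    rw [h.row, fine_row hl, mul_zero, add_zero]
  · obtain ⟨m0, hm0, hc⟩ := h.coer
    refine ⟨m0, hm0, fun u => ?_⟩
    rw [H37.qf_add_mat, H864.qf_smul_mat]
    have := mul_nonneg hv (fine_nonneg hl u)
    linarith [hc u]

/-- **(F2, neutral)** switching a fine mass -/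
theorem fine_GN (hb : 0 ≤ b) : ∃ C c : ℝ, 0 < C ∧ 0 < c ∧
    ∀ (N : ℕ) [NeZero N] (t : ℝ), 0 < t → 9 ≤ t * (N : ℝ) ^ 2 →
    ∀ l : ℕ, l ∣ N → t * (l : ℝ) ^ 2 ≤ 1 →
    ∀ (a s : ℝ) (M₀ : Matrix (V N) (V N) ℝ) (m₀ : ℝ), 0 ≤ s → s ≤ t →
      MasN t a M₀ m₀ (M₀ + s • (1 - cellP N l)) m₀ → ∀ (x₀ : V N) (u : V N → ℝ), Neu u →
      0 ≤ qf (Gm (nM (wT b N) M₀ m₀ x₀)) u -
        qf (Gm (nM (wT b N) (M₀ + s • (1 - cellP N l)) m₀ x₀)) u ∧
      qf (Gm (nM (wT b N) M₀ m₀ x₀)) u -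
        qf (Gm (nM (wT b N) (M₀ + s • (1 - cellP N l)) m₀ x₀)) u ≤
        C * ((∑ x, u x ^ 2) / a) * √(t * (N : ℝ) ^ 2) * (t * (l : ℝ) ^ 2) ^ c := by
  obtain ⟨C, c, hC, hc, hU⟩ := fine_N (b := b) hb
  refine ⟨√41 * √(C / 2), c / 2, by positivity, by positivity, ?_⟩
  intro N _ t ht htN l hl htl a s M₀ m₀ hs hst hM x₀ u hu
  have hw := gw_wT (N := N) hb
  refine ⟨mono_N hb ht hM x₀ hu, ?_⟩
  have hF := (hU N t ht htN l hl htl a M₀ _ m₀ m₀ hM x₀).2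
  set Q : Matrix (V N) (V N) ℝ := s • (1 - cellP N l) with hQ
  have hQ0 : ∀ h : V N → ℤ, 0 ≤ qf Q (re h) := fun h => by
    rw [hQ, H864.qf_smul_mat]
    exact mul_nonneg hs (fine_nonneg hl _)
  have hE0 := hw.em_nM hM.mf0 x₀
  have hE1 := hw.em_nM hM.mf1 x₀
  have hS0 : 0 ≤ (∑ x, u x ^ 2) / a := by
    have := hM.apos
    positivity
  have gQ : Gr fun h : V N → ℤ => qf Q (re h) := H447.gr_qf Q
  have s1 : Summable (nM (wT b N) M₀ m₀ x₀) := by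
    refine (hE0.summ (Gr.const 1) 0).congr fun h => ?_
    rw [TM.H104.li_zero, Real.exp_zero, mul_one, one_mul]
  have s2 : Summable fun h => nM (wT b N) M₀ m₀ x₀ h * (li u h ^ 2) ^ 2 := by
    refine (hE0.summ ((gr_li_sq u).mul (gr_li_sq u)) 0).congr fun h => ?_
    rw [TM.H104.li_zero, Real.exp_zero, mul_one]
    ring
  have s3 : Summable fun h => nM (wT b N) M₀ m₀ x₀ h * (qf Q (re h)) ^ 2 := by
    refine (hE0.summ (gQ.mul gQ) 0).congr fun h => ?_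
    rw [TM.H104.li_zero, Real.exp_zero, mul_one]
    ring
  have hp : ∃ h, 0 < nM (wT b N) M₀ m₀ x₀ h := hE0.pos
  have h1 := TM.H574.path (w := nM (wT b N) M₀ m₀ x₀) (Q := fun h => qf Q (re h))
    (F := fun h => li u h ^ 2) (S := √(41 * ((∑ x, u x ^ 2) / a) ^ 2)) hE0.nn hQ0 s1 hp s2 s3
    (Real.sqrt_nonneg _) (by
      intro v hv
      rw [Real.sq_sqrt (by positivity)]
      unfold TM.H574.Ct
      rw [Et_nM]
      have hMv : MF (M₀ + v • Q) m₀ := by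
        rw [hQ, smul_smul]
        exact MF.addf hM.mf0 hl (mul_nonneg hv.1 hs)
      have h4 := mom4_nM hw hMv hM.apos (fun w' hw' => by
        rw [H37.qf_add_mat, H864.qf_smul_mat, hQ, H864.qf_smul_mat]
        have h5 := mul_nonneg hv.1 (mul_nonneg hs (fine_nonneg hl w'))
        linarith [hM.lo w' hw']) x₀ hu
      have e1 : (fun h : V N → ℤ => li u h ^ 2 * li u h ^ 2) = fun h => li u h ^ 4 := by
        funext h; ring
      rw [e1]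
      have := mul_self_nonneg (TM.H574.Et (nM (wT b N) M₀ m₀ x₀) (fun h => qf Q (re h))
        (fun h => li u h ^ 2) v)
      linarith)
  rw [Et_nM, Et_nM, Et_nM, Et_nM, zero_smul, add_zero, one_smul] at h1
  rw [qf_Gm_li hE0 (hw.ev_nM _ _ x₀), qf_Gm_li hE1 (hw.ev_nM _ _ x₀)]
  have hD : Ex (nM (wT b N) M₀ m₀ x₀) 0 (fun h => qf Q (re h)) -
      Ex (nM (wT b N) (M₀ + Q) m₀ x₀) 0 (fun h => qf Q (re h)) ≤
      t * (C * (N : ℝ) ^ 2 * (t * (l : ℝ) ^ 2) ^ c) := by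
    have e2 : (fun h : V N → ℤ => qf Q (re h)) = fun h => s * qf (1 - cellP N l) (re h) := by
      funext h
      rw [hQ, H864.qf_smul_mat]
    rw [e2, TM.H104.Ex_cmul, TM.H104.Ex_cmul, ← mul_sub]
    calc _ ≤ s * (C * (N : ℝ) ^ 2 * (t * (l : ℝ) ^ 2) ^ c) := mul_le_mul_of_nonneg_left hF hs
      _ ≤ _ := mul_le_mul_of_nonneg_right hst (by positivity)
  refine (le_abs_self _).trans (h1.trans ((mul_le_mul_of_nonneg_left (Real.sqrt_le_sqrt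
    (div_le_div_of_nonneg_right hD zero_le_two)) (Real.sqrt_nonneg _)).trans_eq ?_))
  have e2 : √(41 * ((∑ x, u x ^ 2) / a) ^ 2) = √41 * ((∑ x, u x ^ 2) / a) := by
    rw [Real.sqrt_mul (by norm_num), Real.sqrt_sq hS0]
  have e3 : √(t * (C * (N : ℝ) ^ 2 * (t * (l : ℝ) ^ 2) ^ c) / 2) =
      √(C / 2) * √(t * (N : ℝ) ^ 2) * (t * (l : ℝ) ^ 2) ^ (c / 2) := by
    have e4 : t * (C * (N : ℝ) ^ 2 * (t * (l : ℝ) ^ 2) ^ c) / 2 =
        (C / 2) * (t * (N : ℝ) ^ 2) * (t * (l : ℝ) ^ 2) ^ c := by ring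
    have e5 : √((t * (l : ℝ) ^ 2) ^ c) = (t * (l : ℝ) ^ 2) ^ (c / 2) := by
      rw [Real.sqrt_eq_rpow, ← Real.rpow_mul (by positivity)]
      congr 1
      ring
    rw [e4, Real.sqrt_mul (by positivity), Real.sqrt_mul (by positivity), e5]
  rw [e2, e3]
  ring

end tor

end

end Vale.Agent.P159.H159
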