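import Vale.Agent.P159.H447.MassF
import Vale.Agent.P159.H447.MassH

/-!
P159, module DREC (helper159), part 2: the mean value theorem along the SCALAR masses `τ · 1`.

`C` observation matrix on the cell torus, `S` mass direction (`1` or the neutral projection),
`g(τ,k)` symbol of `C G_τ Cᵀ`. There is one mass `τ` in `(a,c)` with
`K4S_τ(CᵀC, S)/2 ≤ (c-a)⁻¹ ∑_k g(a,k)² ((1/g(c,k) - c) - (1/g(a,k) - a))`.
-/

set_option linter.unusedSectionVars false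

namespace Vale.Agent.P159.H159

open Finset Matrix Filter Topology
open Vale.Agent.P159.TM.H104 (EM Ex Cv K3 Lg li nh Gr)
open Vale.Agent.P159.H37
open Vale.Agent.P159.TM.Spec (V)
open Vale.Agent.P159.TM.SpecC (wT ms)
open Vale.Agent.P159.H864 (TI sym MC GM Gck PiCk cobV cellP_eq)
open Vale.Agent.P159.H447 (Nn K4S K4c HDM hdm_Gc K4S_rank_nonneg K4S_gram_nonneg K4c_bf
  trace_mul_K4c SN CN CN_gram CN_eq K4S_sub_right)
open Vale.Agent.P159.H963 (nMC nM pin ntr Pn Cn Gnc GnC PinC gw_wT nwt)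

noncomputable section

/-- the hypotheses of the scalar mass step -/
structure Sc {N n : ℕ} [NeZero N] [NeZero n] (C : Matrix (V n) (V N) ℝ) (S : Matrix (V N) (V N) ℝ)
    (μ : (V N → ℤ) → ℝ) (T : Finset (V n)) : Prop where
  nn : ∀ h, 0 ≤ μ h
  ev : Ev μ
  tr : Sᵀ = S
  id : S * S = S
  em : ∀ a : ℝ, 0 < a → EM (wM μ (a • S))
  pk : ∀ a : ℝ, 0 < a → PK (wM μ (a • S))
  ti : ∀ a : ℝ, 0 < a → TI (H447.Gc C (wM μ (a • S)))
  ti2 : ∀ a : ℝ, 0 < a → TI (C * (Gm (wM μ (a • S)) * S * Gm (wM μ (a • S))) * Cᵀ)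
  hsq : ∀ a : ℝ, 0 < a → ∀ φ, qf (H447.Gc C (wM μ (a • S)) * H447.Gc C (wM μ (a • S))) φ ≤
    qf (C * (Gm (wM μ (a • S)) * S * Gm (wM μ (a • S))) * Cᵀ) φ
  pos : ∀ a : ℝ, 0 < a → ∀ k ∈ T, 0 < sym (H447.Gc C (wM μ (a • S))) k
  out : ∀ a : ℝ, 0 < a → ∀ k, k ∉ T → sym (H447.Gc C (wM μ (a • S))) k = 0

section main

variable {N n : ℕ} [NeZero N] [NeZero n] {C : Matrix (V n) (V N) ℝ} {S : Matrix (V N) (V N) ℝ}
  {μ : (V N → ℤ) → ℝ} {T : Finset (V n)}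

/-- symbol of the observed covariance -/
def gS (C : Matrix (V n) (V N) ℝ) (S : Matrix (V N) (V N) ℝ) (μ : (V N → ℤ) → ℝ) (τ : ℝ)
    (k : V n) : ℝ := sym (H447.Gc C (wM μ (τ • S))) k

/-- symbol of the fourth cumulant -/
def kS (C : Matrix (V n) (V N) ℝ) (S : Matrix (V N) (V N) ℝ) (μ : (V N → ℤ) → ℝ) (τ : ℝ)
    (k : V n) : ℝ := sym (K4c C S (wM μ (τ • S))) k

/-- symbol of the quadratic part -/
def qS (C : Matrix (V n) (V N) ℝ) (S : Matrix (V N) (V N) ℝ) (μ : (V N → ℤ) → ℝ) (τ : ℝ)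
    (k : V n) : ℝ := sym (C * (Gm (wM μ (τ • S)) * S * Gm (wM μ (τ • S))) * Cᵀ) k

lemma Sc.gram (h : Sc C S μ T) : Sᵀ * S = S := by rw [h.tr, h.id]

lemma Sc.nnS (h : Sc C S μ T) : Nn S := by
  rw [← h.gram]
  exact H447.nn_gram S

lemma Sc.hdm (h : Sc C S μ T) {τ : ℝ} (hτ : 0 < τ) :
    HDM (fun τ => H447.Gc C (wM μ (τ • S))) (-(1 / 2 : ℝ) • K4c C S (wM μ (τ • S)) -
      C * (Gm (wM μ (τ • S)) * S * Gm (wM μ (τ • S))) * Cᵀ) τ :=
  hdm_Gc C h.nn h.ev h.nnS h.tr (h.em (τ / 2) (by positivity)) (by linarith)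

lemma Sc.tiD (h : Sc C S μ T) {τ : ℝ} (hτ : 0 < τ) :
    TI (-(1 / 2 : ℝ) • K4c C S (wM μ (τ • S)) -
      C * (Gm (wM μ (τ • S)) * S * Gm (wM μ (τ • S))) * Cᵀ) := by
  have h1 := h.hdm hτ
  constructor
  · intro c x y
    refine (h1 (x + c) (y + c)).unique ?_
    refine (h1 x y).congr_of_eventuallyEq ?_
    filter_upwards [lt_mem_nhds hτ] with s hs
    exact (h.ti s hs).tr c x y
  · intro x y
    refine (h1 x y).unique ?_
    refine (h1 y x).congr_of_eventuallyEq ?_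
    filter_upwards [lt_mem_nhds hτ] with s hs
    exact (h.ti s hs).sy x y

lemma Sc.tiK (h : Sc C S μ T) {τ : ℝ} (hτ : 0 < τ) : TI (K4c C S (wM μ (τ • S))) := by
  have h1 := ((h.tiD hτ).add (h.ti2 τ hτ)).smul (-2)
  have e : (-2 : ℝ) • (-(1 / 2 : ℝ) • K4c C S (wM μ (τ • S)) -
      C * (Gm (wM μ (τ • S)) * S * Gm (wM μ (τ • S))) * Cᵀ +
      C * (Gm (wM μ (τ • S)) * S * Gm (wM μ (τ • S))) * Cᵀ) = K4c C S (wM μ (τ • S)) := by
    rw [sub_add_cancel, smul_smul]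
    norm_num
  rwa [e] at h1

lemma Sc.deriv (h : Sc C S μ T) {τ : ℝ} (hτ : 0 < τ) (k : V n) :
    HasDerivAt (fun τ => gS C S μ τ k) (-(1 / 2 * kS C S μ τ k + qS C S μ τ k)) τ := by
  have h1 := h.hdm hτ
  have h2 : HasDerivAt (fun τ => gS C S μ τ k) (sym (-(1 / 2 : ℝ) • K4c C S (wM μ (τ • S)) -
      C * (Gm (wM μ (τ • S)) * S * Gm (wM μ (τ • S))) * Cᵀ) k) τ := by
    unfold gS
    simp only [H864.sym_def]
    exact HasDerivAt.fun_sum fun z _ => (h1 0 z).mul_const _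
  refine h2.congr_deriv ?_
  rw [H864.sym_sub, H864.sym_smul]
  unfold kS qS
  ring

lemma Sc.kS_nonneg (h : Sc C S μ T) {τ : ℝ} (hτ : 0 < τ) (k : V n) : 0 ≤ kS C S μ τ k := by
  refine H864.sym_nonneg_of_psd (h.tiK hτ) (fun u => ?_) k
  rw [← bf_self, K4c_bf (h.em τ hτ)]
  have h1 := K4S_rank_nonneg (h.em τ hτ) (ev_wM h.ev _) (h.pk τ hτ) (Cᵀ *ᵥ u) S
  rwa [h.gram] at h1

lemma Sc.qS_ge (h : Sc C S μ T) {τ : ℝ} (hτ : 0 < τ) (k : V n) :
    gS C S μ τ k ^ 2 ≤ qS C S μ τ k := by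
  have h1 := (H864.qf_le_iff ((h.ti τ hτ).mul (h.ti τ hτ)) (h.ti2 τ hτ)).1 (h.hsq τ hτ) k
  rw [H864.sym_mul (h.ti τ hτ) (h.ti τ hτ)] at h1
  unfold gS qS
  rw [pow_two]
  exact h1

lemma Sc.anti (h : Sc C S μ T) {a τ : ℝ} (ha : 0 < a) (haτ : a ≤ τ) (k : V n) :
    gS C S μ τ k ≤ gS C S μ a k := by
  have h1 : AntitoneOn (fun τ => gS C S μ τ k) (Set.Ioi 0) := by
    refine antitoneOn_of_deriv_nonpos (convex_Ioi 0) (fun s hs => ?_) (fun s hs => ?_) fun s hs => ?_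
    · exact (h.deriv hs k).continuousAt.continuousWithinAt
    · rw [interior_Ioi] at hs
      exact (h.deriv hs k).differentiableAt.differentiableWithinAt
    · rw [interior_Ioi] at hs
      rw [(h.deriv hs k).deriv]
      have h2 := h.kS_nonneg hs k
      have h3 := h.qS_ge hs k
      nlinarith [sq_nonneg (gS C S μ s k)]
  exact h1 ha (ha.trans_le haτ) haτ

lemma Sc.kS_out (h : Sc C S μ T) {τ : ℝ} (hτ : 0 < τ) {k : V n} (hk : k ∉ T) :
    kS C S μ τ k = 0 := by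
  have h1 : -(1 / 2 * kS C S μ τ k + qS C S μ τ k) = 0 := by
    refine (h.deriv hτ k).unique ?_
    refine (hasDerivAt_const τ (0 : ℝ)).congr_of_eventuallyEq ?_
    filter_upwards [lt_mem_nhds hτ] with s hs
    exact h.out s hs k hk
  have h2 := h.kS_nonneg hτ k
  have h3 := h.qS_ge hτ k
  nlinarith [sq_nonneg (gS C S μ τ k)]

/-- exact trace identity -/
lemma Sc.sum_kS (h : Sc C S μ T) {τ : ℝ} (hτ : 0 < τ) :
    ∑ k ∈ T, kS C S μ τ k = K4S (wM μ (τ • S)) (Cᵀ * C) S := by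
  have h1 : ∑ k ∈ T, kS C S μ τ k = ∑ k, kS C S μ τ k :=
    Finset.sum_subset (Finset.subset_univ _) fun k _ hk => h.kS_out hτ hk
  have h2 := trace_mul_K4c (h.em τ hτ) C S 1
  rw [Matrix.one_mul, Matrix.mul_one, (h.tiK hτ).trace_eq] at h2
  rw [h1, ← h2]
  rfl

/-- **the mass step along the scalar masses** -/
theorem Sc.step (h : Sc C S μ T) {a c : ℝ} (ha : 0 < a) (hac : a < c) :
    ∃ τ ∈ Set.Ioo a c, 1 / 2 * K4S (wM μ (τ • S)) (Cᵀ * C) S ≤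
      (c - a)⁻¹ * ∑ k ∈ T, gS C S μ a k ^ 2 *
        (((gS C S μ c k)⁻¹ - c) - ((gS C S μ a k)⁻¹ - a)) := by
  set Φ : ℝ → ℝ := fun τ => ∑ k ∈ T, gS C S μ a k ^ 2 * ((gS C S μ τ k)⁻¹ - τ) with hΦ
  set Φ' : ℝ → ℝ := fun τ => ∑ k ∈ T, gS C S μ a k ^ 2 *
    ((1 / 2 * kS C S μ τ k + qS C S μ τ k) / gS C S μ τ k ^ 2 - 1) with hΦ'
  have hd : ∀ τ, 0 < τ → HasDerivAt Φ (Φ' τ) τ := by
    intro τ hτ
    refine HasDerivAt.fun_sum fun k hk => ?_
    have hg := h.pos τ hτ k hk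
    have h1 := ((h.deriv hτ k).inv hg.ne').sub (hasDerivAt_id τ)
    refine (h1.const_mul (gS C S μ a k ^ 2)).congr_deriv ?_
    rw [neg_neg]
  obtain ⟨τ, hτ, hs⟩ := exists_hasDerivAt_eq_slope Φ Φ' hac
    (fun τ hτ => (hd τ (ha.trans_le hτ.1)).continuousAt.continuousWithinAt)
    fun τ hτ => hd τ (ha.trans hτ.1)
  have hτ0 : 0 < τ := ha.trans hτ.1
  refine ⟨τ, hτ, ?_⟩
  have e1 : (c - a)⁻¹ * ∑ k ∈ T, gS C S μ a k ^ 2 *
      (((gS C S μ c k)⁻¹ - c) - ((gS C S μ a k)⁻¹ - a)) = Φ' τ := by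
    rw [hs, div_eq_inv_mul]
    congr 1
    simp only [hΦ]
    rw [← Finset.sum_sub_distrib]
    exact Finset.sum_congr rfl fun k _ => by ring
  rw [e1, ← h.sum_kS hτ0, Finset.mul_sum]
  refine Finset.sum_le_sum fun k hk => ?_
  have hg := h.pos τ hτ0 k hk
  change 0 < gS C S μ τ k at hg
  have hga := h.anti ha hτ.1.le k
  have hk0 := h.kS_nonneg hτ0 k
  have hq := h.qS_ge hτ0 k
  have h1 : 1 / 2 * kS C S μ τ k / gS C S μ τ k ^ 2 ≤
      (1 / 2 * kS C S μ τ k + qS C S μ τ k) / gS C S μ τ k ^ 2 - 1 := by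
    rw [add_div]
    have : 1 ≤ qS C S μ τ k / gS C S μ τ k ^ 2 := by
      rw [le_div_iff₀ (by positivity)]
      linarith
    linarith
  have h2 : 1 / 2 * kS C S μ τ k ≤
      gS C S μ a k ^ 2 * (1 / 2 * kS C S μ τ k / gS C S μ τ k ^ 2) := by
    rw [← mul_div_assoc, le_div_iff₀ (by positivity), mul_comm]
    exact mul_le_mul_of_nonneg_right (pow_le_pow_left₀ hg.le hga 2) (by positivity)
  exact h2.trans (mul_le_mul_of_nonneg_left h1 (sq_nonneg _))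

end main

/-! ### the squares -/

/-- `(C A Cᵀ)² ≤ C A S A Cᵀ` when `CᵀC ≤ S` -/
lemma gc_sq_le {N n : ℕ} [NeZero N] [NeZero n] {C : Matrix (V n) (V N) ℝ}
    {S : Matrix (V N) (V N) ℝ} (hC : ∀ u : V N → ℝ, qf (Cᵀ * C) u ≤ qf S u)
    {A : Matrix (V N) (V N) ℝ} (hA : Aᵀ = A) (φ : V n → ℝ) :
    qf (C * A * Cᵀ * (C * A * Cᵀ)) φ ≤ qf (C * (A * S * A) * Cᵀ) φ := by
  have e1 : C * A * Cᵀ * (C * A * Cᵀ) = (A * Cᵀ)ᵀ * (Cᵀ * C) * (A * Cᵀ) := by
    simp only [Matrix.transpose_mul, Matrix.transpose_transpose, hA, Matrix.mul_assoc]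
  have e2 : C * (A * S * A) * Cᵀ = (A * Cᵀ)ᵀ * S * (A * Cᵀ) := by
    simp only [Matrix.transpose_mul, Matrix.transpose_transpose, hA, Matrix.mul_assoc]
  rw [e1, e2, ← H447.qf_conj, ← H447.qf_conj]
  exact hC _

section inst

variable {N l : ℕ} [NeZero N] [NeZero (N / l)] {b : ℝ}

lemma cob_contr (hl : l ∣ N) (u : V N → ℝ) :
    qf ((cobV N l)ᵀ * cobV N l) u ≤ qf (1 : Matrix (V N) (V N) ℝ) u := by
  rw [← cellP_eq hl, H864.qf_one]
  exact H864.qf_cellP_le hl u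

lemma CN_contr (hl : l ∣ N) (u : V N → ℝ) :
    qf ((CN N l)ᵀ * CN N l) u ≤ qf (Pn : Matrix (V N) (V N) ℝ) u := by
  have h1 : qf (Pn : Matrix (V N) (V N) ℝ) u =
      ∑ x, ((Pn : Matrix (V N) (V N) ℝ) *ᵥ u) x ^ 2 := by
    rw [← qf_gram, H963.Pn_transpose, H963.Pn_mul_Pn]
  have h2 : (CN N l)ᵀ * CN N l =
      (Pn : Matrix (V N) (V N) ℝ)ᵀ * ((cobV N l)ᵀ * cobV N l) * Pn := by
    rw [CN_eq hl, Matrix.transpose_mul]
    simp only [Matrix.mul_assoc]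
  rw [h2, ← H447.qf_conj, h1, ← H864.qf_one]
  exact cob_contr hl _

/-- the scalar family of the integer model -/
theorem sc_int (hb : 0 < b) (hl : l ∣ N) :
    Sc (cobV N l) (1 : Matrix (V N) (V N) ℝ) (wT b N) Finset.univ where
  nn := H864.wT_nonneg hb.le
  ev := H789.wT_even
  tr := Matrix.transpose_one
  id := Matrix.one_mul 1
  em a ha := H789.em_wt hb.le ha
  pk a ha := H789.pk_wt hb.le ha
  ti a ha := by
    have h := H864.ti_Gc_GM (N := N) hl b a a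
    rw [H864.GM_self] at h
    exact h
  ti2 a ha := by
    rw [Matrix.mul_one]
    have h1 : TI (Gm (wt N b a)) := H864.ti_Gm_wt a
    exact H864.ti_Gc hl (h1.mul h1).ct
  hsq a ha φ := gc_sq_le (cob_contr hl) (H114.Gm_transpose _) φ
  pos a ha k _ := by
    have h := H864.Gck_pos (N := N) (l := l) hb hl ha le_rfl k
    unfold Gck at h
    rw [H864.GM_self] at h
    exact h
  out a ha k hk := absurd (Finset.mem_univ k) hk

/-! ### the neutral model -/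

lemma ntr_one (N : ℕ) [NeZero N] (a : ℝ) :
    ntr (a • (1 : Matrix (V N) (V N) ℝ)) a = a • (Pn : Matrix (V N) (V N) ℝ) := by
  ext x y
  unfold H963.Pn H963.ntr
  simp only [Matrix.sub_apply, Matrix.smul_apply, Matrix.of_apply, smul_eq_mul]
  ring

lemma wM_pin_nwt (N : ℕ) [NeZero N] (b a : ℝ) :
    wM (pin (wT b N) 0) (a • (Pn : Matrix (V N) (V N) ℝ)) = nwt N b a 0 := by
  unfold H963.nwt H963.nM
  rw [ntr_one, H447.wM_pin]

/-- the scalar family of the neutral model -/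
theorem sc_neu (hb : 0 < b) (hl : l ∣ N) :
    Sc (CN N l) (Pn : Matrix (V N) (V N) ℝ) (pin (wT b N) 0) (Finset.univ.erase 0) where
  nn h := H963.pin_nonneg (H864.wT_nonneg hb.le) 0 h
  ev := H963.ev_pin H789.wT_even 0
  tr := H963.Pn_transpose
  id := H963.Pn_mul_Pn
  em a ha := by
    rw [wM_pin_nwt]
    exact H963.em_nwt hb.le ha 0
  pk a ha := by
    rw [wM_pin_nwt]
    exact H963.pk_nwt hb.le ha 0
  ti a ha := by
    rw [wM_pin_nwt, ← H963.nMC_self N l, H447.Gc_CN hl]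
    exact H963.ti_Gnc hb.le hl ha le_rfl
  ti2 a ha := by
    rw [wM_pin_nwt]
    have h1 := H963.ti_Gn (N := N) hb.le ha
    have h2 := H864.ti_Gc hl (h1.mul h1).ct
    have e : CN N l * (Gm (nwt N b a 0) * (Pn : Matrix (V N) (V N) ℝ) * Gm (nwt N b a 0)) *
        (CN N l)ᵀ = H864.Gc l (H963.Gn N b a * H963.Gn N b a) := by
      have h3 : (CN N l)ᵀ = (Pn : Matrix (V N) (V N) ℝ) * (cobV N l)ᵀ := by
        rw [CN_eq hl, Matrix.transpose_mul, H963.Pn_transpose]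
      have h4 : H963.Gn N b a = (Pn : Matrix (V N) (V N) ℝ) * Gm (nwt N b a 0) * Pn := rfl
      have h5 : (Pn : Matrix (V N) (V N) ℝ) * (Pn : Matrix (V N) (V N) ℝ) = Pn := H963.Pn_mul_Pn
      rw [h3, CN_eq hl, h4]
      unfold H864.Gc
      simp only [Matrix.mul_assoc]
      rw [← Matrix.mul_assoc (Pn : Matrix (V N) (V N) ℝ) (Pn : Matrix (V N) (V N) ℝ), h5]
    rw [e]
    exact h2
  hsq a ha φ := gc_sq_le (CN_contr hl) (H114.Gm_transpose _) φ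
  pos a ha k hk := by
    have hk0 := Finset.ne_of_mem_erase hk
    rw [wM_pin_nwt, ← H963.nMC_self N l, H447.Gc_CN hl]
    exact H963.sym_Gnc_pos hb hl ha le_rfl hk0
  out a ha k hk := by
    have hk0 : k = 0 := by
      by_contra h
      exact hk (Finset.mem_erase.2 ⟨h, Finset.mem_univ _⟩)
    subst hk0
    rw [wM_pin_nwt, ← H963.nMC_self N l, H447.Gc_CN hl]
    exact H963.sym_Gnc_zero hl hb.le ha le_rfl

lemma SN_eq (hl : l ∣ N) : SN N l = (Pn : Matrix (V N) (V N) ℝ) * cellP N l := by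
  have h1 : (Pn : Matrix (V N) (V N) ℝ) * cellP N l = cellP N l * Pn := by
    rw [cellP_eq hl, ← Matrix.mul_assoc, H963.Pn_mul_cobV_tr hl, Matrix.mul_assoc,
      ← H963.cobV_mul_Pn hl, Matrix.mul_assoc]
  unfold H447.SN
  rw [← H963.Pn_cellP_Pn hl, h1, Matrix.mul_assoc, H963.Pn_mul_Pn]

lemma SN_sq (hl : l ∣ N) : SN N l * SN N l = SN N l := by
  have h1 : (Pn : Matrix (V N) (V N) ℝ) * cellP N l = cellP N l * Pn := by
    rw [cellP_eq hl, ← Matrix.mul_assoc, H963.Pn_mul_cobV_tr hl, Matrix.mul_assoc,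
      ← H963.cobV_mul_Pn hl, Matrix.mul_assoc]
  rw [SN_eq hl]
  nth_rewrite 2 [h1]
  rw [Matrix.mul_assoc, ← Matrix.mul_assoc (cellP N l), H864.cellP_mul_self hl, ← h1,
    ← Matrix.mul_assoc, H963.Pn_mul_Pn]

lemma Pn_mul_SN (hl : l ∣ N) : (Pn : Matrix (V N) (V N) ℝ) * SN N l = SN N l := by
  rw [SN_eq hl, ← Matrix.mul_assoc, H963.Pn_mul_Pn]

lemma SN_mul_Pn (hl : l ∣ N) : SN N l * (Pn : Matrix (V N) (V N) ℝ) = SN N l := by
  have h := congrArg Matrix.transpose (Pn_mul_SN (N := N) hl)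
  rwa [Matrix.transpose_mul, H447.SN_tr hl, H963.Pn_transpose] at h

lemma K4S_SN_le (hl : l ∣ N) {μ : (V N → ℤ) → ℝ} (hμ : EM μ) (he : Ev μ) (hK : PK μ) :
    K4S μ (SN N l) (SN N l) ≤ K4S μ (SN N l) (Pn : Matrix (V N) (V N) ℝ) := by
  have e : ((Pn : Matrix (V N) (V N) ℝ) - SN N l)ᵀ * ((Pn : Matrix (V N) (V N) ℝ) - SN N l) =
      (Pn : Matrix (V N) (V N) ℝ) - SN N l := by
    rw [Matrix.transpose_sub, H963.Pn_transpose, H447.SN_tr hl, Matrix.sub_mul, Matrix.mul_sub,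
      Matrix.mul_sub, H963.Pn_mul_Pn, Pn_mul_SN hl, SN_mul_Pn hl, SN_sq hl, sub_self, sub_zero]
  have h1 := K4S_gram_nonneg hμ he hK (CN N l) ((Pn : Matrix (V N) (V N) ℝ) - SN N l)
  rw [CN_gram hl, e, K4S_sub_right hμ] at h1
  linarith

/-- **the mass step along the scalar masses, neutral model** -/
theorem scal_stepN (hb : 0 < b) (hl : l ∣ N) {a c : ℝ} (ha : 0 < a) (hac : a < c) :
    ∃ τ ∈ Set.Ioo a c, 1 / 2 * K4S (nwt N b τ 0) (SN N l) (SN N l) ≤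
      (c - a)⁻¹ * ∑ k ∈ Finset.univ.erase 0, sym (Gnc N l b a a) k ^ 2 *
        (PinC N l b c c k - PinC N l b a a k) := by
  obtain ⟨τ, hτ, h⟩ := (sc_neu (N := N) (l := l) hb hl).step ha hac
  have hτ0 : 0 < τ := ha.trans hτ.1
  refine ⟨τ, hτ, ?_⟩
  have e : ∀ s : ℝ, ∀ k, gS (CN N l) (Pn : Matrix (V N) (V N) ℝ) (pin (wT b N) 0) s k =
      sym (Gnc N l b s s) k := by
    intro s k
    unfold gS
    rw [wM_pin_nwt, ← H963.nMC_self N l, H447.Gc_CN hl]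
  simp only [e] at h
  rw [wM_pin_nwt, CN_gram hl] at h
  have h1 := K4S_SN_le (N := N) (l := l) hl (H963.em_nwt hb.le hτ0 0) (H963.ev_nwt hb.le τ 0)
    (H963.pk_nwt hb.le hτ0 0)
  refine le_trans (mul_le_mul_of_nonneg_left h1 (by norm_num)) ?_
  exact h

/-- **the mass step along the scalar masses, integer model** -/
theorem scal_step (hb : 0 < b) (hl : l ∣ N) {a c : ℝ} (ha : 0 < a) (hac : a < c) :
    ∃ τ ∈ Set.Ioo a c, 1 / 2 * K4S (wt N b τ) (cellP N l) (cellP N l) ≤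
      (c - a)⁻¹ * ∑ k, Gck N l b a a k ^ 2 * (PiCk N l b c c k - PiCk N l b a a k) := by
  obtain ⟨τ, hτ, h⟩ := (sc_int (N := N) (l := l) hb hl).step ha hac
  have hτ0 : 0 < τ := ha.trans hτ.1
  refine ⟨τ, hτ, ?_⟩
  have e : ∀ s : ℝ, ∀ k, gS (cobV N l) (1 : Matrix (V N) (V N) ℝ) (wT b N) s k =
      Gck N l b s s k := by
    intro s k
    unfold gS Gck
    rw [H864.GM_self]
    rfl
  simp only [e] at h
  rw [← cellP_eq hl] at h
  have hE := H789.em_wt (N := N) hb.le hτ0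
  have hK := H789.pk_wt (N := N) hb.le hτ0
  have e2 : (1 - cellP N l)ᵀ * (1 - cellP N l) = 1 - cellP N l := by
    rw [Matrix.transpose_sub, Matrix.transpose_one, H864.cellP_tr, Matrix.sub_mul, Matrix.one_mul,
      Matrix.mul_sub, Matrix.mul_one, H864.cellP_mul_self hl, sub_self, sub_zero]
  have h1 := K4S_gram_nonneg hE H789.ev_wt hK (cobV N l) (1 - cellP N l)
  rw [← cellP_eq hl, e2, K4S_sub_right hE, sub_nonneg] at h1
  refine le_trans (mul_le_mul_of_nonneg_left h1 (by norm_num)) ?_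
  exact h

end inst

end

end Vale.Agent.P159.H159
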