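import Vale.Agent.P159.H159.Drec
import Vale.Agent.P159.H159.MassS

/-!
P159, module DREC (helper159), part 3: one window, from the symbol inequalities to the fourth
cumulant of the cells at one scalar mass `τ ∈ (a,c)`, neutral model.
-/

namespace Vale.Agent.P159.H159

open Finset Matrix
open Vale.Agent.P159.TM.H104 (EM)
open Vale.Agent.P159.H37
open Vale.Agent.P159.TM.H764 (EE)
open Vale.Agent.P159.TM.Spec (V)
open Vale.Agent.P159.H864 (sym)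
open Vale.Agent.P159.H447 (K4S SN K4S_SN_mono)
open Vale.Agent.P159.H963 (Gnc PinC nwt)

noncomputable section

variable {N l : ℕ} [NeZero N] [NeZero (N / l)] {b : ℝ}

/-- comparison of the cell masses `t0 (1 - P) + τ P` with the scalar masses at both ends -/
structure Fine (N l : ℕ) [NeZero N] [NeZero (N / l)] (b t0 a c : ℝ) (ε : V (N / l) → ℝ) :
    Prop where
  lo : ∀ k, k ≠ 0 → sym (Gnc N l b t0 a) k ≤ sym (Gnc N l b a a) k
  up : ∀ k, k ≠ 0 → sym (Gnc N l b a a) k ≤ sym (Gnc N l b t0 a) k + ε k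
  sm : ∀ k, k ≠ 0 → ε k ≤ sym (Gnc N l b t0 a) k
  hi : ∀ k, k ≠ 0 → sym (Gnc N l b t0 c) k ≤ sym (Gnc N l b c c) k

lemma fine_mode {g gs g' gs' ε a c : ℝ} (hg : 0 < g) (hg' : 0 < g') (h1 : g ≤ gs)
    (h2 : gs ≤ g + ε) (h3 : ε ≤ g) (h4 : g' ≤ gs') (hD : 0 ≤ (g'⁻¹ - c) - (g⁻¹ - a)) :
    gs ^ 2 * ((gs'⁻¹ - c) - (gs⁻¹ - a)) ≤ 4 * (g ^ 2 * ((g'⁻¹ - c) - (g⁻¹ - a)) + ε) := by
  have hgs : 0 < gs := hg.trans_le h1
  have e1 : gs'⁻¹ ≤ g'⁻¹ := inv_anti₀ hg' h4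
  have e2 : g⁻¹ - gs⁻¹ ≤ ε / (g * gs) := by
    rw [inv_sub_inv hg.ne' hgs.ne']
    exact div_le_div_of_nonneg_right (by linarith) (by positivity)
  have hε : 0 ≤ ε := by linarith
  have e3 : gs ^ 2 * ((gs'⁻¹ - c) - (gs⁻¹ - a)) ≤
      gs ^ 2 * ((g'⁻¹ - c) - (g⁻¹ - a)) + gs ^ 2 * (ε / (g * gs)) := by
    rw [← mul_add]
    exact mul_le_mul_of_nonneg_left (by linarith) (sq_nonneg _)
  have e4 : gs ^ 2 ≤ 4 * g ^ 2 := by nlinarith
  have e5 : gs ^ 2 * (ε / (g * gs)) = gs / g * ε := by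
    field_simp
  have e6 : gs / g ≤ 4 := by
    rw [div_le_iff₀ hg]; linarith
  have e7 := mul_le_mul_of_nonneg_right e4 hD
  have e8 := mul_le_mul_of_nonneg_right e6 hε
  rw [e5] at e3
  linarith

/-- **one window**: fourth cumulant of the cells at one scalar mass between the two priors -/
theorem drec (hb : 0 < b) (hl : l ∣ N) {t0 a c : ℝ} (ha : 0 < a) (hac : a < c) (hc : c ≤ t0)
    {l2 t cc a0 a1 θ δ1 δ2 : ℝ} {g ga ν1 ν2 Δ1 Δ2 e1 : V (N / l) → ℝ}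
    (hD : Dr (N / l) (Finset.univ.erase 0) l2 t a cc a0 a1 θ δ1 δ2 g ga ν1 ν2 Δ1 Δ2 e1)
    (hga : ∀ k, k ≠ 0 → sym (Gnc N l b t0 a) k = ga k)
    (hΔ2 : ∀ k, k ≠ 0 → PinC N l b t0 c k - PinC N l b t0 a k = Δ2 k)
    {ε : V (N / l) → ℝ} (hF : Fine N l b t0 a c ε) :
    ∃ τ ∈ Set.Ioo a c, 1 / 2 * K4S (nwt N b τ 0) (SN N l) (SN N l) ≤
      4 * (c - a)⁻¹ * ((1 - θ)⁻¹ * (θ * ∑ k ∈ Finset.univ.erase 0, ga k ^ 2 * Δ1 k +
        25 * ((1 + a0 + a1) / cc) ^ 2 * δ1 * (((N / l : ℕ) : ℝ) ^ 2 * l2) *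
          (1 + Real.log (1 + cc * t / a)) +
        ((1 + a0 + a1) / cc) ^ 2 * δ2 + ∑ k ∈ Finset.univ.erase 0, ga k ^ 2 * e1 k) +
        ∑ k ∈ Finset.univ.erase 0, ε k) := by
  obtain ⟨τ, hτ, h⟩ := scal_stepN (N := N) (l := l) hb hl ha hac
  refine ⟨τ, hτ, h.trans ?_⟩
  have hca : 0 < (c - a)⁻¹ := inv_pos.2 (sub_pos.2 hac)
  have h1 : ∑ k ∈ Finset.univ.erase 0, sym (Gnc N l b a a) k ^ 2 *
      (PinC N l b c c k - PinC N l b a a k) ≤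
      4 * (∑ k ∈ Finset.univ.erase 0, ga k ^ 2 * Δ2 k + ∑ k ∈ Finset.univ.erase 0, ε k) := by
    rw [← Finset.sum_add_distrib, Finset.mul_sum]
    refine Finset.sum_le_sum fun k hk => ?_
    have hk0 := Finset.ne_of_mem_erase hk
    have hg := H963.sym_Gnc_pos (N := N) (l := l) (t := t0) hb hl ha (hac.le.trans hc) hk0
    have hg' := H963.sym_Gnc_pos (N := N) (l := l) (t := t0) hb hl (ha.trans hac) hc hk0
    have hmono := H447.PinC_mono (N := N) (l := l) hb hl ha hac.le hc hk0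
    have h2 := fine_mode (a := a) (c := c) hg hg' (hF.lo k hk0) (hF.up k hk0) (hF.sm k hk0)
      (hF.hi k hk0) (by unfold PinC at hmono; linarith)
    rw [← hga k hk0, ← hΔ2 k hk0]
    exact h2
  have h3 := hD.main
  calc (c - a)⁻¹ * ∑ k ∈ Finset.univ.erase 0, sym (Gnc N l b a a) k ^ 2 *
        (PinC N l b c c k - PinC N l b a a k)
      ≤ (c - a)⁻¹ * (4 * (∑ k ∈ Finset.univ.erase 0, ga k ^ 2 * Δ2 k +
          ∑ k ∈ Finset.univ.erase 0, ε k)) := mul_le_mul_of_nonneg_left h1 hca.le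
    _ = 4 * (c - a)⁻¹ * (∑ k ∈ Finset.univ.erase 0, ga k ^ 2 * Δ2 k +
          ∑ k ∈ Finset.univ.erase 0, ε k) := by ring
    _ ≤ _ := mul_le_mul_of_nonneg_left (by linarith) (by positivity)

/-- the same for coarser cells -/
theorem drec' {l' : ℕ} [NeZero (N / l')] (hb : 0 < b) (hl : l ∣ N) (hl' : l' ∣ N) (hll : l ∣ l')
    {a c B : ℝ} (ha : 0 < a)
    (h : ∃ τ ∈ Set.Ioo a c, 1 / 2 * K4S (nwt N b τ 0) (SN N l) (SN N l) ≤ B) :
    ∃ τ ∈ Set.Ioo a c, 1 / 2 * K4S (nwt N b τ 0) (SN N l') (SN N l') ≤ B := by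
  obtain ⟨τ, hτ, h⟩ := h
  have hτ0 : 0 < τ := ha.trans hτ.1
  refine ⟨τ, hτ, le_trans (mul_le_mul_of_nonneg_left ?_ (by norm_num)) h⟩
  exact K4S_SN_mono hl hl' hll (H963.em_nwt hb.le hτ0 0) (H963.ev_nwt hb.le τ 0)
    (H963.pk_nwt hb.le hτ0 0)

end

end Vale.Agent.P159.H159
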