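import Vale.Agent.P159.H864.Fou0

/-!
P159, module TRN (helper159): a symmetric kernel on a finite set which is partitioned into boxes;
the pairing with the matrices `0 ≤ W ≤ 1` is bounded by the pairings with the matrices
`S = B Bᵀ ≤ 1` supported in two near boxes, plus the far entries. For translation invariant
kernels on the torus: the sum of the absolute values of the symbol.
-/

namespace Vale.Agent.P159.H159

open Finset Matrix
open Vale.Agent.P159.H37 Vale.Agent.P159.H864

section abstract

variable {V ι J : Type*} [Fintype V] [Fintype ι] [Fintype J]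

/-- pairing of two matrices -/
def pr (S T : Matrix V V ℝ) : ℝ := ∑ x, ∑ y, S x y * T x y

theorem pr_add (S S' T : Matrix V V ℝ) : pr (S + S') T = pr S T + pr S' T := by
  simp only [pr, Matrix.add_apply, add_mul, Finset.sum_add_distrib]

theorem pr_sub (S S' T : Matrix V V ℝ) : pr (S - S') T = pr S T - pr S' T := by
  simp only [pr, Matrix.sub_apply, sub_mul, Finset.sum_sub_distrib]

theorem pr_smul (c : ℝ) (S T : Matrix V V ℝ) : pr (c • S) T = c * pr S T := by
  simp only [pr, Matrix.smul_apply, smul_eq_mul, Finset.mul_sum, mul_assoc]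

theorem qf_mul_tr (B : Matrix V J ℝ) (u : V → ℝ) : qf (B * Bᵀ) u = ∑ j, (∑ x, u x * B x j) ^ 2 := by
  have h : B * Bᵀ = (Bᵀ)ᵀ * Bᵀ := by rw [Matrix.transpose_transpose]
  rw [h, qf_gram]
  refine Finset.sum_congr rfl fun j _ => ?_
  simp only [mulVec, dotProduct, transpose_apply]
  congr 1
  exact Finset.sum_congr rfl fun x _ => mul_comm _ _

/-- contraction: `B Bᵀ ≤ 1` -/
def Ct (B : Matrix V J ℝ) : Prop := ∀ u : V → ℝ, qf (B * Bᵀ) u ≤ ∑ x, u x ^ 2

/-- rows multiplied by `e` -/
def rw' (e : V → ℝ) (B : Matrix V J ℝ) : Matrix V J ℝ := Matrix.of fun x j => e x * B x j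

omit [Fintype V] in
theorem rw'_mul_tr (e : V → ℝ) (B : Matrix V J ℝ) (x y : V) :
    (rw' e B * (rw' e B)ᵀ) x y = e x * e y * (B * Bᵀ) x y := by
  simp only [rw', Matrix.mul_apply, Matrix.transpose_apply, Matrix.of_apply, Finset.mul_sum]
  exact Finset.sum_congr rfl fun j _ => by ring

theorem Ct.row {B : Matrix V J ℝ} (hB : Ct B) {e : V → ℝ} (he : ∀ x, |e x| ≤ 1) :
    Ct (rw' e B) := by
  intro u
  have h1 : qf (rw' e B * (rw' e B)ᵀ) u = qf (B * Bᵀ) fun x => e x * u x := by
    rw [qf_mul_tr, qf_mul_tr]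
    refine Finset.sum_congr rfl fun j _ => ?_
    congr 1
    refine Finset.sum_congr rfl fun x _ => ?_
    simp only [rw', Matrix.of_apply]
    ring
  rw [h1]
  refine (hB _).trans (Finset.sum_le_sum fun x _ => ?_)
  rw [mul_pow]
  have h2 : e x ^ 2 ≤ 1 := by
    rw [← sq_abs]
    exact pow_le_one₀ (abs_nonneg _) (he x)
  nlinarith [sq_nonneg (u x)]

theorem Ct.diag [DecidableEq V] {B : Matrix V J ℝ} (hB : Ct B) (x : V) : (B * Bᵀ) x x ≤ 1 := by
  have h := hB (Pi.single x 1)
  have h1 : qf (B * Bᵀ) (Pi.single x 1) = (B * Bᵀ) x x := by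
    unfold qf
    rw [Finset.sum_eq_single x, Finset.sum_eq_single x]
    · simp
    · intro y _ hy
      simp [Pi.single_eq_of_ne hy]
    · simp
    · intro y _ hy
      simp [Pi.single_eq_of_ne hy]
    · simp
  have h2 : ∑ y, (Pi.single x (1 : ℝ) : V → ℝ) y ^ 2 = 1 := by
    rw [Finset.sum_eq_single x]
    · simp
    · intro y _ hy
      simp [Pi.single_eq_of_ne hy]
    · simp
  rw [h1, h2] at h
  exact h

theorem Ct.entry {B : Matrix V J ℝ} (hB : Ct B) (x y : V) : |(B * Bᵀ) x y| ≤ 1 := by
  classical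
  have hx := hB.diag x
  have hy := hB.diag y
  simp only [Matrix.mul_apply, Matrix.transpose_apply] at hx hy ⊢
  rw [abs_le]
  have h1 : 0 ≤ ∑ j, (B x j - B y j) ^ 2 := Finset.sum_nonneg fun _ _ => sq_nonneg _
  have h2 : 0 ≤ ∑ j, (B x j + B y j) ^ 2 := Finset.sum_nonneg fun _ _ => sq_nonneg _
  have e1 : ∑ j, (B x j - B y j) ^ 2 =
      ∑ j, B x j * B x j + ∑ j, B y j * B y j - 2 * ∑ j, B x j * B y j := by
    rw [Finset.mul_sum, ← Finset.sum_add_distrib, ← Finset.sum_sub_distrib]
    exact Finset.sum_congr rfl fun j _ => by ring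
  have e2 : ∑ j, (B x j + B y j) ^ 2 =
      ∑ j, B x j * B x j + ∑ j, B y j * B y j + 2 * ∑ j, B x j * B y j := by
    rw [Finset.mul_sum, ← Finset.sum_add_distrib, ← Finset.sum_add_distrib]
    exact Finset.sum_congr rfl fun j _ => by ring
  constructor <;> linarith

/-- the hypotheses of the trace norm lemma -/
structure Bx (T : Matrix V V ℝ) (β : V → ι) (nr : ι → ι → Prop) (δ : ℝ) : Prop where
  sy : ∀ x y, T x y = T y x
  near : ∀ w w', nr w w' → ∀ B : Matrix V J ℝ, Ct B →
    (∀ x j, B x j ≠ 0 → β x = w ∨ β x = w') → |pr (B * Bᵀ) T| ≤ δ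

variable [DecidableEq ι]

/-- the block of two boxes -/
def tt (W T : Matrix V V ℝ) (β : V → ι) (w w' : ι) : ℝ :=
  ∑ x, ∑ y, if β x = w ∧ β y = w' then W x y * T x y else 0

theorem tt_comm {W T : Matrix V V ℝ} (hW : ∀ x y, W x y = W y x) (hT : ∀ x y, T x y = T y x)
    (β : V → ι) (w w' : ι) : tt W T β w w' = tt W T β w' w := by
  unfold tt
  rw [Finset.sum_comm]
  refine Finset.sum_congr rfl fun y _ => Finset.sum_congr rfl fun x _ => ?_
  rw [hW x y, hT x y]
  simp only [and_comm]

theorem tt_near {T : Matrix V V ℝ} {β : V → ι} {nr : ι → ι → Prop} {δ : ℝ}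
    (h : Bx (J := J) T β nr δ) {B : Matrix V J ℝ} (hB : Ct B) {w w' : ι} (hn : nr w w') :
    |tt (B * Bᵀ) T β w w'| ≤ δ := by
  have hsy : ∀ x y, (B * Bᵀ) x y = (B * Bᵀ) y x := by
    intro x y
    simp only [Matrix.mul_apply, Matrix.transpose_apply, mul_comm]
  have hδ : 0 ≤ δ := (abs_nonneg _).trans (h.near w w' hn 0 (fun u => by
    rw [Matrix.zero_mul]
    have : qf (0 : Matrix V V ℝ) u = 0 := by simp [qf]
    rw [this]
    exact Finset.sum_nonneg fun _ _ => sq_nonneg _) fun x j hx => absurd rfl hx)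
  by_cases hw : w = w'
  · subst hw
    have h1 := h.near w w hn (rw' (fun x => if β x = w then 1 else 0) B)
      (hB.row fun x => by split_ifs <;> simp) (fun x j hx => by
        by_contra hc
        simp only [or_self] at hc
        exact hx (by simp [rw', hc]))
    have e : pr (rw' (fun x => if β x = w then 1 else 0) B *
        (rw' (fun x => if β x = w then 1 else 0) B)ᵀ) T = tt (B * Bᵀ) T β w w := by
      unfold pr tt
      refine Finset.sum_congr rfl fun x _ => Finset.sum_congr rfl fun y _ => ?_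
      rw [rw'_mul_tr]
      by_cases hx : β x = w <;> by_cases hy : β y = w <;> simp [hx, hy]
    rwa [e] at h1
  · have key : ∀ s : ℝ, |s| ≤ 1 → |pr (rw' (fun x => if β x = w then 1 else if β x = w' then s
        else 0) B * (rw' (fun x => if β x = w then 1 else if β x = w' then s else 0) B)ᵀ) T| ≤ δ := by
      intro s hs
      refine h.near w w' hn _ (hB.row fun x => ?_) fun x j hx => ?_
      · split_ifs
        · simp
        · exact hs
        · simp
      · by_contra hc
        rw [not_or] at hc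
        exact hx (by simp [rw', hc.1, hc.2])
    have h1 := key 1 (by simp)
    have h2 := key (-1) (by simp)
    have e : pr (rw' (fun x => if β x = w then 1 else if β x = w' then (1 : ℝ) else 0) B *
        (rw' (fun x => if β x = w then 1 else if β x = w' then (1 : ℝ) else 0) B)ᵀ) T -
        pr (rw' (fun x => if β x = w then 1 else if β x = w' then (-1 : ℝ) else 0) B *
        (rw' (fun x => if β x = w then 1 else if β x = w' then (-1 : ℝ) else 0) B)ᵀ) T =
        2 * (tt (B * Bᵀ) T β w w' + tt (B * Bᵀ) T β w' w) := by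
      unfold pr tt
      rw [← Finset.sum_sub_distrib, ← Finset.sum_add_distrib, Finset.mul_sum]
      refine Finset.sum_congr rfl fun x _ => ?_
      rw [← Finset.sum_sub_distrib, ← Finset.sum_add_distrib, Finset.mul_sum]
      refine Finset.sum_congr rfl fun y _ => ?_
      rw [rw'_mul_tr, rw'_mul_tr]
      generalize (B * Bᵀ) x y = m
      have hw' : ¬w' = w := fun hc => hw hc.symm
      by_cases hx : β x = w
      · by_cases hy : β y = w
        · simp [hx, hy, hw]
        · by_cases hy' : β y = w'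
          · simp [hx, hy', hw, hw']
            ring
          · simp [hx, hy, hy', hw]
      · by_cases hx' : β x = w'
        · by_cases hy : β y = w
          · simp [hx', hy, hw, hw']
            ring
          · by_cases hy' : β y = w'
            · simp [hx', hy', hw']
            · simp [hx', hy, hy', hw']
        · simp [hx, hx']
    rw [tt_comm hsy h.sy β w' w] at e
    rw [abs_le] at h1 h2 ⊢
    constructor <;> linarith

/-- **trace norm lemma** -/
theorem pr_le {T : Matrix V V ℝ} {β : V → ι} {nr : ι → ι → Prop} [DecidableRel nr] {δ η : ℝ}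
    (h : Bx (J := J) T β nr δ)
    (far : ∑ x, ∑ y, (if nr (β x) (β y) then 0 else |T x y|) ≤ η)
    {B : Matrix V J ℝ} (hB : Ct B) :
    |pr (B * Bᵀ) T| ≤ ((Finset.univ : Finset (ι × ι)).filter fun p => nr p.1 p.2).card * δ + η := by
  have e1 : pr (B * Bᵀ) T = (∑ w, ∑ w', if nr w w' then tt (B * Bᵀ) T β w w' else 0) +
      ∑ x, ∑ y, if nr (β x) (β y) then 0 else (B * Bᵀ) x y * T x y := by
    have e2 : (∑ w, ∑ w', if nr w w' then tt (B * Bᵀ) T β w w' else 0) =
        ∑ x, ∑ y, if nr (β x) (β y) then (B * Bᵀ) x y * T x y else 0 := by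
      have e3 : ∀ w w', (if nr w w' then tt (B * Bᵀ) T β w w' else 0) =
          ∑ x, ∑ y, if β x = w ∧ β y = w' then
            (if nr (β x) (β y) then (B * Bᵀ) x y * T x y else 0) else 0 := by
        intro w w'
        by_cases hn : nr w w'
        · rw [if_pos hn]
          unfold tt
          refine Finset.sum_congr rfl fun x _ => Finset.sum_congr rfl fun y _ => ?_
          by_cases hxy : β x = w ∧ β y = w'
          · rw [if_pos hxy, if_pos hxy, hxy.1, hxy.2, if_pos hn]
          · rw [if_neg hxy, if_neg hxy]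
        · rw [if_neg hn]
          symm
          refine Finset.sum_eq_zero fun x _ => Finset.sum_eq_zero fun y _ => ?_
          by_cases hxy : β x = w ∧ β y = w'
          · rw [if_pos hxy, hxy.1, hxy.2, if_neg hn]
          · rw [if_neg hxy]
      simp only [e3]
      have e4 : ∀ f : ι → ι → V → V → ℝ, ∑ w, ∑ w', ∑ x, ∑ y, f w w' x y =
          ∑ x, ∑ y, ∑ w, ∑ w', f w w' x y := by
        intro f
        calc ∑ w, ∑ w', ∑ x, ∑ y, f w w' x y
            = ∑ w, ∑ x, ∑ w', ∑ y, f w w' x y :=
              Finset.sum_congr rfl fun w _ => Finset.sum_comm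
          _ = ∑ x, ∑ w, ∑ w', ∑ y, f w w' x y := Finset.sum_comm
          _ = ∑ x, ∑ w, ∑ y, ∑ w', f w w' x y :=
              Finset.sum_congr rfl fun x _ => Finset.sum_congr rfl fun w _ => Finset.sum_comm
          _ = ∑ x, ∑ y, ∑ w, ∑ w', f w w' x y :=
              Finset.sum_congr rfl fun x _ => Finset.sum_comm
      rw [e4]
      refine Finset.sum_congr rfl fun x _ => Finset.sum_congr rfl fun y _ => ?_
      rw [Finset.sum_eq_single (β x), Finset.sum_eq_single (β y)]
      · rw [if_pos ⟨rfl, rfl⟩]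
      · intro w' _ hw'
        rw [if_neg fun hc => hw' hc.2.symm]
      · simp
      · intro w _ hw
        refine Finset.sum_eq_zero fun w' _ => ?_
        rw [if_neg fun hc => hw hc.1.symm]
      · simp
    rw [e2, ← Finset.sum_add_distrib]
    unfold pr
    refine Finset.sum_congr rfl fun x _ => ?_
    rw [← Finset.sum_add_distrib]
    refine Finset.sum_congr rfl fun y _ => ?_
    split_ifs <;> simp
  rw [e1]
  refine (abs_add_le _ _).trans (add_le_add ?_ ?_)
  · refine (Finset.abs_sum_le_sum_abs _ _).trans ?_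
    have h2 : ∀ w, |∑ w', if nr w w' then tt (B * Bᵀ) T β w w' else 0| ≤
        ∑ w', if nr w w' then δ else 0 := by
      intro w
      refine (Finset.abs_sum_le_sum_abs _ _).trans (Finset.sum_le_sum fun w' _ => ?_)
      split_ifs with hn
      · exact tt_near h hB hn
      · simp
    refine (Finset.sum_le_sum fun w _ => h2 w).trans (le_of_eq ?_)
    rw [← Fintype.sum_prod_type' (f := fun w w' => if nr w w' then δ else 0), ← Finset.sum_filter,
      Finset.sum_const, nsmul_eq_mul]
  · refine ((Finset.abs_sum_le_sum_abs _ _).trans (Finset.sum_le_sum fun x _ =>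
      (Finset.abs_sum_le_sum_abs _ _).trans (Finset.sum_le_sum fun y _ => ?_))).trans far
    split_ifs
    · simp
    · rw [abs_mul]
      have := hB.entry x y
      nlinarith [abs_nonneg (T x y)]

end abstract

/-! ### translation invariant kernels on the torus -/

section torus

variable {N : ℕ} [NeZero N]

open Vale.Agent.P159.TM.Spec (V)

theorem pr_eq_sym {W T : Matrix (V N) (V N) ℝ} (hW : TI W) (hT : TI T) :
    pr W T = ∑ k, sym W k * sym T k := by
  have h1 : pr W T = (W * T).trace := by
    unfold pr Matrix.trace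
    refine Finset.sum_congr rfl fun x _ => ?_
    rw [Matrix.diag_apply, Matrix.mul_apply]
    exact Finset.sum_congr rfl fun y _ => by rw [hT.sy x y]
  rw [h1, (hW.mul hT).trace_eq]
  exact Finset.sum_congr rfl fun k _ => sym_mul hW hT k

/-- the square root of a multiplier `0 ≤ ω ≤ 1` is a contraction -/
theorem ct_mlt {ω : V N → ℝ} (hω : ∀ k, ω (-k) = ω k) (h0 : ∀ k, 0 ≤ ω k) (h1 : ∀ k, ω k ≤ 1) :
    mlt (fun k => Real.sqrt (ω k)) * (mlt fun k => Real.sqrt (ω k))ᵀ = mlt ω ∧
      Ct (mlt fun k => Real.sqrt (ω k)) := by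
  have hs : ∀ k : V N, Real.sqrt (ω (-k)) = Real.sqrt (ω k) := fun k => by rw [hω]
  have e : mlt (fun k => Real.sqrt (ω k)) * (mlt fun k => Real.sqrt (ω k))ᵀ = mlt ω := by
    rw [(ti_mlt _).transpose, mlt_mul _ _ hs hs]
    congr 1
    funext k
    exact Real.mul_self_sqrt (h0 k)
  refine ⟨e, fun u => ?_⟩
  rw [e]
  have h2 : qf (mlt ω) u ≤ qf (1 : Matrix (V N) (V N) ℝ) u :=
    (qf_le_iff (ti_mlt _) TI.one).2 (fun k => by rw [sym_mlt _ hω, sym_one]; exact h1 k) u
  refine h2.trans (le_of_eq ?_)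
  have := qf_smul_one (1 : ℝ) u
  simpa using this

/-- **sum of the positive part of the symbol against a weight** `0 ≤ ω ≤ 1` -/
theorem sum_weight_le {ι : Type*} [Fintype ι] [DecidableEq ι] {T : Matrix (V N) (V N) ℝ}
    (hT : TI T) {β : V N → ι} {nr : ι → ι → Prop} [DecidableRel nr] {δ η : ℝ}
    (h : Bx (J := V N) T β nr δ)
    (far : ∑ x, ∑ y, (if nr (β x) (β y) then 0 else |T x y|) ≤ η) {ω : V N → ℝ}
    (hω : ∀ k, ω (-k) = ω k) (h0 : ∀ k, 0 ≤ ω k) (h1 : ∀ k, ω k ≤ 1) :
    |∑ k, ω k * sym T k| ≤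
      ((Finset.univ : Finset (ι × ι)).filter fun p => nr p.1 p.2).card * δ + η := by
  obtain ⟨e, hc⟩ := ct_mlt hω h0 h1
  have h2 := pr_le h far hc
  rw [e, pr_eq_sym (ti_mlt _) hT] at h2
  simpa only [sym_mlt _ hω] using h2

/-- **trace norm of a translation invariant kernel** -/
theorem sum_abs_sym_le {ι : Type*} [Fintype ι] [DecidableEq ι] {T : Matrix (V N) (V N) ℝ}
    (hT : TI T) {β : V N → ι} {nr : ι → ι → Prop} [DecidableRel nr] {δ η : ℝ}
    (h : Bx (J := V N) T β nr δ)
    (far : ∑ x, ∑ y, (if nr (β x) (β y) then 0 else |T x y|) ≤ η) :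
    ∑ k, |sym T k| ≤
      2 * (((Finset.univ : Finset (ι × ι)).filter fun p => nr p.1 p.2).card * δ + η) := by
  have a1 := sum_weight_le hT h far (ω := fun k => if 0 ≤ sym T k then 1 else 0)
    (fun k => by simp only [sym_neg_arg]) (fun k => by split_ifs <;> simp)
    fun k => by split_ifs <;> simp
  have a2 := sum_weight_le hT h far (ω := fun k => if 0 ≤ sym T k then 0 else 1)
    (fun k => by simp only [sym_neg_arg]) (fun k => by split_ifs <;> simp)
    fun k => by split_ifs <;> simp
  have e : ∑ k, |sym T k| = (∑ k, (if 0 ≤ sym T k then (1 : ℝ) else 0) * sym T k) -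
      ∑ k, (if 0 ≤ sym T k then (0 : ℝ) else 1) * sym T k := by
    rw [← Finset.sum_sub_distrib]
    refine Finset.sum_congr rfl fun k _ => ?_
    split_ifs with hk
    · rw [abs_of_nonneg hk]; ring
    · rw [abs_of_neg (not_le.1 hk)]; ring
  rw [e]
  rw [abs_le] at a1 a2
  linarith [a1.2, a2.1]

end torus

end Vale.Agent.P159.H159
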