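import Vale.Agent.P159.H864.Cel3
import Vale.Agent.P159.H159.Trn

/-!
P159, module DREC3 (helper159), part 1: the rough momenta. `Wl ρ p ≤ 8 / (ρ² EE p)`, the rough cell
modes of a translation invariant nonnegative kernel are controlled by the fine energy of the cells
of side `ρ`, and the number of the smooth modes.
-/

namespace Vale.Agent.P159.H159

open Finset Matrix
open Vale.Agent.P159.TM.H764 (cN sN dt ch EE)
open Vale.Agent.P159.H37
open Vale.Agent.P159.TM.Spec (V)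
open Vale.Agent.P159.H864

noncomputable section

section wl

variable {N ρ : ℕ} [NeZero N] [NeZero (N / ρ)]

lemma norm_ch (t : ZMod N) : ‖ch t‖ = 1 := by
  have h : Complex.normSq (ch t) = 1 := by
    have h1 : ((Complex.normSq (ch t) : ℝ) : ℂ) = 1 := by
      rw [Complex.normSq_eq_conj_mul_self, TM.H764.ch_conj, ← TM.H764.ch_add, neg_add_cancel,
        TM.H764.ch_zero]
    exact_mod_cast h1
  rw [Complex.normSq_eq_norm_sq] at h
  have h0 := norm_nonneg (ch t)
  nlinarith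

lemma ch_mul_nat (t : ZMod N) (j : ℕ) : ch (t * (j : ZMod N)) = ch t ^ j := by
  induction j with
  | zero => rw [Nat.cast_zero, mul_zero, TM.H764.ch_zero, pow_zero]
  | succ j ih => rw [Nat.cast_succ, mul_add, mul_one, TM.H764.ch_add, ih, pow_succ]

/-- one coordinate of the Fourier transform of the cell `0` -/
def S1 (ρ : ℕ) (p : ZMod N) : ℂ := ∑ j ∈ range ρ, ch p ^ j

lemma norm_S1_le (p : ZMod N) : ‖S1 ρ p‖ ≤ ρ := by
  unfold S1
  refine (norm_sum_le _ _).trans (le_of_eq ?_)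
  simp only [norm_pow, norm_ch, one_pow, Finset.sum_const, Finset.card_range, nsmul_eq_mul,
    mul_one]

lemma normSq_S1_le (p : ZMod N) : Complex.normSq (S1 ρ p) ≤ (ρ : ℝ) ^ 2 := by
  rw [Complex.normSq_eq_norm_sq]
  exact pow_le_pow_left₀ (norm_nonneg _) (norm_S1_le p) 2

lemma normSq_ch_sub (p : ZMod N) : Complex.normSq (ch p - 1) = 2 * (1 - cN p) := by
  have h1 : Complex.normSq (ch p) = 1 := by
    rw [Complex.normSq_eq_norm_sq, norm_ch, one_pow]
  rw [Complex.normSq_sub, h1]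
  simp only [Complex.normSq_one, map_one, mul_one, TM.H764.ch_re]
  ring

lemma normSq_S1_mul (p : ZMod N) : Complex.normSq (S1 ρ p) * (2 * (1 - cN p)) ≤ 4 := by
  rw [← normSq_ch_sub, ← Complex.normSq_mul]
  unfold S1
  rw [geom_sum_mul, Complex.normSq_eq_norm_sq]
  have h1 : ‖ch p ^ ρ - 1‖ ≤ 2 := by
    refine (norm_sub_le _ _).trans ?_
    rw [norm_pow, norm_ch, one_pow, norm_one]
    norm_num
  nlinarith [norm_nonneg (ch p ^ ρ - 1)]

lemma sum_filter_val (hρ : ρ ∣ N) (p : ZMod N) :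
    ∑ x ∈ univ.filter (fun x : ZMod N => x.val < ρ), ch (p * x) = S1 ρ p := by
  unfold S1
  have hρN : ρ ≤ N := Nat.le_of_dvd (NeZero.pos N) hρ
  symm
  refine Finset.sum_bij (fun j _ => (j : ZMod N)) (fun j hj => ?_) (fun a ha b hb hab => ?_)
    (fun x hx => ?_) fun j hj => ?_
  · rw [Finset.mem_range] at hj
    rw [Finset.mem_filter, ZMod.val_natCast_of_lt (hj.trans_le hρN)]
    exact ⟨Finset.mem_univ _, hj⟩
  · rw [Finset.mem_range] at ha hb
    have := congrArg ZMod.val hab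
    rwa [ZMod.val_natCast_of_lt (ha.trans_le hρN), ZMod.val_natCast_of_lt (hb.trans_le hρN)] at this
  · rw [Finset.mem_filter] at hx
    exact ⟨x.val, Finset.mem_range.2 hx.2, ZMod.natCast_zmod_val x⟩
  · exact (ch_mul_nat p j).symm

lemma Dl_eq (hρ : ρ ∣ N) (p : V N) : Dl ρ p = S1 ρ p.1 * S1 ρ p.2 := by
  unfold Dl
  have hρ0 : 0 < ρ := l_pos hρ
  have h1 : (univ.filter fun x : V N => (cl x : V (N / ρ)) = 0) =
      (univ.filter fun x : ZMod N => x.val < ρ) ×ˢ (univ.filter fun x : ZMod N => x.val < ρ) := by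
    ext x
    rw [Finset.mem_product, Finset.mem_filter, Finset.mem_filter, Finset.mem_filter]
    simp only [Finset.mem_univ, true_and]
    have key : ∀ z : ZMod N, (cl1 z : ZMod (N / ρ)) = 0 ↔ z.val < ρ := by
      intro z
      rw [← ZMod.val_eq_zero, cl1_val hρ, Nat.div_eq_zero_iff]
      constructor
      · rintro (h | h)
        · omega
        · exact h
      · exact fun h => Or.inr h
    have e : (cl x : V (N / ρ)) = (cl1 x.1, cl1 x.2) := rfl
    rw [e, Prod.mk_eq_zero, key, key]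
  rw [h1, Finset.sum_product, ← sum_filter_val hρ p.1, ← sum_filter_val hρ p.2,
    Finset.sum_mul_sum]
  refine Finset.sum_congr rfl fun x _ => Finset.sum_congr rfl fun y _ => ?_
  rw [← TM.H764.ch_add]
  rfl

/-- **the weight of the rough momenta** -/
theorem Wl_mul_le (hρ : ρ ∣ N) (p : V N) : Wl ρ p * ((ρ : ℝ) ^ 2 * EE p) ≤ 8 := by
  have hρ0 : (0 : ℝ) < ρ := by exact_mod_cast l_pos hρ
  unfold Wl
  rw [Dl_eq hρ, Complex.normSq_mul]
  have a1 := normSq_S1_le (ρ := ρ) p.1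
  have a2 := normSq_S1_le (ρ := ρ) p.2
  have b1 := normSq_S1_mul (ρ := ρ) p.1
  have b2 := normSq_S1_mul (ρ := ρ) p.2
  have c1 := Complex.normSq_nonneg (S1 ρ p.1)
  have c2 := Complex.normSq_nonneg (S1 ρ p.2)
  set x := Complex.normSq (S1 ρ p.1)
  set y := Complex.normSq (S1 ρ p.2)
  have hE : EE p = 2 * (1 - cN p.1) + 2 * (1 - cN p.2) := rfl
  have h1 : x * y * EE p ≤ 8 * (ρ : ℝ) ^ 2 := by
    rw [hE]
    have d1 : x * (2 * (1 - cN p.1)) * y ≤ 4 * (ρ : ℝ) ^ 2 :=
      mul_le_mul b1 a2 c2 (by norm_num)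
    have d2 : y * (2 * (1 - cN p.2)) * x ≤ 4 * (ρ : ℝ) ^ 2 :=
      mul_le_mul b2 a1 c1 (by norm_num)
    nlinarith
  have h2 : x * y / (ρ : ℝ) ^ 4 * ((ρ : ℝ) ^ 2 * EE p) = x * y * EE p / (ρ : ℝ) ^ 2 := by
    field_simp
  rw [h2, div_le_iff₀ (by positivity)]
  exact h1

/-- the fine energy of a translation invariant kernel -/
theorem trace_fine (hρ : ρ ∣ N) {A : Matrix (V N) (V N) ℝ} (hA : TI A) :
    ((1 - cellP N ρ) * A).trace = ∑ p, (1 - Wl ρ p) * sym A p := by
  rw [Matrix.sub_mul, Matrix.one_mul, Matrix.trace_sub, ← trace_Gc hρ, hA.trace_eq,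
    (ti_Gc hρ hA.ct).trace_eq]
  have h1 : ∑ k : V (N / ρ), sym (Gc ρ A) k = ∑ p, sym A p * Wl ρ p := by
    rw [← Finset.sum_fiberwise_of_maps_to (s := univ) (t := (univ : Finset (V (N / ρ))))
      (g := fun p : V N => (rd p : V (N / ρ))) fun x _ => Finset.mem_univ _]
    exact Finset.sum_congr rfl fun k _ => sym_Gc hρ hA k
  rw [h1, ← Finset.sum_sub_distrib]
  exact Finset.sum_congr rfl fun p _ => by ring

/-- the number of the smooth momenta -/
theorem card_low (hρ : ρ ∣ N) (S : Finset (V N)) (hS : ∀ p ∈ S, 2 * ((ρ : ℝ) ^ 2 * EE p) ≤ 1) :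
    (S.card : ℝ) ≤ 2 * ((N / ρ : ℕ) : ℝ) ^ 2 := by
  have h1 : ∑ p : V N, Wl ρ p = ((N / ρ : ℕ) : ℝ) ^ 2 := by
    rw [← Finset.sum_fiberwise_of_maps_to (s := univ) (t := (univ : Finset (V (N / ρ))))
      (g := fun p : V N => (rd p : V (N / ρ))) fun x _ => Finset.mem_univ _]
    rw [Finset.sum_congr rfl fun k _ => sum_Wl hρ k, Finset.sum_const, Finset.card_univ,
      nsmul_eq_mul, mul_one, TM.H764.card_V]
  have h2 : ∑ p ∈ S, (1 / 2 : ℝ) ≤ ∑ p ∈ S, Wl ρ p := Finset.sum_le_sum fun p hp => by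
    have := one_sub_Wl_le hρ p
    have := hS p hp
    linarith
  have h3 : ∑ p ∈ S, Wl ρ p ≤ ∑ p : V N, Wl ρ p :=
    Finset.sum_le_sum_of_subset_of_nonneg (Finset.subset_univ _) fun p _ _ => Wl_nonneg p
  rw [Finset.sum_const, nsmul_eq_mul] at h2
  rw [h1] at h3
  linarith

end wl

section high

variable {N l ρ : ℕ} [NeZero N] [NeZero (N / l)] [NeZero (N / ρ)]

/-- **the rough cell modes are controlled by the fine energy of the cells of side `ρ`** -/
theorem high_le (hl : l ∣ N) (hρ : ρ ∣ N) {A : Matrix (V N) (V N) ℝ} (hA : TI A)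
    (h0 : ∀ p, 0 ≤ sym A p) (H : Finset (V (N / l)))
    (hH : ∀ k ∈ H, 32 * (l : ℝ) ^ 2 ≤ (ρ : ℝ) ^ 2 * EE k) :
    ∑ k ∈ H, sym (Gc l A) k ≤ 4 / 3 * ((1 - cellP N ρ) * A).trace := by
  have hl0 : (0 : ℝ) < l := by exact_mod_cast l_pos hl
  have hρ0 : (0 : ℝ) < ρ := by exact_mod_cast l_pos hρ
  rw [trace_fine hρ hA, Finset.mul_sum]
  have h1 : ∀ p : V N, 0 ≤ 4 / 3 * ((1 - Wl ρ p) * sym A p) := fun p =>
    mul_nonneg (by norm_num) (mul_nonneg (sub_nonneg.2 (Wl_le_one hρ p)) (h0 p))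
  calc ∑ k ∈ H, sym (Gc l A) k
      = ∑ k ∈ H, ∑ p ∈ univ.filter (fun p : V N => rd p = k), sym A p * Wl l p :=
        Finset.sum_congr rfl fun k _ => sym_Gc hl hA k
    _ ≤ ∑ k ∈ H, ∑ p ∈ univ.filter (fun p : V N => rd p = k),
          4 / 3 * ((1 - Wl ρ p) * sym A p) := by
        refine Finset.sum_le_sum fun k hk => Finset.sum_le_sum fun p hp => ?_
        rw [Finset.mem_filter] at hp
        have h2 := EE_rd_le hl p
        rw [hp.2] at h2
        have h3 := hH k hk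
        have h4 : 32 ≤ (ρ : ℝ) ^ 2 * EE p := by
          have h5 : (ρ : ℝ) ^ 2 * EE k ≤ (ρ : ℝ) ^ 2 * ((l : ℝ) ^ 2 * EE p) :=
            mul_le_mul_of_nonneg_left h2 (by positivity)
          have h6 : (l : ℝ) ^ 2 * 32 ≤ (l : ℝ) ^ 2 * ((ρ : ℝ) ^ 2 * EE p) := by linarith
          exact le_of_mul_le_mul_left h6 (by positivity)
        have h5 := Wl_mul_le hρ p
        have h6 := Wl_nonneg (l := ρ) p
        have h7 : Wl ρ p ≤ 1 / 4 := by nlinarith
        have h8 := Wl_le_one hl p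
        have h9 := h0 p
        have h10 := Wl_nonneg (l := l) p
        nlinarith
    _ ≤ ∑ p : V N, 4 / 3 * ((1 - Wl ρ p) * sym A p) := by
        rw [← Finset.sum_fiberwise_of_maps_to (s := univ) (t := (univ : Finset (V (N / l))))
          (g := fun p : V N => (rd p : V (N / l))) fun x _ => Finset.mem_univ _]
        exact Finset.sum_le_sum_of_subset_of_nonneg (Finset.subset_univ _)
          fun k _ _ => Finset.sum_nonneg fun p _ => h1 p

end high

end

end Vale.Agent.P159.H159
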