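import Vale.Agent.P159.H159.FineN
import Vale.Agent.P159.H159.High
import Vale.Agent.P159.H159.Drec2

/-!
P159, module DREC3 (helper159): one window with the recursion only on the smooth cell momenta
`ρ² EE k < 32 l²`; the rough momenta by the fine energy of the cells of side `ρ` (F1), the
difference between cell masses and scalar masses on the smooth momenta by F2.
-/

set_option linter.unusedSectionVars false

namespace Vale.Agent.P159.H159

open Finset Matrix Filter Topology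
open Vale.Agent.P159.TM.H104 (EM Ex Cv Lg li Gr)
open Vale.Agent.P159.TM.H764 (cN sN dt EE)
open Vale.Agent.P159.TM.Spec (V)
open Vale.Agent.P159.TM.SpecC (wT)
open Vale.Agent.P159.H37
open Vale.Agent.P159.H864 (TI sym MC cobV Gc)
open Vale.Agent.P159.H447 (K4S SN CN)
open Vale.Agent.P159.H963 (GrI pin Neu Pn ntr nM GW MF gw_wT Gn Gnc PinC nwt nMC)

noncomputable section

/-! ### the scalar step with two sets of modes -/

section step

variable {N n : ℕ} [NeZero N] [NeZero n] {C : Matrix (V n) (V N) ℝ} {S : Matrix (V N) (V N) ℝ}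
  {μ : (V N → ℤ) → ℝ} {T : Finset (V n)}

/-- **the mass step along the scalar masses, rough modes by the drop of the covariance** -/
theorem Sc.step2 (h : Sc C S μ T) (L : Finset (V n)) (hL : L ⊆ T) {a c : ℝ} (ha : 0 < a)
    (hac : a < c) :
    ∃ τ ∈ Set.Ioo a c, 1 / 2 * K4S (wM μ (τ • S)) (Cᵀ * C) S ≤
      (c - a)⁻¹ * (∑ k ∈ L, gS C S μ a k ^ 2 *
        (((gS C S μ c k)⁻¹ - c) - ((gS C S μ a k)⁻¹ - a)) +
        ∑ k ∈ T \ L, (gS C S μ a k - gS C S μ c k)) := by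
  set Φ : ℝ → ℝ := fun τ => (∑ k ∈ L, gS C S μ a k ^ 2 * ((gS C S μ τ k)⁻¹ - τ)) +
    ∑ k ∈ T \ L, (-gS C S μ τ k) with hΦ
  set Φ' : ℝ → ℝ := fun τ => (∑ k ∈ L, gS C S μ a k ^ 2 *
    ((1 / 2 * kS C S μ τ k + qS C S μ τ k) / gS C S μ τ k ^ 2 - 1)) +
    ∑ k ∈ T \ L, (1 / 2 * kS C S μ τ k + qS C S μ τ k) with hΦ'
  have hd : ∀ τ, 0 < τ → HasDerivAt Φ (Φ' τ) τ := by
    intro τ hτ
    refine HasDerivAt.add ?_ ?_
    · refine HasDerivAt.fun_sum fun k hk => ?_
      have hg := h.pos τ hτ k (hL hk)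
      have h1 := ((h.deriv hτ k).inv hg.ne').sub (hasDerivAt_id τ)
      refine (h1.const_mul (gS C S μ a k ^ 2)).congr_deriv ?_
      rw [neg_neg]
    · refine HasDerivAt.fun_sum fun k _ => ?_
      refine (h.deriv hτ k).neg.congr_deriv ?_
      rw [neg_neg]
  obtain ⟨τ, hτ, hs⟩ := exists_hasDerivAt_eq_slope Φ Φ' hac
    (fun τ hτ => (hd τ (ha.trans_le hτ.1)).continuousAt.continuousWithinAt)
    fun τ hτ => hd τ (ha.trans hτ.1)
  have hτ0 : 0 < τ := ha.trans hτ.1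
  refine ⟨τ, hτ, ?_⟩
  have e1 : (c - a)⁻¹ * (∑ k ∈ L, gS C S μ a k ^ 2 *
      (((gS C S μ c k)⁻¹ - c) - ((gS C S μ a k)⁻¹ - a)) +
      ∑ k ∈ T \ L, (gS C S μ a k - gS C S μ c k)) = Φ' τ := by
    rw [hs, div_eq_inv_mul]
    congr 1
    simp only [hΦ]
    have e2 : ∀ x y z w : ℝ, (x + y) - (z + w) = (x - z) + (y - w) := fun x y z w => by ring
    rw [e2, ← Finset.sum_sub_distrib, ← Finset.sum_sub_distrib]
    congr 1
    · exact Finset.sum_congr rfl fun k _ => by ring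
    · exact Finset.sum_congr rfl fun k _ => by ring
  rw [e1, ← h.sum_kS hτ0, ← Finset.sum_sdiff hL, _root_.mul_add, Finset.mul_sum, Finset.mul_sum,
    add_comm]
  refine add_le_add (Finset.sum_le_sum fun k hk => ?_) (Finset.sum_le_sum fun k hk => ?_)
  · have hg := h.pos τ hτ0 k (hL hk)
    change 0 < gS C S μ τ k at hg
    have hga := h.anti ha hτ.1.le k
    have hk0 := h.kS_nonneg hτ0 k
    have hq := h.qS_ge hτ0 k
    have h1 : 1 / 2 * kS C S μ τ k / gS C S μ τ k ^ 2 ≤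
        (1 / 2 * kS C S μ τ k + qS C S μ τ k) / gS C S μ τ k ^ 2 - 1 := by
      rw [add_div]
      have : 1 ≤ qS C S μ τ k / gS C S μ τ k ^ 2 := by
        rw [le_div_iff₀ (by positivity)]
        linarith
      linarith
    have h2 : 1 / 2 * kS C S μ τ k ≤
        gS C S μ a k ^ 2 * (1 / 2 * kS C S μ τ k / gS C S μ τ k ^ 2) := by
      rw [← mul_div_assoc, le_div_iff₀ (by positivity), mul_comm]
      exact mul_le_mul_of_nonneg_right (pow_le_pow_left₀ hg.le hga 2) (by positivity)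
    exact h2.trans (mul_le_mul_of_nonneg_left h1 (sq_nonneg _))
  · have hq := h.qS_ge hτ0 k
    have := sq_nonneg (gS C S μ τ k)
    linarith

end step

section inst

variable {N l : ℕ} [NeZero N] {b : ℝ}

/-- the scalar mass step, neutral model, two sets of modes -/
theorem scal_step2 [NeZero (N / l)] (hb : 0 < b) (hl : l ∣ N) (L : Finset (V (N / l)))
    (hL : L ⊆ Finset.univ.erase 0) {a c : ℝ} (ha : 0 < a) (hac : a < c) :
    ∃ τ ∈ Set.Ioo a c, 1 / 2 * K4S (nwt N b τ 0) (SN N l) (SN N l) ≤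
      (c - a)⁻¹ * (∑ k ∈ L, sym (Gnc N l b a a) k ^ 2 *
        (PinC N l b c c k - PinC N l b a a k) +
        ∑ k ∈ Finset.univ.erase 0 \ L, (sym (Gnc N l b a a) k - sym (Gnc N l b c c) k)) := by
  obtain ⟨τ, hτ, h⟩ := (sc_neu (N := N) (l := l) hb hl).step2 L hL ha hac
  have hτ0 : 0 < τ := ha.trans hτ.1
  refine ⟨τ, hτ, ?_⟩
  have e : ∀ s : ℝ, ∀ k, gS (CN N l) (Pn : Matrix (V N) (V N) ℝ) (pin (wT b N) 0) s k =
      sym (Gnc N l b s s) k := by
    intro s k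
    unfold gS
    rw [wM_pin_nwt, ← H963.nMC_self N l, H447.Gc_CN hl]
  simp only [e] at h
  rw [wM_pin_nwt, H447.CN_gram hl] at h
  have h1 := K4S_SN_le (N := N) (l := l) hl (H963.em_nwt hb.le hτ0 0) (H963.ev_nwt hb.le τ 0)
    (H963.pk_nwt hb.le hτ0 0)
  refine le_trans (mul_le_mul_of_nonneg_left h1 (by norm_num)) ?_
  exact h

/-! ### the mass forms -/

lemma masN_sc {a c t0 : ℝ} (ha : 0 < a) (hac : a ≤ c) (hc : c ≤ t0) :
    MasN t0 a (a • (1 : Matrix (V N) (V N) ℝ)) a (c • (1 : Matrix (V N) (V N) ℝ)) c where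
  mf0 := H963.mf_smul ha
  mf1 := H963.mf_smul (ha.trans_le hac)
  apos := ha
  lo u _ := by rw [H37.qf_smul_one]
  mid u _ := by
    rw [H37.qf_smul_one, H37.qf_smul_one]
    exact mul_le_mul_of_nonneg_right hac (sum_nonneg fun _ _ => sq_nonneg _)
  up u _ := by
    rw [H37.qf_smul_one]
    exact mul_le_mul_of_nonneg_right hc (sum_nonneg fun _ _ => sq_nonneg _)

lemma mc_eq (N l : ℕ) [NeZero N] (t0 a : ℝ) :
    a • (1 : Matrix (V N) (V N) ℝ) + (t0 - a) • (1 - cellP N l) = MC N l t0 a := by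
  unfold MC
  rw [sub_smul, smul_sub, smul_sub]
  abel

lemma qf_fine_le (hl : l ∣ N) (u : V N → ℝ) : qf (1 - cellP N l) u ≤ ∑ x, u x ^ 2 := by
  have := nez_div hl
  have h1 := H864.qf_cellP_nonneg hl u
  rw [H864.qf_sub_mat, H864.qf_one]
  linarith

lemma masN_mc (hl : l ∣ N) {a t0 : ℝ} (ha : 0 < a) (hat : a ≤ t0) :
    MasN t0 a (a • (1 : Matrix (V N) (V N) ℝ)) a
      (a • (1 : Matrix (V N) (V N) ℝ) + (t0 - a) • (1 - cellP N l)) a where
  mf0 := H963.mf_smul ha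
  mf1 := MF.addf (H963.mf_smul ha) hl (sub_nonneg.2 hat)
  apos := ha
  lo u _ := by rw [H37.qf_smul_one]
  mid u _ := by
    rw [H37.qf_add_mat, H864.qf_smul_mat (t0 - a)]
    have := mul_nonneg (sub_nonneg.2 hat) (fine_nonneg hl u)
    linarith
  up u _ := by
    rw [H37.qf_add_mat, H864.qf_smul_mat (t0 - a), H37.qf_smul_one]
    have := mul_le_mul_of_nonneg_left (qf_fine_le hl u) (sub_nonneg.2 hat)
    linarith

lemma nM_mc (N l : ℕ) [NeZero N] (b t0 a : ℝ) (x₀ : V N) :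
    nM (wT b N) (a • (1 : Matrix (V N) (V N) ℝ) + (t0 - a) • (1 - cellP N l)) a x₀ =
      nMC N l b t0 a x₀ := by
  rw [mc_eq]
  rfl

/-! ### the symbols -/

section syms

variable [NeZero (N / l)]

/-- F2 on the cell momenta -/
theorem sym_F2 (hb : 0 ≤ b) (hl : l ∣ N) {a t0 ε : ℝ} (ha : 0 < a) (hat : a ≤ t0)
    (h : ∀ u : V N → ℝ, Neu u → 0 ≤ qf (Gm (nwt N b a 0)) u - qf (Gm (nMC N l b t0 a 0)) u ∧
      qf (Gm (nwt N b a 0)) u - qf (Gm (nMC N l b t0 a 0)) u ≤ ε * ∑ x, u x ^ 2)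
    {k : V (N / l)} (hk : k ≠ 0) :
    sym (Gnc N l b t0 a) k ≤ sym (Gnc N l b a a) k ∧
      sym (Gnc N l b a a) k ≤ sym (Gnc N l b t0 a) k + ε := by
  have t1 := H963.ti_Gnc (N := N) (l := l) hb hl ha hat
  have t2 := H963.ti_Gnc (N := N) (l := l) (t := a) hb hl ha le_rfl
  have hq : ∀ φ : V (N / l) → ℝ, Neu φ → qf (Gnc N l b t0 a) φ ≤ qf (Gnc N l b a a) φ ∧
      qf (Gnc N l b a a) φ ≤ qf (Gnc N l b t0 a) φ + ε * ∑ c, φ c ^ 2 := by
    intro φ hφ
    rw [H963.qf_Gnc_neu hl b t0 a hφ, H963.qf_Gnc_neu hl b a a hφ, H963.nMC_self]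
    have h1 := h _ (H963.neu_cobV_tr hl hφ)
    rw [H864.sq_cobV_tr hl] at h1
    constructor <;> linarith [h1.1, h1.2]
  constructor
  · exact H963.sym_le_of_waves' t1 t2 (hq _ (H963.neu_cN hk)).1 (hq _ (H963.neu_sN k)).1
  · have t3 : TI (Gnc N l b t0 a + ε • (1 : Matrix (V (N / l)) (V (N / l)) ℝ)) :=
      t1.add (TI.one.smul ε)
    have e : sym (Gnc N l b t0 a + ε • (1 : Matrix (V (N / l)) (V (N / l)) ℝ)) k =
        sym (Gnc N l b t0 a) k + ε := by
      rw [H864.sym_add, H864.sym_smul, H864.sym_one, mul_one]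
    rw [← e]
    refine H963.sym_le_of_waves' t2 t3 ?_ ?_
    · rw [H37.qf_add_mat, H37.qf_smul_one]
      exact (hq _ (H963.neu_cN hk)).2
    · rw [H37.qf_add_mat, H37.qf_smul_one]
      exact (hq _ (H963.neu_sN k)).2

end syms

/-! ### the fine energy as a trace -/

lemma Ex_qf_tr {V : Type} [Fintype V] [DecidableEq V] {μ : (V → ℤ) → ℝ} (hμ : EM μ) (he : Ev μ)
    (S : Matrix V V ℝ) : Ex μ 0 (fun h => qf S (re h)) = (S * Gm μ).trace := by
  have h1 : (fun h : V → ℤ => qf S (re h)) = fun h => ∑ p : V × V,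
      S p.1 p.2 * (li (Pi.single p.1 1) h * li (Pi.single p.2 1) h) := by
    funext h
    unfold qf re
    rw [Fintype.sum_prod_type]
    refine sum_congr rfl fun x _ => sum_congr rfl fun y _ => ?_
    have e : ∀ z : V, li (Pi.single z 1) h = (h z : ℝ) := by
      intro z
      unfold TM.H104.li
      rw [Finset.sum_eq_single z]
      · simp
      · intro y _ hy
        simp [Pi.single_eq_of_ne hy]
      · simp
    rw [e, e]
    ring
  rw [h1, H789.Ex_sum hμ univ (F := fun (p : V × V) (h : V → ℤ) => S p.1 p.2 *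
    (li (Pi.single p.1 1) h * li (Pi.single p.2 1) h)) fun p _ =>
    ((Gr.li (Pi.single p.1 1)).mul (Gr.li (Pi.single p.2 1))).cmul (S p.1 p.2)]
  have h2 : ∀ p : V × V, Ex μ 0 (fun h => S p.1 p.2 *
      (li (Pi.single p.1 1) h * li (Pi.single p.2 1) h)) = S p.1 p.2 * Gm μ p.2 p.1 := by
    intro p
    rw [TM.H104.Ex_cmul, ← H447.bf_Gm hμ he]
    congr 1
    have h3 : bf (Gm μ) (Pi.single p.1 1) (Pi.single p.2 1) = Gm μ p.1 p.2 := by
      unfold bf
      rw [Finset.sum_eq_single p.1, Finset.sum_eq_single p.2]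
      · simp
      · intro y _ hy
        simp [Pi.single_eq_of_ne hy]
      · simp
      · intro y _ hy
        simp [Pi.single_eq_of_ne hy]
      · simp
    rw [h3]
    have h4 := congrFun (congrFun (H114.Gm_transpose μ) p.2) p.1
    exact h4
  rw [Finset.sum_congr rfl fun p _ => h2 p, Fintype.sum_prod_type]
  unfold Matrix.trace
  refine sum_congr rfl fun x _ => ?_
  rw [Matrix.diag_apply, Matrix.mul_apply]

lemma fine_mul_Pn (hl : l ∣ N) :
    (1 - cellP N l : Matrix (V N) (V N) ℝ) * Pn = 1 - cellP N l := by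
  have := nez_div hl
  refine Matrix.ext_of_mulVec_single fun x => ?_
  rw [← mulVec_mulVec]
  set u : V N → ℝ := Pi.single x 1
  have h1 : (Pn : Matrix (V N) (V N) ℝ) *ᵥ u =
      u - ((∑ y, u y) / Fintype.card (V N)) • fun _ => (1 : ℝ) := by
    rw [H963.Pn_mulVec]
    funext y
    simp
  rw [h1, mulVec_sub, mulVec_smul]
  have h2 : (1 - cellP N l : Matrix (V N) (V N) ℝ) *ᵥ (fun _ => (1 : ℝ)) = 0 := by
    rw [sub_mulVec, one_mulVec, H864.cellP_one hl, sub_self]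
  rw [h2, smul_zero, sub_zero]

lemma Pn_mul_fine (hl : l ∣ N) :
    (Pn : Matrix (V N) (V N) ℝ) * (1 - cellP N l) = 1 - cellP N l := by
  have h := congrArg Matrix.transpose (fine_mul_Pn hl)
  rwa [Matrix.transpose_mul, fine_tr, H963.Pn_transpose] at h

lemma Ex_fine (hb : 0 ≤ b) (hl : l ∣ N) {a : ℝ} (ha : 0 < a) :
    Ex (nwt N b a 0) 0 (fun h => qf (1 - cellP N l) (re h)) =
      ((1 - cellP N l) * Gn N b a).trace := by
  rw [Ex_qf_tr (H963.em_nwt hb ha 0) (H963.ev_nwt hb a 0)]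
  have h4 : Gn N b a = (Pn : Matrix (V N) (V N) ℝ) * Gm (nwt N b a 0) * Pn := rfl
  have h5 : (1 - cellP N l) * ((Pn : Matrix (V N) (V N) ℝ) * Gm (nwt N b a 0) * Pn) =
      (1 - cellP N l) * Gm (nwt N b a 0) * Pn := by
    rw [← Matrix.mul_assoc, ← Matrix.mul_assoc, fine_mul_Pn hl]
  rw [h4, h5, Matrix.trace_mul_comm _ (Pn : Matrix (V N) (V N) ℝ), ← Matrix.mul_assoc,
    Pn_mul_fine hl]

/-- **the rough cell modes, scalar masses** -/
theorem high_sum [NeZero (N / l)] {ρ : ℕ} (hb : 0 ≤ b) (hl : l ∣ N) (hρ : ρ ∣ N) {a c : ℝ}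
    (ha : 0 < a) (hac : a ≤ c) {E : ℝ}
    (hE : Ex (nwt N b a 0) 0 (fun h => qf (1 - cellP N ρ) (re h)) -
      Ex (nwt N b c 0) 0 (fun h => qf (1 - cellP N ρ) (re h)) ≤ E) (H : Finset (V (N / l)))
    (hH : ∀ k ∈ H, 32 * (l : ℝ) ^ 2 ≤ (ρ : ℝ) ^ 2 * EE k) :
    ∑ k ∈ H, (sym (Gnc N l b a a) k - sym (Gnc N l b c c) k) ≤ 4 / 3 * E := by
  have := nez_div hρ
  have hc : 0 < c := ha.trans_le hac
  have ta := H963.ti_Gn (N := N) hb ha
  have tc := H963.ti_Gn (N := N) hb hc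
  have hpos : ∀ p, 0 ≤ sym (Gn N b a - Gn N b c) p := by
    intro p
    rw [H864.sym_sub, sub_nonneg]
    by_cases hp : p = 0
    · subst hp
      have h1 := H963.Gnh_zero N b a
      have h2 := H963.Gnh_zero N b c
      unfold H963.Gnh at h1 h2
      rw [h1, h2]
    · have hm : ∀ u : V N → ℝ, Neu u → qf (Gn N b c) u ≤ qf (Gn N b a) u := by
        intro u hu
        rw [H963.qf_Gn_neu N b c hu, H963.qf_Gn_neu N b a hu]
        have h1 := mono_N hb hc (masN_sc (N := N) ha hac le_rfl) 0 hu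
        have h2 : nM (wT b N) (a • (1 : Matrix (V N) (V N) ℝ)) a 0 = nwt N b a 0 := rfl
        have h3 : nM (wT b N) (c • (1 : Matrix (V N) (V N) ℝ)) c 0 = nwt N b c 0 := rfl
        rw [h2, h3] at h1
        linarith
      exact H963.sym_le_of_waves' tc ta (hm _ (H963.neu_cN hp)) (hm _ (H963.neu_sN p))
  have h1 := high_le hl hρ (ta.sub tc) hpos H hH
  have h2 : ∑ k ∈ H, sym (Gc l (Gn N b a - Gn N b c)) k =
      ∑ k ∈ H, (sym (Gnc N l b a a) k - sym (Gnc N l b c c) k) := by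
    refine sum_congr rfl fun k _ => ?_
    rw [H864.Gc_sub, H864.sym_sub, H963.Gnc_self, H963.Gnc_self]
  rw [← h2]
  refine h1.trans (mul_le_mul_of_nonneg_left ?_ (by norm_num))
  rw [Matrix.mul_sub, Matrix.trace_sub, ← Ex_fine hb hρ ha, ← Ex_fine hb hρ hc]
  exact hE

end inst

end

end Vale.Agent.P159.H159
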