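import Vale.Agent.P159.H37.Spec0L

/-!
P159, module ASSOC (helper159), part 4: growth in the source of expectations and cumulants for
weights with a Gaussian tail.
-/

namespace Vale.Agent.P159.H159

open Finset Matrix
open Vale.Agent.P159.TM.H104
open Vale.Agent.P159.H37

variable {V : Type*} [Fintype V] {μ : (V → ℤ) → ℝ}

/-- Gaussian tail -/
def GT (μ : (V → ℤ) → ℝ) : Prop :=
  ∃ m C : ℝ, 0 < m ∧ ∀ h, μ h ≤ C * Real.exp (-(m * ∑ x, (h x : ℝ) ^ 2))

theorem GT.pos (h : GT μ) :
    ∃ m C : ℝ, 0 < m ∧ 0 ≤ C ∧ ∀ h, μ h ≤ C * Real.exp (-(m * ∑ x, (h x : ℝ) ^ 2)) := by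
  obtain ⟨m, C, hm, h⟩ := h
  exact ⟨m, |C|, hm, abs_nonneg _, fun k => (h k).trans
    (mul_le_mul_of_nonneg_right (le_abs_self C) (Real.exp_pos _).le)⟩

theorem gt_of_le {ν : (V → ℤ) → ℝ} (h : GT μ) (h1 : ∀ k, ν k ≤ μ k) : GT ν := by
  obtain ⟨m, C, hm, h⟩ := h
  exact ⟨m, C, hm, fun k => (h1 k).trans (h k)⟩

theorem gt_wM {w : (V → ℤ) → ℝ} {Wb : ℝ} (hwb : ∀ h, w h ≤ Wb) {M : Matrix V V ℝ} {m0 : ℝ}
    (hm0 : 0 < m0) (hM : ∀ u : V → ℝ, m0 * ∑ x, u x ^ 2 ≤ qf M u) : GT (wM w M) := by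
  refine ⟨m0 / 2, max Wb 0, by positivity, fun h => ?_⟩
  unfold wM
  refine mul_le_mul ((hwb h).trans (le_max_left _ _)) (Real.exp_le_exp.2 ?_) (Real.exp_pos _).le
    (le_max_right _ _)
  have := hM (re h)
  simp only [re] at this ⊢
  linarith

theorem gt_post {I : Type*} [Fintype I] (h0 : ∀ h, 0 ≤ μ h) (h : GT μ) (P : Matrix I V ℝ) :
    GT (post μ P) := by
  refine gt_of_le h fun k => ?_
  unfold post
  have h1 : Real.exp (-((∑ i, (P *ᵥ re k) i ^ 2) / 2)) ≤ 1 := by
    rw [Real.exp_le_one_iff]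
    have : 0 ≤ ∑ i, (P *ᵥ re k) i ^ 2 := Finset.sum_nonneg fun _ _ => sq_nonneg _
    linarith
  nlinarith [h0 k]

theorem nh_sq_le (h : V → ℤ) : nh h ^ 2 ≤ (Fintype.card V : ℝ) * ∑ x, (h x : ℝ) ^ 2 := by
  unfold nh
  have := sq_sum_le_card_mul_sum_sq (s := (Finset.univ : Finset V)) (f := fun x => |(h x : ℝ)|)
  simpa only [sq_abs, Finset.card_univ] using this

theorem abs_li' (u : V → ℝ) (h : V → ℤ) : |li u h| ≤ (∑ x, |u x|) * nh h := by
  refine (abs_li u h).trans (mul_le_mul_of_nonneg_right ?_ (nh_nonneg h))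
  rw [pi_norm_le_iff_of_nonneg (Finset.sum_nonneg fun _ _ => abs_nonneg _)]
  intro x
  rw [Real.norm_eq_abs]
  exact Finset.single_le_sum (f := fun x => |u x|) (fun _ _ => abs_nonneg _) (Finset.mem_univ x)

/-- lower bound of the partition function -/
theorem Zs_lower (hμ : EM μ) : ∃ c D : ℝ, 0 < c ∧ 0 ≤ D ∧ ∀ J : V → ℝ,
    c * Real.exp (-(D * ∑ x, |J x|)) ≤ TM.H104.T μ J fun _ => 1 := by
  obtain ⟨h, hh⟩ := hμ.pos
  refine ⟨μ h, nh h, hh, nh_nonneg h, fun J => ?_⟩
  have h1 := (hμ.summ (Gr.const 1) J).le_tsum h fun k _ =>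
    mul_nonneg (mul_nonneg zero_le_one (hμ.nn k)) (Real.exp_pos _).le
  refine le_trans ?_ h1
  rw [one_mul]
  refine mul_le_mul_of_nonneg_left (Real.exp_le_exp.2 ?_) hh.le
  have := neg_abs_le (li J h)
  have h2 := abs_li' J h
  linarith

theorem summable_gau {m : ℝ} (hm : 0 < m) :
    Summable fun h : V → ℤ => Real.exp (-(m * ∑ x, (h x : ℝ) ^ 2)) := by
  have h1 := (TM.H104.em_bw (V := V) (w := fun _ => 1) (m := fun _ => 2 * m) (Wb := 1)
    (fun _ => by positivity) (fun _ => zero_le_one) (fun _ => le_rfl) ⟨0, one_pos⟩).sum 0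
  refine h1.congr fun h => ?_
  unfold TM.H104.bw TM.H870.gr
  rw [one_mul, zero_mul, Real.exp_zero, mul_one]
  congr 2
  rw [Finset.mul_sum]
  refine Finset.sum_congr rfl fun x _ => ?_
  simp only [Pi.zero_apply, sub_zero]
  ring

/-- pointwise bound of a term -/
theorem term_le {m B A : ℝ} (hm : 0 < m) (hB : 0 ≤ B) (hA : 0 ≤ A) (hμ : ∀ h, 0 ≤ μ h)
    (hb : ∀ h, μ h ≤ B * Real.exp (-(m * ∑ x, (h x : ℝ) ^ 2))) {F : (V → ℤ) → ℝ}
    (hF : ∀ h, |F h| ≤ A * Real.exp (A * nh h)) (J : V → ℝ) (h : V → ℤ) :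
    |F h| * μ h * Real.exp (li J h) ≤
      A * Real.exp (A * (2 * (Fintype.card V : ℝ) * (A + 1) / m) * (1 + ∑ x, |J x|)) *
        (μ h * Real.exp (li J h)) + A * B * Real.exp (-(m / 2 * ∑ x, (h x : ℝ) ^ 2)) := by
  set v : ℝ := (Fintype.card V : ℝ) with hv
  set K : ℝ := 2 * v * (A + 1) / m with hK
  set j : ℝ := ∑ x, |J x| with hj
  set S : ℝ := ∑ x, (h x : ℝ) ^ 2 with hS
  have hj0 : 0 ≤ j := Finset.sum_nonneg fun _ _ => abs_nonneg _
  have hS0 : 0 ≤ S := Finset.sum_nonneg fun _ _ => sq_nonneg _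
  have hv0 : 0 ≤ v := by positivity
  have hK0 : 0 ≤ K := by positivity
  have hn := nh_nonneg h
  have hn2 : nh h ^ 2 ≤ v * S := nh_sq_le h
  have hlj : li J h ≤ j * nh h := (le_abs_self _).trans (abs_li' J h)
  rcases le_total (nh h) (K * (1 + j)) with hle | hle
  · have h1 : |F h| ≤ A * Real.exp (A * K * (1 + j)) := by
      refine (hF h).trans (mul_le_mul_of_nonneg_left (Real.exp_le_exp.2 ?_) hA)
      rw [mul_assoc]
      exact mul_le_mul_of_nonneg_left hle hA
    have h2 : |F h| * μ h * Real.exp (li J h) ≤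
        A * Real.exp (A * K * (1 + j)) * (μ h * Real.exp (li J h)) := by
      rw [mul_assoc]
      exact mul_le_mul_of_nonneg_right h1 (mul_nonneg (hμ h) (Real.exp_pos _).le)
    have h3 : 0 ≤ A * B * Real.exp (-(m / 2 * S)) := by positivity
    linarith
  · have key : (A + 1) * (1 + j) * nh h ≤ m / 2 * S := by
      rcases hn.eq_or_lt with h0 | h0
      · rw [← h0, mul_zero]
        positivity
      · have hvp : 0 < v := by
          by_contra hc
          have : v = 0 := le_antisymm (not_lt.1 hc) hv0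
          rw [this, zero_mul] at hn2
          nlinarith
        have h5 : K * (1 + j) * nh h ≤ nh h ^ 2 := by
          rw [sq]
          exact mul_le_mul_of_nonneg_right hle hn
        have h6 : K * (1 + j) * nh h ≤ v * S := h5.trans hn2
        have h7 : m / 2 * K = v * (A + 1) := by
          rw [hK]
          field_simp
        have h8 : v * ((A + 1) * (1 + j) * nh h) ≤ v * (m / 2 * S) := by
          calc v * ((A + 1) * (1 + j) * nh h) = v * (A + 1) * ((1 + j) * nh h) := by ring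
            _ = m / 2 * K * ((1 + j) * nh h) := by rw [h7]
            _ = m / 2 * (K * (1 + j) * nh h) := by ring
            _ ≤ m / 2 * (v * S) := mul_le_mul_of_nonneg_left h6 (by positivity)
            _ = _ := by ring
        exact le_of_mul_le_mul_left h8 hvp
    have h2 : |F h| * μ h * Real.exp (li J h) ≤ A * B * Real.exp (-(m / 2 * S)) := by
      calc |F h| * μ h * Real.exp (li J h)
          ≤ A * Real.exp (A * nh h) * (B * Real.exp (-(m * S))) * Real.exp (j * nh h) := by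
            refine mul_le_mul (mul_le_mul (hF h) (hb h) (hμ h) (by positivity))
              (Real.exp_le_exp.2 hlj) (Real.exp_pos _).le (by positivity)
        _ = A * B * Real.exp (A * nh h + -(m * S) + j * nh h) := by
            rw [Real.exp_add, Real.exp_add]
            ring
        _ ≤ A * B * Real.exp (-(m / 2 * S)) := by
            refine mul_le_mul_of_nonneg_left (Real.exp_le_exp.2 ?_) (by positivity)
            nlinarith [mul_nonneg hA (mul_nonneg hj0 hn)]
    have h3 : 0 ≤ A * Real.exp (A * K * (1 + j)) * (μ h * Real.exp (li J h)) := by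
      have := hμ h
      positivity
    linarith

/-- **growth in the source: means** -/
theorem egr_Ex (hμ : EM μ) (hG : GT μ) {F : (V → ℤ) → ℝ} (gF : Gr F) :
    EGr fun J => Ex μ J F := by
  obtain ⟨m, B, hm, hB, hb⟩ := hG.pos
  obtain ⟨A, hA, hF⟩ := gF.pos
  obtain ⟨c, D, hc, hD, hZ⟩ := Zs_lower hμ
  set K : ℝ := 2 * (Fintype.card V : ℝ) * (A + 1) / m with hK
  have hK0 : 0 ≤ K := by positivity
  set G : ℝ := ∑' h : V → ℤ, Real.exp (-(m / 2 * ∑ x, (h x : ℝ) ^ 2)) with hGd
  have hG0 : 0 ≤ G := tsum_nonneg fun _ => (Real.exp_pos _).le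
  have sG := summable_gau (V := V) (half_pos hm)
  have hm' : Measurable fun J => Ex μ J F := by
    unfold Ex
    exact ((TM.H104.continuous_T hμ gF).div (TM.H104.continuous_T hμ (Gr.const 1)) fun J =>
      (T_one_pos hμ J).ne').measurable
  refine EGr.mk' hm' (A := A * Real.exp (A * K) + A * B * G / c) (B := max (A * K) D) fun J => ?_
  set j : ℝ := ∑ x, |J x| with hj
  have hj0 : 0 ≤ j := Finset.sum_nonneg fun _ _ => abs_nonneg _
  have gaF : Gr fun h => |F h| := ⟨A, fun h => by rw [abs_abs]; exact hF h⟩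
  have hZp := T_one_pos hμ J
  have h1 : |TM.H104.T μ J F| ≤ TM.H104.T μ J fun h => |F h| := by
    unfold TM.H104.T
    have hs := hμ.summ gF J
    refine (norm_tsum_le_tsum_norm hs.norm).trans (le_of_eq ?_)
    refine tsum_congr fun h => ?_
    rw [Real.norm_eq_abs, abs_mul, abs_mul, abs_of_nonneg (hμ.nn h), abs_of_pos (Real.exp_pos _)]
  have h2 : (TM.H104.T μ J fun h => |F h|) ≤
      A * Real.exp (A * K * (1 + j)) * (TM.H104.T μ J fun _ => 1) + A * B * G := by
    have s1 : Summable fun h : V → ℤ => μ h * Real.exp (li J h) := by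
      simpa using hμ.summ (Gr.const 1) J
    have s2 := (s1.mul_left (A * Real.exp (A * K * (1 + j)))).add (sG.mul_left (A * B))
    have h3 := (hμ.summ gaF J).tsum_le_tsum (fun h => term_le hm hB hA hμ.nn hb hF J h) s2
    rw [(s1.mul_left _).tsum_add (sG.mul_left _), tsum_mul_left, tsum_mul_left] at h3
    have h4 : (TM.H104.T μ J fun _ => 1) = ∑' h, μ h * Real.exp (li J h) := by
      unfold TM.H104.T
      exact tsum_congr fun h => by rw [one_mul]
    rw [h4]
    exact h3
  unfold Ex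
  rw [abs_div, abs_of_pos hZp, div_le_iff₀ hZp]
  refine (h1.trans h2).trans ?_
  have e1 : Real.exp (A * K * (1 + j)) ≤ Real.exp (A * K) * Real.exp (max (A * K) D * j) := by
    rw [← Real.exp_add]
    refine Real.exp_le_exp.2 ?_
    have := mul_le_mul_of_nonneg_right (le_max_left (A * K) D) hj0
    linarith
  have e2 : A * B * G ≤ A * B * G / c * Real.exp (max (A * K) D * j) *
      TM.H104.T μ J fun _ => 1 := by
    have h5 : c ≤ Real.exp (max (A * K) D * j) * TM.H104.T μ J fun _ => 1 := by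
      calc c = Real.exp (D * j) * (c * Real.exp (-(D * j))) := by
            rw [mul_left_comm, ← Real.exp_add, add_neg_cancel, Real.exp_zero, mul_one]
        _ ≤ Real.exp (max (A * K) D * j) * (TM.H104.T μ J fun _ => 1) := by
            refine mul_le_mul (Real.exp_le_exp.2 (mul_le_mul_of_nonneg_right
              (le_max_right _ _) hj0)) (hZ J) (by positivity) (Real.exp_pos _).le
    calc A * B * G = A * B * G / c * c := by field_simp
      _ ≤ A * B * G / c * (Real.exp (max (A * K) D * j) * TM.H104.T μ J fun _ => 1) :=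
          mul_le_mul_of_nonneg_left h5 (by positivity)
      _ = _ := by ring
  have e3 : A * Real.exp (A * K * (1 + j)) * (TM.H104.T μ J fun _ => 1) ≤
      A * (Real.exp (A * K) * Real.exp (max (A * K) D * j)) * TM.H104.T μ J fun _ => 1 :=
    mul_le_mul_of_nonneg_right (mul_le_mul_of_nonneg_left e1 hA) hZp.le
  calc A * Real.exp (A * K * (1 + j)) * (TM.H104.T μ J fun _ => 1) + A * B * G
      ≤ A * (Real.exp (A * K) * Real.exp (max (A * K) D * j)) * (TM.H104.T μ J fun _ => 1) +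
        A * B * G / c * Real.exp (max (A * K) D * j) * (TM.H104.T μ J fun _ => 1) :=
        add_le_add e3 e2
    _ = _ := by ring

theorem egr_Cv (hμ : EM μ) (hG : GT μ) {F G : (V → ℤ) → ℝ} (gF : Gr F) (gG : Gr G) :
    EGr fun J => Cv μ J F G := by
  unfold Cv
  exact (egr_Ex hμ hG (gF.mul gG)).sub ((egr_Ex hμ hG gF).mul (egr_Ex hμ hG gG))

theorem egr_K3 (hμ : EM μ) (hG : GT μ) {F G H : (V → ℤ) → ℝ} (gF : Gr F) (gG : Gr G)
    (gH : Gr H) : EGr fun J => K3 μ J F G H := by
  unfold K3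
  have e := fun {F : (V → ℤ) → ℝ} (gF : Gr F) => egr_Ex hμ hG gF
  exact ((((e ((gF.mul gG).mul gH)).sub ((e (gF.mul gG)).mul (e gH))).sub
    ((e (gF.mul gH)).mul (e gG))).sub ((e (gG.mul gH)).mul (e gF))).add
    ((((EGr.const 2).mul (e gF)).mul (e gG)).mul (e gH))

/-! ### the free energy -/

theorem egr_coord (x : V) : EGr fun J : V → ℝ => J x := by
  refine EGr.mk' (measurable_pi_apply x) (A := 1) (B := 1) fun J => ?_
  have h1 : |J x| ≤ ∑ y, |J y| :=
    Finset.single_le_sum (f := fun y => |J y|) (fun _ _ => abs_nonneg _) (Finset.mem_univ x)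
  have h2 := Real.add_one_le_exp (∑ y, |J y|)
  rw [one_mul, one_mul]
  linarith

theorem egr_sum {ι : Type*} (s : Finset ι) {Φ : ι → (V → ℝ) → ℝ} (h : ∀ i ∈ s, EGr (Φ i)) :
    EGr fun J => ∑ i ∈ s, Φ i J := by
  classical
  induction s using Finset.induction_on with
  | empty => simpa using EGr.const (V := V) 0
  | insert i s hi ih =>
    simp only [Finset.sum_insert hi]
    exact (h i (Finset.mem_insert_self _ _)).add (ih fun j hj => h j (Finset.mem_insert_of_mem hj))

theorem egr_qf (M : Matrix V V ℝ) : EGr fun J => qf M J := by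
  unfold qf
  exact egr_sum _ fun x _ => egr_sum _ fun y _ =>
    ((egr_coord x).mul (EGr.const _)).mul (egr_coord y)

theorem egr_bf (M : Matrix V V ℝ) (u : V → ℝ) : EGr fun J => bf M u J := by
  unfold bf
  exact egr_sum _ fun x _ => egr_sum _ fun y _ => (EGr.const _).mul (egr_coord y)

/-- quadratic upper bound of the free energy -/
theorem Zs_upper (hμ : EM μ) (hG : GT μ) : ∃ C D : ℝ, 0 < C ∧ 0 ≤ D ∧ ∀ J : V → ℝ,
    (TM.H104.T μ J fun _ => 1) ≤ C * Real.exp (D * (∑ x, |J x|) ^ 2) := by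
  obtain ⟨m, B, hm, hB, hb⟩ := hG.pos
  have sG := summable_gau (V := V) (half_pos hm)
  set G : ℝ := ∑' h : V → ℤ, Real.exp (-(m / 2 * ∑ x, (h x : ℝ) ^ 2)) with hGd
  have hG0 : 0 ≤ G := tsum_nonneg fun _ => (Real.exp_pos _).le
  set v : ℝ := (Fintype.card V : ℝ) with hv
  have hv0 : 0 ≤ v := by positivity
  refine ⟨B * G + 1, v / (2 * m), by positivity, by positivity, fun J => ?_⟩
  set j : ℝ := ∑ x, |J x| with hj
  have hj0 : 0 ≤ j := Finset.sum_nonneg fun _ _ => abs_nonneg _
  have h1 : ∀ h : V → ℤ, 1 * μ h * Real.exp (li J h) ≤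
      B * Real.exp (v / (2 * m) * j ^ 2) * Real.exp (-(m / 2 * ∑ x, (h x : ℝ) ^ 2)) := by
    intro h
    set S : ℝ := ∑ x, (h x : ℝ) ^ 2 with hS
    have hS0 : 0 ≤ S := Finset.sum_nonneg fun _ _ => sq_nonneg _
    have hn := nh_nonneg h
    have hn2 : nh h ^ 2 ≤ v * S := nh_sq_le h
    have hlj : li J h ≤ j * nh h := (le_abs_self _).trans (abs_li' J h)
    have key : j * nh h ≤ m / 2 * S + v / (2 * m) * j ^ 2 := by
      rcases hn.eq_or_lt with h0 | h0
      · rw [← h0, mul_zero]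
        positivity
      · have hvp : 0 < v := by
          by_contra hc
          have : v = 0 := le_antisymm (not_lt.1 hc) hv0
          rw [this, zero_mul] at hn2
          nlinarith
        have h2 : nh h ^ 2 / v ≤ S := by
          rw [div_le_iff₀ hvp]
          linarith
        have h3 : 0 ≤ (m * nh h / v - j) ^ 2 * (v / (2 * m)) := by positivity
        have h4 : (m * nh h / v - j) ^ 2 * (v / (2 * m)) =
            m / 2 * (nh h ^ 2 / v) - j * nh h + v / (2 * m) * j ^ 2 := by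
          field_simp
          ring
        have h5 := mul_le_mul_of_nonneg_left h2 (half_pos hm).le
        linarith
    calc 1 * μ h * Real.exp (li J h)
        ≤ B * Real.exp (-(m * S)) * Real.exp (j * nh h) := by
          rw [one_mul]
          exact mul_le_mul (hb h) (Real.exp_le_exp.2 hlj) (Real.exp_pos _).le (by positivity)
      _ = B * Real.exp (-(m * S) + j * nh h) := by
          rw [Real.exp_add]
          ring
      _ ≤ B * Real.exp (v / (2 * m) * j ^ 2 + -(m / 2 * S)) :=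
          mul_le_mul_of_nonneg_left (Real.exp_le_exp.2 (by linarith)) hB
      _ = _ := by
          rw [Real.exp_add]
          ring
  have h2 := (hμ.summ (Gr.const 1) J).tsum_le_tsum h1 (sG.mul_left _)
  rw [tsum_mul_left] at h2
  unfold TM.H104.T
  refine h2.trans ?_
  have h3 := Real.exp_pos (v / (2 * m) * j ^ 2)
  nlinarith

theorem egr_Lg (hμ : EM μ) (hG : GT μ) : EGr fun J => Lg μ J := by
  obtain ⟨c, D, hc, hD, hZ⟩ := Zs_lower hμ
  obtain ⟨C, E, hC, hE, hU⟩ := Zs_upper hμ hG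
  have hm' : Measurable fun J => Lg μ J := by
    unfold Lg
    exact Real.measurable_log.comp (TM.H104.continuous_T hμ (Gr.const 1)).measurable
  refine EGr.mk' hm' (A := |Real.log c| + |Real.log C| + D + 2 * E) (B := 1) fun J => ?_
  set j : ℝ := ∑ x, |J x| with hj
  have hj0 : 0 ≤ j := Finset.sum_nonneg fun _ _ => abs_nonneg _
  have hp := T_one_pos hμ J
  have h1 : Real.log c - D * j ≤ Lg μ J := by
    have := Real.log_le_log (by positivity) (hZ J)
    rw [Real.log_mul hc.ne' (Real.exp_pos _).ne', Real.log_exp] at this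
    unfold Lg
    linarith
  have h2 : Lg μ J ≤ Real.log C + E * j ^ 2 := by
    have := Real.log_le_log hp (hU J)
    rw [Real.log_mul hC.ne' (Real.exp_pos _).ne', Real.log_exp] at this
    exact this
  have h3 : 1 + j + j ^ 2 / 2 ≤ Real.exp j := Real.quadratic_le_exp_of_nonneg hj0
  have a1 := neg_abs_le (Real.log c)
  have a2 := le_abs_self (Real.log C)
  have a3 := abs_nonneg (Real.log c)
  have a4 := abs_nonneg (Real.log C)
  rw [one_mul, abs_le]
  have e1 : 1 ≤ Real.exp j := by nlinarith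
  have e2 : j ≤ Real.exp j := by nlinarith
  have e3 : j ^ 2 ≤ 2 * Real.exp j := by nlinarith
  constructor
  · nlinarith [mul_le_mul_of_nonneg_left e1 a3, mul_le_mul_of_nonneg_left e1 a4,
      mul_le_mul_of_nonneg_left e2 hD, mul_nonneg hE (Real.exp_pos j).le]
  · nlinarith [mul_le_mul_of_nonneg_left e1 a3, mul_le_mul_of_nonneg_left e1 a4,
      mul_nonneg hD (Real.exp_pos j).le, mul_le_mul_of_nonneg_left e3 hE]

theorem egr_Rs (hμ : EM μ) (hG : GT μ) : EGr fun J => Rs μ J := by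
  unfold Rs
  have h := ((egr_Lg hμ hG).sub (EGr.const (Lg μ 0))).sub ((egr_qf (Gm μ)).cmul (1 / 2))
  simpa only [one_div, inv_mul_eq_div] using h

/-- affine changes of the source -/
theorem egr_lin {W : Type*} [Fintype W] {Φ : (V → ℝ) → ℝ} (hΦ : EGr Φ) (a : V → ℝ)
    (A : Matrix V W ℝ) : EGr fun J : W → ℝ => Φ (a + A *ᵥ J) := by
  obtain ⟨C, hC, h⟩ := hΦ.bdd
  have hmeas : Measurable fun J : W → ℝ => a + A *ᵥ J := by
    refine measurable_pi_lambda _ fun x => ?_
    simp only [Pi.add_apply, mulVec, dotProduct]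
    fun_prop
  have hb : ∀ J : W → ℝ, ∑ x, |(a + A *ᵥ J) x| ≤
      ∑ x, |a x| + (∑ x, ∑ y, |A x y|) * ∑ y, |J y| := by
    intro J
    rw [Finset.sum_mul, ← Finset.sum_add_distrib]
    refine Finset.sum_le_sum fun x _ => ?_
    rw [Pi.add_apply]
    refine (abs_add_le _ _).trans (add_le_add le_rfl ?_)
    simp only [mulVec, dotProduct]
    refine (Finset.abs_sum_le_sum_abs _ _).trans ?_
    rw [Finset.sum_mul]
    refine Finset.sum_le_sum fun y _ => ?_
    rw [abs_mul]
    exact mul_le_mul_of_nonneg_left (Finset.single_le_sum (f := fun y => |J y|)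
      (fun _ _ => abs_nonneg _) (Finset.mem_univ y)) (abs_nonneg _)
  refine EGr.mk' (hΦ.meas.comp hmeas) (A := C * Real.exp (C * ∑ x, |a x|))
    (B := C * ∑ x, ∑ y, |A x y|) fun J => ?_
  refine (h _).trans ?_
  rw [mul_assoc, ← Real.exp_add]
  refine mul_le_mul_of_nonneg_left (Real.exp_le_exp.2 ?_) hC
  have := mul_le_mul_of_nonneg_left (hb J) hC
  linarith

theorem egr_smul {Φ : (V → ℝ) → ℝ} (hΦ : EGr Φ) (c : ℝ) : EGr fun J : V → ℝ => Φ (c • J) := by
  classical
  have h := egr_lin hΦ 0 (c • (1 : Matrix V V ℝ))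
  simpa only [smul_mulVec, one_mulVec, zero_add] using h

theorem egr_shift {Φ : (V → ℝ) → ℝ} (hΦ : EGr Φ) (a : V → ℝ) :
    EGr fun J : V → ℝ => Φ (a + J) := by
  classical
  have h := egr_lin hΦ a (1 : Matrix V V ℝ)
  simpa only [one_mulVec] using h

theorem egr_Tq (hμ : EM μ) (hG : GT μ) : EGr fun J => Tq μ J := by
  unfold Tq
  exact ((egr_smul (egr_Lg hμ hG) 2).sub ((egr_Lg hμ hG).cmul 4)).add (EGr.const (3 * Lg μ 0))

/-! ### the gradient of the letters of the language file -/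

theorem gr_co (x : V) : Gr fun h : V → ℤ => (h x : ℝ) := by
  refine Gr.mk' (A := 1) (B := 1) fun h => ?_
  have h1 : |(h x : ℝ)| ≤ nh h :=
    Finset.single_le_sum (f := fun y => |(h y : ℝ)|) (fun _ _ => abs_nonneg _) (Finset.mem_univ x)
  have h2 := Real.add_one_le_exp (nh h)
  rw [one_mul, one_mul]
  linarith

theorem egr_mn (hμ : EM μ) (hG : GT μ) (x : V) : EGr fun J => mn μ J x := egr_Ex hμ hG (gr_co x)

theorem egr_Cm (hμ : EM μ) (hG : GT μ) (x y : V) : EGr fun J => Cm μ J x y :=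
  egr_Cv hμ hG (gr_co x) (gr_co y)

theorem egr_bf_Cm (hμ : EM μ) (hG : GT μ) (u v : V → ℝ) : EGr fun J => bf (Cm μ J) u v := by
  unfold bf
  exact egr_sum _ fun x _ => egr_sum _ fun y _ =>
    ((EGr.const _).mul (egr_Cm hμ hG x y)).mul (EGr.const _)

theorem egr_qf_Cm (hμ : EM μ) (hG : GT μ) (u : V → ℝ) : EGr fun J => qf (Cm μ J) u :=
  egr_bf_Cm hμ hG u u

end Vale.Agent.P159.H159
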