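import Vale.Agent.P159.H159.Mz4
import Vale.Agent.P159.H358.Un9

/-!
P159 / (P#) (helper159): the locality of the cell gradient and the tail of the kernel at the cells of the
V context, mass `tn n`: all inputs (typical fields, block noise) from the state, one `b`.
-/

open Finset MeasureTheory

set_option linter.unusedSectionVars false
set_option linter.unusedDecidableInType false

namespace Vale.Agent.P159.H159

open Vale.Agent.P159.TM.Spec (V Rng)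
open Vale.Agent.P159.TM.SpecC (wT)
open Vale.Agent.P159.H37 (gau)
open Vale.Agent.P159.H552 (lft)
open Vale.Agent.P159.H864 (yt)
open Vale.Agent.P159.H462 (Dom Mx qK qz)
open Vale.Agent.P159.H363 (pin acl Nf rel)
open Vale.Agent.P159.H733.Vt (trp)
open Vale.Agent.P159.H972 (Par tn Good GP)
open Vale.Agent.P159.H801 (Ev)
open Vale.Agent.P159.H816 (ev_typV ev_of_fam)
open Vale.Agent.P159.H789 (fam_apV)
open Vale.Agent.P159.H358 (cutm Ls VtIn Lvl Sq ev_sq rn_law rn_typ Rn)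
open Matrix

/-- the inputs of one level: cells of the V context, two tori -/
structure LvI (P : Par) (b c1 : ℝ) (n s : ℕ) (e Y : ℝ) (r1 r2 : ℕ) : Prop where
  e0 : 0 < e
  es : e ≤ P.es
  G : Good P b n e
  sE : s ≤ P.sE n e
  ns : n ≤ 2 * s
  nR : ((n : ℝ) - s) ≤ e ^ (-(2 * c1))
  lam : (2 : ℝ) ^ s / 2 ^ n ≤ e
  T1 : P.TT n e r1
  T2 : P.TT n e r2
  y1 : yt (2 ^ r1) b (4 * tn n) ≤ Y
  y2 : yt (2 ^ r2) b (4 * tn n) ≤ Y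
  Y2 : 16 * Y ^ 2 ≤ e

theorem LvI.sn {P : Par} {b c1 : ℝ} {n s : ℕ} {e Y : ℝ} {r1 r2 : ℕ}
    (h : LvI P b c1 n s e Y r1 r2) : s ≤ n := by
  have h1 := h.sE
  unfold H972.Par.sE at h1
  omega

theorem LvI.symm {P : Par} {b c1 : ℝ} {n s : ℕ} {e Y : ℝ} {r1 r2 : ℕ}
    (h : LvI P b c1 n s e Y r1 r2) : LvI P b c1 n s e Y r2 r1 :=
  ⟨h.e0, h.es, h.G, h.sE, h.ns, h.nR, h.lam, h.T2, h.T1, h.y2, h.y1, h.Y2⟩

/-- locality of the cell gradient in the law `pin A` on the torus `2 ^ r` -/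
def LocM (b β : ℝ) (n s D0 r : ℕ) [NeZero (2 ^ r / 2 ^ s)]
    (A : Matrix (V (2 ^ r / 2 ^ s)) (V (2 ^ r / 2 ^ s)) ℝ) : Prop :=
  ∀ x, Integrable (fun g : V (2 ^ r / 2 ^ s) → ℝ => (Mx (2 ^ r) (2 ^ s) b (tn n) x (pin A *ᵥ g) -
      Mx (2 ^ r) (2 ^ s) b (tn n) x (cutm D0 x (pin A *ᵥ g))) ^ 2) (gau (V (2 ^ r / 2 ^ s))) ∧
    ∫ g, (Mx (2 ^ r) (2 ^ s) b (tn n) x (pin A *ᵥ g) -
      Mx (2 ^ r) (2 ^ s) b (tn n) x (cutm D0 x (pin A *ᵥ g))) ^ 2 ∂(gau (V (2 ^ r / 2 ^ s))) ≤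
      Real.exp (-(β * Ls n s)) ^ 2

/-- the common local functional, base torus `2 ^ r1`, law `pin A` on the torus `2 ^ r2` -/
def LocF (b β : ℝ) (n s D0 r1 r2 : ℕ) [NeZero (2 ^ r1 / 2 ^ s)] [NeZero (2 ^ r2 / 2 ^ s)]
    (A : Matrix (V (2 ^ r2 / 2 ^ s)) (V (2 ^ r2 / 2 ^ s)) ℝ) : Prop :=
  ∀ x, Integrable (fun g : V (2 ^ r2 / 2 ^ s) → ℝ =>
      (Mx (2 ^ r2) (2 ^ s) b (tn n) x (pin A *ᵥ g) -
      Mx (2 ^ r1) (2 ^ s) b (tn n) 0 (cutm D0 0 (trp D0 0 x (pin A *ᵥ g)))) ^ 2)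
        (gau (V (2 ^ r2 / 2 ^ s))) ∧
    ∫ g, (Mx (2 ^ r2) (2 ^ s) b (tn n) x (pin A *ᵥ g) -
      Mx (2 ^ r1) (2 ^ s) b (tn n) 0 (cutm D0 0 (trp D0 0 x (pin A *ᵥ g)))) ^ 2
        ∂(gau (V (2 ^ r2 / 2 ^ s))) ≤ Real.exp (-(β * Ls n s)) ^ 2

/-- **locality of the cell gradient at the V cells**, all inputs from the state -/
theorem mxV_ev {b1 b2 b pf : ℝ} (hb1 : 0 < b1) (hb : b1 ≤ b) (hb2 : 0 < b2) (hpf : 0 < pf)
    {c0 β : ℝ} (hc0 : 0 < c0) (hβ : 0 ≤ β) :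
    ∃ A00 : ℝ, 1 ≤ A00 ∧ ∀ A0 : ℝ, A00 ≤ A0 → ∀ Q : ℕ, Ev b1 b2 pf Q fun P c1 =>
      ∀ (n s : ℕ) (e Y : ℝ) (r1 r2 : ℕ) [NeZero (2 ^ r1 / 2 ^ s)] [NeZero (2 ^ r2 / 2 ^ s)],
        LvI P b c1 n s e Y r1 r2 → ∀ D0 : ℕ, A0 * Ls n s * 2 ^ n ≤ D0 * 2 ^ s →
        (D0 : ℝ) * 2 ^ s ≤ 2 * A0 * Ls n s * 2 ^ n →
        1 ≤ Ls n s ∧ (((2 ^ r2 / 2 ^ s : ℕ) : ℝ) ≤ Real.exp (2 * Ls n s)) ∧
        (∀ {A : Matrix (V (2 ^ r2 / 2 ^ s)) (V (2 ^ r2 / 2 ^ s)) ℝ} {c : ℝ},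
          Dom A (tn n * ((2 ^ s : ℕ) : ℝ) ^ 2) c → c0 ≤ c → Nf A →
          ∑ k, rel (acl (2 ^ r2) (2 ^ s) b (tn n) (tn n)) A k ^ 2 ≤ (e ^ (22 / 25 : ℝ)) ^ 2 →
          LocM b β n s D0 r2 A ∧ LocF b β n s D0 r1 r2 A) := by
  have hb0 : 0 < b := hb1.trans_le hb
  obtain ⟨A00, hA00, hvt⟩ := mx_ev (β₀ := β) hb1 hb2 hc0 hβ
  refine ⟨A00, hA00, fun A0 hA0 Q => ?_⟩
  refine ((((hvt A0 hA0 pf Q).and (ev_typV (b := b) (b2 := b2) hb1 hb hpf Q)).and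
    (ev_of_fam (fam_apV (b := b) (b1 := b1) (b2 := b2) (pf := pf) hb1 hb) Q)).and
    (ev_sq (b1 := b1) (b2 := b2) (pf := pf) Q)).mono ?_
  rintro P c1 hA ⟨⟨⟨⟨hc1, hc1t, hvt⟩, htv⟩, hap⟩, hX12, hth1, hsq⟩
  intro n s e Y r1 r2 _ _ h D0 hD1 hD2
  have he := h.e0
  have S := hsq e h.e0 h.es
  have hsn := h.sn
  have he1 : e ≤ 1 := by
    by_contra hcon
    rw [not_le] at hcon
    have h1 : (1 : ℝ) ≤ e ^ (22 / 25 : ℝ) := Real.one_le_rpow hcon.le (by norm_num)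
    linarith [S.b3]
  have htn := H972.tn_pos n
  have hth := P.th0
  have hns : ((n - s : ℕ) : ℝ) ≤ e ^ (-(2 * c1)) := by
    rw [Nat.cast_sub hsn]
    exact h.nR
  have lv : Lvl P b c1 n s e (tn n) :=
    ⟨h.e0, h.es, h.G, le_rfl, by linarith, hsn, h.ns, hns, h.lam⟩
  obtain ⟨τ0, a0, ht1, ht2, hGP⟩ := h.G
  have gp := hGP e le_rfl h.es
  have hn12 : 12 ≤ n := by
    have h2 := (gp.rng r1 (Or.inl h.T1)).1.hX
    exact (pow_le_pow_iff_right₀ (one_lt_two : (1 : ℕ) < 2)).1 (hX12.trans h2)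
  have hsr2 : s ≤ r2 := hsn.trans ((Nat.le_add_right _ _).trans h.T2.1)
  -- block noise
  set v : ℝ := e ^ (-(49 / 100 * P.th)) with hv
  have hv0 : 0 < v := Real.rpow_pos_of_pos he _
  have hv1 : e ^ (49 / 100 * P.th) * v = 1 := by
    rw [hv, ← Real.rpow_add he, add_neg_cancel, Real.rpow_zero]
  have hv6 : 6 ≤ v := by
    have h3 := mul_le_mul_of_nonneg_right S.b6 hv0.le
    rw [mul_assoc, hv1] at h3
    linarith
  have hv2 : v ^ 2 * e ^ (-(P.th / 400)) ≤ 2 ^ (r1 - n) := by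
    have h3 : e ^ (-P.th) ≤ (2 : ℝ) ^ (r1 - n) := by
      refine (H733.Vt.lg_ge (c := P.th) he).trans (pow_le_pow_right₀ one_le_two ?_)
      have := h.T1.1
      unfold H972.Par.kE at this
      omega
    refine le_trans ?_ h3
    rw [hv, ← Real.rpow_natCast (e ^ (-(49 / 100 * P.th))), ← Real.rpow_mul he.le,
      ← Real.rpow_add he]
    refine Real.rpow_le_rpow_of_exponent_ge he he1 ?_
    push_cast
    linarith
  have hv3 : v ≤ 2 ^ P.xE e := by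
    refine le_trans ?_ (H733.Vt.lg_ge (c := P.x1) he)
    refine Real.rpow_le_rpow_of_exponent_ge he he1 ?_
    have h3 := hA.hx
    have h4 := P.thp0
    have h5 := P.x10
    linarith
  have hap' := hap a0 n e τ0 he h.es hn12 gp r1 h.T1 v hv6 hv2 hv3 s h.sE
  have hX1 : e ^ (-(P.th / 4)) ≤ v / 72 := by
    rw [le_div_iff₀ (by norm_num)]
    have h3 : e ^ (-(P.th / 4)) = e ^ (49 / 100 * P.th - P.th / 4) * v := by
      rw [hv, ← Real.rpow_add he]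
      congr 1
      ring
    have h4 := mul_le_mul_of_nonneg_right S.b5 hv0.le
    rw [h3]
    linarith
  have hV : VtIn P b c1 n s e (tn n) Y (v / 72) (2 * e ^ (1 / 8 : ℝ)) r1 r2 :=
    ⟨lv, h.T1, h.T2, h.y1, h.y2, h.Y2,
      by have := Real.rpow_pos_of_pos he (1 / 8 : ℝ); positivity, S.b4, hap', hX1⟩
  obtain ⟨-, hL, hn2, -, N1, N2⟩ := hvt b n s e (tn n) Y (v / 72) (2 * e ^ (1 / 8 : ℝ))
    r1 r2 hV D0 hD1 hD2
  refine ⟨hL, hn2, fun {A} {c} hdom hc hnf hHS => ?_⟩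
  have hf := rn_law (P := P) hb0 hsr2 htn he he1 hth1 S
    (fun a' ha ha' => htv n e τ0 a0 he h.es gp r2 h.T2 s h.sE h.ns h.nR (tn n) le_rfl
      (by linarith) a' ha ha') hnf hHS
  exact ⟨N1 hdom hc hf, N2 hdom hc hf⟩

/-- `rel A A = 0` -/
theorem rel_self_sum {n : ℕ} [NeZero n] {A : Matrix (V n) (V n) ℝ} (hA : Nf A) {u : ℝ} :
    ∑ k, rel A A k ^ 2 ≤ u ^ 2 := by
  have h0 : ∀ k, rel A A k = 0 := by
    intro k
    unfold H363.rel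
    split_ifs with hk
    · rfl
    · first
        | exact sub_eq_zero.2 (div_self (hA.pos k hk).ne')
        | (rw [div_self (hA.pos k hk).ne']; ring)
        | (rw [sub_self, zero_div])
  simp only [h0]
  rw [zero_pow two_ne_zero, Finset.sum_const_zero]
  exact sq_nonneg u

/-- **the cell gradient in the typical law of each torus, and the tail of the kernel `qz`** -/
theorem farV_ev {b1 b2 b pf : ℝ} (hb1 : 0 < b1) (hb : b1 ≤ b) (hb2 : 0 < b2) (hpf : 0 < pf)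
    {β : ℝ} (hβ : 0 ≤ β) :
    ∃ A00 : ℝ, 1 ≤ A00 ∧ ∀ A0 : ℝ, A00 ≤ A0 → ∀ Q : ℕ, Ev b1 b2 pf Q fun P c1 =>
      ∀ (n s : ℕ) (e Y : ℝ) (r1 r2 : ℕ) [NeZero (2 ^ r1 / 2 ^ s)] [NeZero (2 ^ r2 / 2 ^ s)],
        LvI P b c1 n s e Y r1 r2 → ∀ D0 : ℕ, A0 * Ls n s * 2 ^ n ≤ D0 * 2 ^ s →
        (D0 : ℝ) * 2 ^ s ≤ 2 * A0 * Ls n s * 2 ^ n →
        LocM b β n s D0 r2 (acl (2 ^ r2) (2 ^ s) b (tn n) (tn n)) ∧
        LocF b β n s D0 r1 r2 (acl (2 ^ r2) (2 ^ s) b (tn n) (tn n)) ∧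
        ∑ z ∈ (H462.box (0 : V (2 ^ r2 / 2 ^ s)) D0)ᶜ, |qz (2 ^ r2) (2 ^ s) b (tn n) z| ≤
          ((2 : ℝ) ^ s / 2 ^ n) ^ β := by
  have hb0 : 0 < b := hb1.trans_le hb
  obtain ⟨A00, hA00, hvt⟩ := mxV_ev (b2 := b2) (pf := pf) hb1 hb hb2 hpf (c0 := 1 / b)
    (β := β + 6) (by positivity) (by linarith)
  refine ⟨A00, hA00, fun A0 hA0 Q => (hvt A0 hA0 Q).mono fun P c1 _ h => ?_⟩
  intro n s e Y r1 r2 _ _ hL D0 hD1 hD2
  obtain ⟨hL1, hn2, hone⟩ := h n s e Y r1 r2 hL D0 hD1 hD2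
  have hsn := hL.sn
  have htn := H972.tn_pos n
  have hl : 2 ^ s ∣ 2 ^ r2 := pow_dvd_pow 2 (hsn.trans ((Nat.le_add_right _ _).trans hL.T2.1))
  have hdom := H375.dom_acl (N := 2 ^ r2) (l := 2 ^ s) (b := b) hb0 hl htn (le_refl (tn n))
  have hnf : Nf (acl (2 ^ r2) (2 ^ s) b (tn n) (tn n)) := Nf.of_dom hdom
  obtain ⟨h1, h2⟩ := hone hdom le_rfl hnf (rel_self_sum hnf)
  have hle : Real.exp (-((β + 6) * Ls n s)) ^ 2 ≤ Real.exp (-(β * Ls n s)) ^ 2 := by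
    refine pow_le_pow_left₀ (Real.exp_pos _).le (Real.exp_le_exp.2 ?_) 2
    nlinarith
  exact ⟨fun x => ⟨(h1 x).1, (h1 x).2.trans hle⟩, fun x => ⟨(h2 x).1, (h2 x).2.trans hle⟩,
    far_num hb0.le hl htn hnf (by linarith) hsn hL1 hn2 (h1 0).2⟩

end Vale.Agent.P159.H159
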