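import Vale.Agent.P159.H159.Cum
import Vale.Agent.P159.H37.Spec0L
import Vale.Agent.P159.T1.H897.LogC

/-!
P159, module ASSOC (helper159), part 3: the lattice condition for the weights of the language file.
-/

namespace Vale.Agent.P159.H159

open Finset Matrix
open Vale.Agent.P159.TM.H104
open Vale.Agent.P159.T1.H897 (Hol hol_edge LogC)
open Vale.Agent.P159.H37

variable {V : Type*} [Fintype V]

/-- ferromagnetic mass form: no positive off-diagonal entries -/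
def Fer (M : Matrix V V ℝ) : Prop := ∀ x y, x ≠ y → M x y ≤ 0

theorem Fer.add {M M' : Matrix V V ℝ} (h : Fer M) (h' : Fer M') : Fer (M + M') :=
  fun x y hxy => add_nonpos (h x y hxy) (h' x y hxy)

theorem Fer.smul {M : Matrix V V ℝ} (h : Fer M) {c : ℝ} (hc : 0 ≤ c) : Fer (c • M) :=
  fun x y hxy => mul_nonpos_of_nonneg_of_nonpos hc (h x y hxy)

theorem fer_diag [DecidableEq V] (d : V → ℝ) : Fer (Matrix.diagonal d) :=
  fun x y hxy => by rw [Matrix.diagonal_apply_ne _ hxy]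

theorem fer_one [DecidableEq V] : Fer (1 : Matrix V V ℝ) :=
  fun x y hxy => by rw [Matrix.one_apply_ne hxy]

theorem fer_smul_one [DecidableEq V] (t : ℝ) : Fer (t • (1 : Matrix V V ℝ)) :=
  fun x y hxy => by rw [Matrix.smul_apply, Matrix.one_apply_ne hxy, smul_zero]

/-- `t - c P` with `P ≥ 0` entrywise -/
theorem fer_sub [DecidableEq V] (t : ℝ) {c : ℝ} (hc : 0 ≤ c) {P : Matrix V V ℝ}
    (hP : ∀ x y, 0 ≤ P x y) : Fer (t • (1 : Matrix V V ℝ) - c • P) := fun x y hxy => by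
  rw [Matrix.sub_apply, fer_smul_one_apply t hxy, Matrix.smul_apply, smul_eq_mul, zero_sub]
  have := mul_nonneg hc (hP x y)
  linarith
where
  fer_smul_one_apply (t : ℝ) {x y : V} (hxy : x ≠ y) : (t • (1 : Matrix V V ℝ)) x y = 0 := by
    rw [Matrix.smul_apply, Matrix.one_apply_ne hxy, smul_zero]

theorem hol_exp {φ : (V → ℤ) → ℝ} (h : ∀ x y, φ x + φ y ≤ φ (x ⊓ y) + φ (x ⊔ y)) :
    Hol (fun x => Real.exp (φ x)) fun x => Real.exp (φ x) := by
  intro x y
  simp only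
  rw [← Real.exp_add, ← Real.exp_add]
  exact Real.exp_le_exp.2 (h x y)

theorem qf_sub {M : Matrix V V ℝ} (hM : Fer M) (h k : V → ℤ) :
    qf M (re (h ⊓ k)) + qf M (re (h ⊔ k)) ≤ qf M (re h) + qf M (re k) := by
  classical
  unfold qf
  rw [← Finset.sum_add_distrib, ← Finset.sum_add_distrib]
  refine Finset.sum_le_sum fun x _ => ?_
  rw [← Finset.sum_add_distrib, ← Finset.sum_add_distrib]
  refine Finset.sum_le_sum fun y _ => ?_
  simp only [re, Pi.inf_apply, Pi.sup_apply]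
  by_cases hxy : x = y
  · subst hxy
    rcases le_total (h x) (k x) with hx | hx
    · rw [inf_eq_left.2 hx, sup_eq_right.2 hx]
    · rw [inf_eq_right.2 hx, sup_eq_left.2 hx]
      linarith
  · have hm := hM x y hxy
    rcases le_total (h x) (k x) with hx | hx <;> rcases le_total (h y) (k y) with hy | hy
    · rw [inf_eq_left.2 hx, sup_eq_right.2 hx, inf_eq_left.2 hy, sup_eq_right.2 hy]
    · rw [inf_eq_left.2 hx, sup_eq_right.2 hx, inf_eq_right.2 hy, sup_eq_left.2 hy]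
      have h1 : (h x : ℝ) ≤ k x := by exact_mod_cast hx
      have h2 : (k y : ℝ) ≤ h y := by exact_mod_cast hy
      nlinarith [mul_nonneg (mul_nonneg (sub_nonneg.2 h1) (sub_nonneg.2 h2)) (neg_nonneg.2 hm)]
    · rw [inf_eq_right.2 hx, sup_eq_left.2 hx, inf_eq_left.2 hy, sup_eq_right.2 hy]
      have h1 : (k x : ℝ) ≤ h x := by exact_mod_cast hx
      have h2 : (h y : ℝ) ≤ k y := by exact_mod_cast hy
      nlinarith [mul_nonneg (mul_nonneg (sub_nonneg.2 h1) (sub_nonneg.2 h2)) (neg_nonneg.2 hm)]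
    · rw [inf_eq_right.2 hx, sup_eq_left.2 hx, inf_eq_right.2 hy, sup_eq_left.2 hy]
      linarith

/-- **ferromagnetic masses keep the lattice condition** -/
theorem hol_wM {w : (V → ℤ) → ℝ} (hw0 : ∀ h, 0 ≤ w h) (hw : Hol w w) {M : Matrix V V ℝ}
    (hM : Fer M) : Hol (wM w M) (wM w M) := by
  have h1 : Hol (fun h => Real.exp (-(qf M (re h) / 2))) fun h => Real.exp (-(qf M (re h) / 2)) := by
    refine hol_exp fun x y => ?_
    have := qf_sub hM x y
    linarith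
  exact hw.mul h1 hw0 hw0 (fun _ => (Real.exp_pos _).le) fun _ => (Real.exp_pos _).le

/-- the torus weight -/
theorem hol_wT {b : ℝ} (hb : 0 ≤ b) (N : ℕ) [NeZero N] :
    Hol (TM.SpecC.wT b N) (TM.SpecC.wT b N) := by
  have h0 : ∀ n, 0 ≤ H353.wI b n := fun n => H353.wI_nonneg hb n
  have hL := T1.H897.logC_wI hb
  unfold TM.SpecC.wT
  refine Hol.prod (fun e _ => ?_) (fun e _ x => mul_nonneg (h0 _) (h0 _))
    fun e _ x => mul_nonneg (h0 _) (h0 _)
  exact (hol_edge hL e (e + (1, 0))).mul (hol_edge hL e (e + (0, 1))) (fun _ => h0 _)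
    (fun _ => h0 _) (fun _ => h0 _) fun _ => h0 _

theorem wT_nn {b : ℝ} (hb : 0 ≤ b) (N : ℕ) [NeZero N] (h : TM.SpecC.Tor N → ℤ) :
    0 ≤ TM.SpecC.wT b N h :=
  Finset.prod_nonneg fun _ _ => mul_nonneg (H353.wI_nonneg hb _) (H353.wI_nonneg hb _)

theorem hol_wM_wT {b : ℝ} (hb : 0 ≤ b) (N : ℕ) [NeZero N]
    {M : Matrix (TM.SpecC.Tor N) (TM.SpecC.Tor N) ℝ} (hM : Fer M) :
    Hol (wM (TM.SpecC.wT b N) M) (wM (TM.SpecC.wT b N) M) :=
  hol_wM (wT_nn hb N) (hol_wT hb N) hM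

theorem hol_wt {b : ℝ} (hb : 0 ≤ b) (N : ℕ) [NeZero N] (t : ℝ) :
    Hol (wt N b t) (wt N b t) := hol_wM_wT hb N (fer_smul_one t)

/-! ### entrywise consequences for `Cm`, `mn` -/

variable {μ : (V → ℤ) → ℝ}

theorem mono_x (x : V) : Monotone fun h : V → ℤ => (h x : ℝ) := by
  intro h k hk
  have := hk x
  simp only
  exact_mod_cast this

theorem Cm_nonneg (hμ : EM μ) (hL : Hol μ μ) (J : V → ℝ) (x y : V) : 0 ≤ Cm μ J x y :=
  Cv_nonneg hμ hL (gr_x x) (gr_x y) (mono_x x) (mono_x y) J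

theorem mn_mono (hμ : EM μ) (hL : Hol μ μ) {J J' : V → ℝ} (hJ : J ≤ J') (x : V) :
    mn μ J x ≤ mn μ J' x :=
  Ex_mono_source hμ hL (gr_x x) (mono_x x) hJ

theorem Cv_li (hμ : EM μ) (J a b : V → ℝ) : Cv μ J (li a) (li b) = bf (Cm μ J) a b := by
  rw [Cv_li_li hμ]
  unfold bf Cm
  refine Finset.sum_congr rfl fun x _ => Finset.sum_congr rfl fun y _ => ?_
  rw [Matrix.of_apply]
  ring

/-- Newman's inequality, matrix form -/
theorem newman' (hμ : EM μ) (hL : Hol μ μ) {a b : V → ℝ} {F G : (V → ℤ) → ℝ} (gF : Gr F)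
    (gG : Gr G) (hF : Lp a F) (hG : Lp b G) (J : V → ℝ) : |Cv μ J F G| ≤ bf (Cm μ J) a b := by
  rw [← Cv_li hμ]
  exact newman hμ hL gF gG hF hG J

/-- third cumulants, matrix form -/
theorem K3_le' (hμ : EM μ) (hL : Hol μ μ) {L : ℝ} (hL0 : 0 ≤ L) (J u v w : V → ℝ) :
    |K3 μ J (li u) (li v) (li w)| ≤
      L * (bf (Cm μ J) (fun x => |u x|) (fun x => |w x|) +
        bf (Cm μ J) (fun x => |v x|) (fun x => |w x|)) + tl μ J L (li u) (li v) (li w) := by
  rw [← Cv_li hμ, ← Cv_li hμ]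
  exact K3_le hμ hL hL0 J u v w

end Vale.Agent.P159.H159
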