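import Vale.Agent.P159.H159.LinT
import Vale.Agent.P159.H159.FineN
import Vale.Agent.P159.H447.LawT
import Vale.Agent.P159.H692.Fn4

/-!
P159 (helper159): numbers for `sum_Vk_le`. Posterior `μ = nwt N b T 0`, prior `a ≤ T`.

* `Ech_R2_le`: `E R(2J)² ≤ r² + 21300 (T n / a)² √p` when `R(2J) ≤ r` on a good set of exact
  probability `≥ 1 - p` (`n = (N/l)²`);
* `gau_R2_le`: `∫ R(A g)² ≤ r² + 72 q² √p`;
* `sum_Vk_num`: `Σ_S V ≤ (4 r² + 4 r₁² + ...)/T`.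
-/

set_option linter.unusedSectionVars false

namespace Vale.Agent.P159.H159

open Finset Matrix MeasureTheory
open Vale.Agent.P159.TM.H104 (EM Ex Cv Lg li Gr)
open Vale.Agent.P159.TM.Spec (V)
open Vale.Agent.P159.TM.SpecC (wT)
open Vale.Agent.P159.H37
open Vale.Agent.P159.H864 (TI sym cobV)
open Vale.Agent.P159.H447 (K4S SN CN Maj maj_nwt Bnwt pr cs_set post_wN trH hsq qf_mom)
open Vale.Agent.P159.H963 (Neu Gnc PinC nwt nMC obsN Pn)
open Vale.Agent.P159.H730 (wN CbNk gN nq nq_nonneg)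

noncomputable section

/-- eighth moment of the norm of white noise -/
lemma gau_norm8 (I : Type*) [Fintype I] [Nonempty I] :
    Integrable (fun g : I → ℝ => (∑ i, g i ^ 2) ^ 4) (gau I) ∧
    ∫ g : I → ℝ, (∑ i, g i ^ 2) ^ 4 ∂(gau I) ≤ 82944 * (Fintype.card I : ℝ) ^ 4 := by
  classical
  have hc : (1 : ℝ) ≤ Fintype.card I := by exact_mod_cast Fintype.card_pos
  have h1 : trH (1 : Matrix I I ℝ) = Fintype.card I := by
    unfold trH
    simp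
  have h2 : hsq (1 : Matrix I I ℝ) = Fintype.card I := by
    unfold hsq
    simp [Matrix.one_apply]
  have h3 : (√3 * (Fintype.card I : ℝ)) ^ 2 = 3 * (Fintype.card I : ℝ) ^ 2 := by
    rw [mul_pow, Real.sq_sqrt (by norm_num)]
  have h := qf_mom (1 : Matrix I I ℝ) (σ := √3 * Fintype.card I) (by positivity)
    (by rw [h1, h2, h3]; nlinarith) 2
  have e : ∀ g : I → ℝ, qf (1 : Matrix I I ℝ) g = ∑ i, g i ^ 2 := by
    intro g
    rw [qf_eq, one_mulVec]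
    unfold dotProduct
    exact Finset.sum_congr rfl fun i _ => by ring
  simp only [e] at h
  rw [h3] at h
  refine ⟨h.1, h.2.trans (le_of_eq ?_)⟩
  have : ((2 * 2).factorial : ℝ) = 24 := by norm_num [Nat.factorial]
  rw [this]
  ring

/-- Gaussian second moment of `R` -/
theorem gau_R2_le {V' : Type} [Fintype V'] {I : Type*} [Fintype I] {μ : (V' → ℤ) → ℝ}
    {Bm : Matrix V' V' ℝ} (h : Maj μ Bm) (A : Matrix V' I ℝ) {q : ℝ} (hq : 0 < q)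
    (hA : pr Bm (A * Aᵀ) ≤ q) {r p : ℝ} (hr : 0 ≤ r)
    (hp : (gau I).real {g | r < Rs μ (A *ᵥ g)} ≤ p) :
    ∫ g, Rs μ (A *ᵥ g) ^ 2 ∂(gau I) ≤ r ^ 2 + 72 * q ^ 2 * √p := by
  have hm : Measurable fun g : I → ℝ => Rs μ (A *ᵥ g) := h.mR.comp (H552.meas_mulVec A)
  have hS : MeasurableSet {g : I → ℝ | r < Rs μ (A *ᵥ g)} := measurableSet_lt measurable_const hm
  have m4 := h.Q_mom A hq hA 2
  have m2 := h.Q_mom A hq hA 1
  have d0 : ∀ g : I → ℝ, 0 ≤ Rs μ (A *ᵥ g) ∧ Rs μ (A *ᵥ g) ≤ qf Bm (A *ᵥ g) / 2 :=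
    fun g => ⟨h.Rs_nonneg _, h.le _⟩
  have i1 : Integrable (fun g : I → ℝ => Rs μ (A *ᵥ g) ^ 2) (gau I) := by
    refine (m2.1.div_const 4).mono' (hm.pow_const 2).aestronglyMeasurable
      (Filter.Eventually.of_forall fun g => ?_)
    rw [Real.norm_eq_abs, abs_of_nonneg (sq_nonneg _)]
    have h1 := pow_le_pow_left₀ (d0 g).1 (d0 g).2 2
    refine h1.trans (le_of_eq ?_)
    ring
  have i2 : Integrable (fun g : I → ℝ => (Rs μ (A *ᵥ g) ^ 2) ^ 2) (gau I) := by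
    refine (m4.1.div_const 16).mono' ((hm.pow_const 2).pow_const 2).aestronglyMeasurable
      (Filter.Eventually.of_forall fun g => ?_)
    rw [Real.norm_eq_abs, abs_of_nonneg (sq_nonneg _)]
    have h1 := pow_le_pow_left₀ (d0 g).1 (d0 g).2 4
    calc (Rs μ (A *ᵥ g) ^ 2) ^ 2 = Rs μ (A *ᵥ g) ^ 4 := by ring
      _ ≤ (qf Bm (A *ᵥ g) / 2) ^ 4 := h1
      _ = _ := by ring
  have b2 : ∫ g, (Rs μ (A *ᵥ g) ^ 2) ^ 2 ∂(gau I) ≤ (72 * q ^ 2) ^ 2 := by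
    have h1 : ∫ g, (Rs μ (A *ᵥ g) ^ 2) ^ 2 ∂(gau I) ≤
        ∫ g, qf Bm (A *ᵥ g) ^ (2 * 2) / 16 ∂(gau I) := by
      refine integral_mono i2 (m4.1.div_const 16) fun g => ?_
      simp only
      have h1 := pow_le_pow_left₀ (d0 g).1 (d0 g).2 4
      calc (Rs μ (A *ᵥ g) ^ 2) ^ 2 = Rs μ (A *ᵥ g) ^ 4 := by ring
        _ ≤ (qf Bm (A *ᵥ g) / 2) ^ 4 := h1
        _ = _ := by ring
    rw [integral_div] at h1
    have h2 := m4.2
    have : ((2 * 2).factorial : ℝ) = 24 := by norm_num [Nat.factorial]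
    rw [this] at h2
    refine h1.trans ((div_le_div_of_nonneg_right h2 (by norm_num)).trans (le_of_eq ?_))
    ring
  have h3 := cs_set i1 i2 (by positivity) b2 hS hp
  have h4 : ∫ g, Rs μ (A *ᵥ g) ^ 2 ∂(gau I) =
      (∫ g in {g : I → ℝ | r < Rs μ (A *ᵥ g)}, Rs μ (A *ᵥ g) ^ 2 ∂(gau I)) +
      ∫ g in {g : I → ℝ | r < Rs μ (A *ᵥ g)}ᶜ, Rs μ (A *ᵥ g) ^ 2 ∂(gau I) :=
    (integral_add_compl hS i1).symm
  have h5 : ∫ g in {g : I → ℝ | r < Rs μ (A *ᵥ g)}ᶜ, Rs μ (A *ᵥ g) ^ 2 ∂(gau I) ≤ r ^ 2 := by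
    have h6 : ∫ g in {g : I → ℝ | r < Rs μ (A *ᵥ g)}ᶜ, Rs μ (A *ᵥ g) ^ 2 ∂(gau I) ≤
        ∫ _g in {g : I → ℝ | r < Rs μ (A *ᵥ g)}ᶜ, r ^ 2 ∂(gau I) := by
      refine setIntegral_mono_on i1.integrableOn (integrable_const _).integrableOn hS.compl
        fun g hg => ?_
      have hg' : Rs μ (A *ᵥ g) ≤ r := not_lt.1 hg
      exact pow_le_pow_left₀ (d0 g).1 hg' 2
    refine h6.trans ?_
    rw [setIntegral_const, smul_eq_mul]
    have h7 : (gau I).real {g : I → ℝ | r < Rs μ (A *ᵥ g)}ᶜ ≤ 1 := measureReal_le_one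
    nlinarith [sq_nonneg r]
  rw [h4]
  linarith

section torus

variable {N l : ℕ} [NeZero N] [NeZero (N / l)] {b T a : ℝ}

lemma CN_mul_tr (hl : l ∣ N) : CN N l * (CN N l)ᵀ = (Pn : Matrix (V (N / l)) (V (N / l)) ℝ) := by
  unfold CN
  rw [transpose_mul, H963.Pn_transpose, Matrix.mul_assoc, ← Matrix.mul_assoc (cobV N l),
    H864.cobV_mul_tr hl, Matrix.one_mul, H963.Pn_mul_Pn]

lemma CNt_sq (hl : l ∣ N) (v : V (N / l) → ℝ) :
    ∑ x, ((CN N l)ᵀ *ᵥ v) x ^ 2 ≤ ∑ i, v i ^ 2 := by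
  have e : ∑ x, ((CN N l)ᵀ *ᵥ v) x ^ 2 = ((CN N l)ᵀ *ᵥ v) ⬝ᵥ ((CN N l)ᵀ *ᵥ v) := by
    unfold dotProduct
    exact Finset.sum_congr rfl fun x _ => by ring
  have e1 : ((CN N l)ᵀ *ᵥ v) ⬝ᵥ ((CN N l)ᵀ *ᵥ v) =
      v ⬝ᵥ ((Pn : Matrix (V (N / l)) (V (N / l)) ℝ) *ᵥ v) := by
    rw [dotProduct_mulVec, vecMul_transpose, mulVec_mulVec, CN_mul_tr hl, dotProduct_comm]
  have e2 : v ⬝ᵥ ((Pn : Matrix (V (N / l)) (V (N / l)) ℝ) *ᵥ v) =
      ∑ i, ((Pn : Matrix (V (N / l)) (V (N / l)) ℝ) *ᵥ v) i ^ 2 := by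
    have h1 : (Pn : Matrix (V (N / l)) (V (N / l)) ℝ) *ᵥ v =
        (Pn : Matrix (V (N / l)) (V (N / l)) ℝ) *ᵥ ((Pn : Matrix (V (N / l)) (V (N / l)) ℝ) *ᵥ v) := by
      rw [mulVec_mulVec, H963.Pn_mul_Pn]
    rw [h1, dotProduct_mulVec, ← mulVec_transpose, H963.Pn_transpose, ← h1]
    unfold dotProduct
    exact Finset.sum_congr rfl fun x _ => by ring
  rw [e, e1, e2]
  have h3 := sum_Pn_sq v
  have h4 : 0 ≤ (∑ x, v x) ^ 2 / (Fintype.card (V (N / l)) : ℝ) := by positivity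
  linarith

lemma qB_neu {J : V N → ℝ} (hT : 0 < T) (hJ : Neu J) :
    qf (Bnwt N T 0) J = T⁻¹ * ∑ x, J x ^ 2 := by
  have h1 : qf (Bnwt N T 0) J = qf ((T • (1 : Matrix (V N) (V N) ℝ))⁻¹) (H447.E0 0 *ᵥ J) := by
    rw [H447.qf_conj]
    rfl
  rw [h1, H447.E0_of_neu 0 hJ, H447.inv_smul_one hT, qf_smul_one]

lemma qB_obs (hl : l ∣ N) (hT : 0 < T) {p : ℝ} (hp : 0 ≤ p) (hpT : p ≤ T)
    (v : V (N / l) → ℝ) : qf (Bnwt N T 0) ((obsN N l p)ᵀ *ᵥ v) ≤ ∑ i, v i ^ 2 := by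
  have hJ : Neu ((obsN N l p)ᵀ *ᵥ v) := Neu.obs (fun i => H963.obsN_row hl p i) v
  rw [qB_neu hT hJ]
  have e : (obsN N l p)ᵀ *ᵥ v = √p • ((CN N l)ᵀ *ᵥ v) := by
    have h0 : obsN N l p = √p • CN N l := rfl
    rw [h0, transpose_smul, smul_mulVec]
  have h1 : ∑ x, ((obsN N l p)ᵀ *ᵥ v) x ^ 2 = p * ∑ x, ((CN N l)ᵀ *ᵥ v) x ^ 2 := by
    rw [e, Finset.mul_sum]
    refine Finset.sum_congr rfl fun x _ => ?_
    rw [Pi.smul_apply, smul_eq_mul, mul_pow, Real.sq_sqrt hp]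
  rw [h1]
  have h2 := CNt_sq (N := N) (l := l) hl v
  have h0 : 0 ≤ ∑ x, ((CN N l)ᵀ *ᵥ v) x ^ 2 := Finset.sum_nonneg fun _ _ => sq_nonneg _
  calc T⁻¹ * (p * ∑ x, ((CN N l)ᵀ *ᵥ v) x ^ 2)
      ≤ T⁻¹ * (T * ∑ i, v i ^ 2) :=
        mul_le_mul_of_nonneg_left (mul_le_mul hpT h2 h0 hT.le) (by positivity)
    _ = ∑ i, v i ^ 2 := by rw [← mul_assoc, inv_mul_cancel₀ hT.ne', one_mul]

/-- eighth moment of the source under the exact law -/
theorem Ech_q4 (hb : 0 ≤ b) (hl : l ∣ N) (ha : 0 < a) (haT : a ≤ T) :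
    (Ech (wN N l b T a) 0 (obsN N l (T - a)) fun J => qf (Bnwt N T 0) J ^ 4) ≤
      28164096 * (T * ((N / l : ℕ) : ℝ) ^ 2 / a) ^ 4 := by
  have hT : 0 < T := ha.trans_le haT
  have hE : EM (wN N l b T a) := H963.em_nMC hb hl ha haT 0
  have hp : 0 ≤ T - a := sub_nonneg.2 haT
  have hpT : T - a ≤ T := by linarith
  have hm := maj_nwt (N := N) hb hT 0
  have hg : EGr fun J : V N → ℝ => qf (Bnwt N T 0) J ^ 4 := by
    have h1 := egr_qf (Bnwt N T 0)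
    have h2 := (h1.mul h1).mul (h1.mul h1)
    have e : (fun J : V N → ℝ => qf (Bnwt N T 0) J ^ 4) = fun J =>
        qf (Bnwt N T 0) J * qf (Bnwt N T 0) J * (qf (Bnwt N T 0) J * qf (Bnwt N T 0) J) := by
      funext J; ring
    rw [e]
    exact h2
  rw [Ech_eq hE 0 _ hg]
  set P := obsN N l (T - a) with hP
  set n : ℝ := (Fintype.card (V (N / l)) : ℝ) with hn
  have hnc : n = ((N / l : ℕ) : ℝ) ^ 2 := TM.H764.card_V
  obtain ⟨i8, m8⟩ := gau_norm8 (V (N / l))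
  have hin : ∀ h : V N → ℤ, ∫ g, qf (Bnwt N T 0) (0 + Pᵀ *ᵥ (P *ᵥ re h + g)) ^ 4
      ∂(gau (V (N / l))) ≤ 128 * (T ^ 4 * nq (CN N l) h ^ 4 + 82944 * n ^ 4) := by
    intro h
    have hPh : ∑ i, (P *ᵥ re h) i ^ 2 = (T - a) * nq (CN N l) h := by
      have h0 : P = √(T - a) • CN N l := rfl
      unfold nq
      rw [h0, Finset.mul_sum]
      refine Finset.sum_congr rfl fun i _ => ?_
      rw [smul_mulVec, Pi.smul_apply, smul_eq_mul, mul_pow, Real.sq_sqrt hp]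
      rfl
    have hnq := nq_nonneg (CN N l) h
    have hpt : ∀ g : V (N / l) → ℝ, qf (Bnwt N T 0) (0 + Pᵀ *ᵥ (P *ᵥ re h + g)) ^ 4 ≤
        128 * (T ^ 4 * nq (CN N l) h ^ 4 + (∑ i, g i ^ 2) ^ 4) := by
      intro g
      rw [zero_add]
      have h1 := qB_obs (N := N) (l := l) hl hT hp hpT (P *ᵥ re h + g)
      have h2 : ∑ i, (P *ᵥ re h + g) i ^ 2 ≤ 2 * (T * nq (CN N l) h) + 2 * ∑ i, g i ^ 2 := by
        have h3 : ∑ i, (P *ᵥ re h + g) i ^ 2 ≤ 2 * ∑ i, (P *ᵥ re h) i ^ 2 + 2 * ∑ i, g i ^ 2 := by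
          rw [Finset.mul_sum, Finset.mul_sum, ← Finset.sum_add_distrib]
          refine Finset.sum_le_sum fun i _ => ?_
          rw [Pi.add_apply]
          nlinarith [sq_nonneg ((P *ᵥ re h) i - g i)]
        rw [hPh] at h3
        have h4 : (T - a) * nq (CN N l) h ≤ T * nq (CN N l) h :=
          mul_le_mul_of_nonneg_right hpT hnq
        linarith
      have h5 := pow_le_pow_left₀ (hm.qf_nonneg _) (h1.trans h2) 4
      refine h5.trans ?_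
      set x := T * nq (CN N l) h
      set y := ∑ i, g i ^ 2
      have hx : T ^ 4 * nq (CN N l) h ^ 4 = x ^ 4 := by ring
      rw [hx]
      have h6 : (2 * x + 2 * y) ^ 4 = 16 * ((x + y) ^ 2) ^ 2 := by ring
      have h7 : (x + y) ^ 2 ≤ 2 * (x ^ 2 + y ^ 2) := by nlinarith [sq_nonneg (x - y)]
      have h8 : ((x + y) ^ 2) ^ 2 ≤ (2 * (x ^ 2 + y ^ 2)) ^ 2 :=
        pow_le_pow_left₀ (sq_nonneg _) h7 2
      rw [h6]
      nlinarith [sq_nonneg (x ^ 2 - y ^ 2)]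
    have i0 : Integrable (fun g : V (N / l) → ℝ =>
        qf (Bnwt N T 0) (0 + Pᵀ *ᵥ (P *ᵥ re h + g)) ^ 4) (gau (V (N / l))) := by
      have h1 := integrable_obs hg (Pᵀ *ᵥ (P *ᵥ re h)) P 0
      refine h1.congr (Filter.Eventually.of_forall fun g => ?_)
      simp only [Pi.zero_apply, zero_mul, Finset.sum_const_zero, Real.exp_zero, one_mul, zero_add]
      rw [mulVec_add]
    have iI : Integrable (fun g : V (N / l) → ℝ => T ^ 4 * nq (CN N l) h ^ 4 +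
        (∑ i, g i ^ 2) ^ 4) (gau (V (N / l))) := (integrable_const _).add i8
    refine (integral_mono i0 (iI.const_mul 128) hpt).trans ?_
    rw [integral_const_mul, integral_add (integrable_const _) i8]
    simp only [integral_const, probReal_univ, smul_eq_mul, one_mul]
    linarith
  have g8 : Gr fun h : V N → ℤ => nq (CN N l) h ^ 4 := H730.Gr.four (H730.Gr.nq (CN N l))
  have gR : Gr fun h : V N → ℤ => 128 * (T ^ 4 * nq (CN N l) h ^ 4 + 82944 * n ^ 4) :=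
    ((g8.cmul _).add (Gr.const _)).cmul _
  have gL : Gr fun h : V N → ℤ => ∫ g, qf (Bnwt N T 0) (0 + Pᵀ *ᵥ (P *ᵥ re h + g)) ^ 4
      ∂(gau (V (N / l))) := by
    obtain ⟨C, h1⟩ := gR
    refine ⟨C, fun h => le_trans ?_ (h1 h)⟩
    rw [abs_of_nonneg (integral_nonneg fun g => by positivity)]
    exact (hin h).trans (le_abs_self _)
  have h1 : Ex (wN N l b T a) 0 (fun h => ∫ g, qf (Bnwt N T 0) (0 + Pᵀ *ᵥ (P *ᵥ re h + g)) ^ 4
      ∂(gau (V (N / l)))) ≤ Ex (wN N l b T a) 0 fun h =>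
        128 * (T ^ 4 * nq (CN N l) h ^ 4 + 82944 * n ^ 4) :=
    TM.H104.Ex_mono hE gL gR hin 0
  refine h1.trans ?_
  rw [TM.H104.Ex_cmul, TM.H104.Ex_add hE (g8.cmul _) (Gr.const _), TM.H104.Ex_cmul,
    TM.H104.Ex_const hE]
  have h2 := H730.mom_nq hE (inv_pos.2 ha) (H730.sg1_wN (N := N) (l := l) (t := T) hb hl ha haT)
  have hn0 : 0 ≤ n := Nat.cast_nonneg _
  have h3 : T ^ 4 * Ex (wN N l b T a) 0 (fun h => nq (CN N l) h ^ 4) ≤
      137088 * (T * n / a) ^ 4 := by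
    refine (mul_le_mul_of_nonneg_left h2 (by positivity)).trans (le_of_eq ?_)
    rw [← hn]
    field_simp
  have h4 : n ^ 4 ≤ (T * n / a) ^ 4 := by
    refine pow_le_pow_left₀ hn0 ?_ 4
    rw [le_div_iff₀ ha, mul_comm]
    exact mul_le_mul_of_nonneg_right haT hn0
  rw [← hnc]
  linarith

/-- **exact second moment of `R(2J)`** -/
theorem Ech_R2_le (hb : 0 ≤ b) (hl : l ∣ N) (ha : 0 < a) (haT : a ≤ T) {Gd : Set (V N → ℝ)}
    (hG : MeasurableSet Gd) {r p : ℝ} (hr : 0 ≤ r)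
    (hR : ∀ J ∈ Gd, Rs (nwt N b T 0) ((2 : ℝ) • J) ≤ r)
    (hp : Ech (wN N l b T a) 0 (obsN N l (T - a)) (Gdᶜ.indicator fun _ => (1 : ℝ)) ≤ p) :
    (Ech (wN N l b T a) 0 (obsN N l (T - a)) fun J => Rs (nwt N b T 0) ((2 : ℝ) • J) ^ 2) ≤
      r ^ 2 + 21300 * (T * ((N / l : ℕ) : ℝ) ^ 2 / a) ^ 2 * √p := by
  have hT : 0 < T := ha.trans_le haT
  have hE : EM (wN N l b T a) := H963.em_nMC hb hl ha haT 0
  have hm := maj_nwt (N := N) hb hT 0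
  set P := obsN N l (T - a) with hP
  set μ := nwt N b T 0 with hμ
  set Φ : (V N → ℝ) → ℝ := fun J => Rs μ ((2 : ℝ) • J) ^ 2 with hΦ
  have eΦ : EGr Φ := egr_Rs2 hm.em hm.gt
  have cΦ : H663.ChI (wN N l b T a) 0 P Φ := H663.ChI.of_EGr hE 0 P eΦ
  have cΦ2 : H663.ChI (wN N l b T a) 0 P fun J => Φ J ^ 2 := by
    have h1 := H663.ChI.of_EGr hE 0 P (eΦ.mul eΦ)
    simpa only [← pow_two] using h1
  have Φ0 : ∀ J, 0 ≤ Φ J := fun J => sq_nonneg _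
  have cA : H663.ChI (wN N l b T a) 0 P (Gdᶜ.indicator fun _ => (1 : ℝ)) :=
    H730.chi_ind hE measurable_const (fun _ => zero_le_one) (H730.chi_const hE 0 P 1) hG.compl
  have cB : H663.ChI (wN N l b T a) 0 P (Gdᶜ.indicator Φ) :=
    H730.chi_ind hE eΦ.meas Φ0 cΦ hG.compl
  -- fourth power
  have h4 : (Ech (wN N l b T a) 0 P fun J => Φ J ^ 2) ≤
      450625536 * (T * ((N / l : ℕ) : ℝ) ^ 2 / a) ^ 4 := by
    have hq4 : EGr fun J : V N → ℝ => qf (Bnwt N T 0) J ^ 4 := H692.egr_pow (egr_qf _) 4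
    have h1 : (Ech (wN N l b T a) 0 P fun J => Φ J ^ 2) ≤
        Ech (wN N l b T a) 0 P fun J => 16 * qf (Bnwt N T 0) J ^ 4 := by
      refine H663.Ech_mono' hE cΦ2 (H663.ChI.of_EGr hE 0 P (hq4.cmul 16)) fun J => ?_
      have h2 := hm.le ((2 : ℝ) • J)
      have h3 := hm.Rs_nonneg ((2 : ℝ) • J)
      rw [qf_smul] at h2
      have h5 : Rs μ ((2 : ℝ) • J) ≤ 2 * qf (Bnwt N T 0) J := by linarith
      have h6 := pow_le_pow_left₀ h3 h5 4
      calc Φ J ^ 2 = Rs μ ((2 : ℝ) • J) ^ 4 := by rw [hΦ]; ring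
        _ ≤ (2 * qf (Bnwt N T 0) J) ^ 4 := h6
        _ = _ := by ring
    refine h1.trans ?_
    rw [Ech_cmul]
    have h2 := Ech_q4 (N := N) (l := l) hb hl ha haT
    linarith
  -- bad part
  have hbad : Ech (wN N l b T a) 0 P (Gdᶜ.indicator Φ) ≤
      21300 * (T * ((N / l : ℕ) : ℝ) ^ 2 / a) ^ 2 * √p := by
    have e1 : (fun J => ((Gdᶜ.indicator fun _ => (1 : ℝ)) J) ^ 2) =
        Gdᶜ.indicator fun _ => (1 : ℝ) := by
      funext J
      by_cases hJ : J ∈ Gdᶜ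
      · rw [Set.indicator_of_mem hJ, one_pow]
      · rw [Set.indicator_of_notMem hJ]
        norm_num
    have e2 : (fun J => (Gdᶜ.indicator fun _ => (1 : ℝ)) J * Φ J) = Gdᶜ.indicator Φ := by
      funext J
      by_cases hJ : J ∈ Gdᶜ
      · rw [Set.indicator_of_mem hJ, Set.indicator_of_mem hJ, one_mul]
      · rw [Set.indicator_of_notMem hJ, Set.indicator_of_notMem hJ, zero_mul]
    have hcs := H730.Ech_cs (P := P) (J₁ := 0) hE (Φ := Gdᶜ.indicator fun _ => (1 : ℝ)) (Ψ := Φ)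
      (by rw [e1]; exact cA) cΦ2 (by rw [e2]; exact cB)
    rw [e1, e2] at hcs
    have hp0 : 0 ≤ Ech (wN N l b T a) 0 P (Gdᶜ.indicator fun _ => (1 : ℝ)) :=
      Ech_nonneg hE 0 P fun J => Set.indicator_nonneg (fun _ _ => zero_le_one) J
    have hpp : 0 ≤ p := hp0.trans hp
    have hX : 0 ≤ T * ((N / l : ℕ) : ℝ) ^ 2 / a := by positivity
    set X := T * ((N / l : ℕ) : ℝ) ^ 2 / a
    have h5 : (Ech (wN N l b T a) 0 P (Gdᶜ.indicator Φ)) ^ 2 ≤ p * (450625536 * X ^ 4) :=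
      hcs.trans (mul_le_mul hp h4 (Ech_nonneg hE 0 P fun J => sq_nonneg _) hpp)
    have h6 := Real.le_sqrt_of_sq_le h5
    refine h6.trans (Real.sqrt_le_iff.2 ⟨by positivity, ?_⟩)
    rw [mul_pow, Real.sq_sqrt hpp]
    have h7 : 0 ≤ X ^ 4 := by positivity
    have h8 : (21300 * X ^ 2) ^ 2 = 453690000 * X ^ 4 := by ring
    rw [h8]
    nlinarith [mul_nonneg hpp h7]
  have h5 : (Ech (wN N l b T a) 0 P Φ) ≤
      Ech (wN N l b T a) 0 P fun J => r ^ 2 + (Gdᶜ.indicator Φ) J := by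
    refine H663.Ech_mono' hE cΦ ((H730.chi_const hE 0 P _).add cB) fun J => ?_
    by_cases hJ : J ∈ Gd
    · have n1 : J ∉ Gdᶜ := fun h => h hJ
      rw [Set.indicator_of_notMem n1, add_zero]
      exact pow_le_pow_left₀ (hm.Rs_nonneg _) (hR J hJ) 2
    · have n1 : J ∈ Gdᶜ := hJ
      rw [Set.indicator_of_mem n1]
      have := sq_nonneg r
      linarith
  refine h5.trans ?_
  rw [H663.Ech_add' (H730.chi_const hE 0 P _) cB, Ech_const hE]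
  linarith

/-- **numbers**: `Σ_S V ≤ (4 r² + 4 r₁² + bad)/T` -/
theorem sum_Vk_num (hb : 0 < b) (hl : l ∣ N) (ha : 0 < a) (haT : a ≤ T) {Gd : Set (V N → ℝ)}
    (hG : MeasurableSet Gd) {r p r₁ p₁ : ℝ} (hr : 0 ≤ r) (hr₁ : 0 ≤ r₁)
    (hR : ∀ J ∈ Gd, Rs (nwt N b T 0) ((2 : ℝ) • J) ≤ r)
    (hp : Ech (wN N l b T a) 0 (obsN N l (T - a)) (Gdᶜ.indicator fun _ => (1 : ℝ)) ≤ p)
    (hp₁ : (gau (V (N / l))).real {g | r₁ < Rs (nwt N b T 0)
      (((√(T / 2) • CN N l)ᵀ) *ᵥ g)} ≤ p₁) (S : Finset (V (N / l))) :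
    ∑ k ∈ S, Vk N l b T a T k ≤ 4 / T * (r ^ 2 + r₁ ^ 2 +
      21300 * (T * ((N / l : ℕ) : ℝ) ^ 2 / a) ^ 2 * √p + 18 * (((N / l : ℕ) : ℝ) ^ 2) ^ 2 * √p₁) := by
  have hT : 0 < T := ha.trans_le haT
  have hm := maj_nwt (N := N) hb.le hT 0
  have h1 := sum_Vk_le (N := N) (l := l) hb hl ha haT le_rfl (show 0 < T / 8 by positivity) S
  have e0 : wN N l b T T = nwt N b T 0 := H963.nMC_self N l b T 0
  rw [e0] at h1
  have h2 := Ech_R2_le (N := N) (l := l) hb.le hl ha haT hG hr hR hp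
  have e1 : ∀ g : V (N / l) → ℝ, (2 : ℝ) • ((√(T / 8) • CN N l)ᵀ *ᵥ g) =
      ((√(T / 2) • CN N l)ᵀ) *ᵥ g := by
    intro g
    rw [transpose_smul, transpose_smul, smul_mulVec, smul_mulVec, smul_smul]
    congr 1
    have h3 : T / 2 = 2 ^ 2 * (T / 8) := by ring
    rw [h3, Real.sqrt_mul (by norm_num), Real.sqrt_sq (by norm_num)]
  simp only [e1] at h1
  have hn0 : (0 : ℝ) < ((N / l : ℕ) : ℝ) ^ 2 := by
    have : (0 : ℝ) < ((N / l : ℕ) : ℝ) := by exact_mod_cast NeZero.pos (N / l)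
    positivity
  have h3 := gau_R2_le hm ((√(T / 2) • CN N l)ᵀ) (q := ((N / l : ℕ) : ℝ) ^ 2 / 2)
    (by positivity) (by
      have e2 := H447.pr_Bnwt (N := N) hT 0 (A := (√(T / 2) • CN N l)ᵀ) (fun i => by
        simp only [transpose_apply, Matrix.smul_apply, smul_eq_mul]
        rw [← Finset.mul_sum, H730.CN_row hl, mul_zero])
      change H447.pr (Bnwt N T 0) ((√(T / 2) • CN N l)ᵀ * (√(T / 2) • CN N l)ᵀᵀ) ≤ _
      rw [e2]
      have e3 : ∑ x, ∑ i, ((√(T / 2) • CN N l)ᵀ) x i ^ 2 =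
          T / 2 * ∑ i, (CN N l * (CN N l)ᵀ) i i := by
        rw [Finset.sum_comm, Finset.mul_sum]
        refine Finset.sum_congr rfl fun i _ => ?_
        rw [Matrix.mul_apply, Finset.mul_sum]
        refine Finset.sum_congr rfl fun x _ => ?_
        simp only [transpose_apply, Matrix.smul_apply, smul_eq_mul]
        rw [mul_pow, Real.sq_sqrt (by positivity)]
        ring
      have e4 : ∑ i, (CN N l * (CN N l)ᵀ) i i ≤ ((N / l : ℕ) : ℝ) ^ 2 := by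
        rw [CN_mul_tr hl]
        have h5 : ∀ i : V (N / l), (Pn : Matrix (V (N / l)) (V (N / l)) ℝ) i i ≤ 1 := by
          intro i
          unfold Pn
          rw [H963.ntr_apply, Matrix.one_apply_eq]
          have : 0 ≤ (1 : ℝ) / Fintype.card (V (N / l)) := by positivity
          linarith
        refine (Finset.sum_le_sum fun i _ => h5 i).trans (le_of_eq ?_)
        rw [Finset.sum_const, Finset.card_univ, nsmul_eq_mul, mul_one, TM.H764.card_V]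
      rw [e3]
      calc T⁻¹ * (T / 2 * ∑ i, (CN N l * (CN N l)ᵀ) i i)
          = (∑ i, (CN N l * (CN N l)ᵀ) i i) / 2 := by field_simp
        _ ≤ _ := by linarith) hr₁ hp₁
  refine h1.trans ?_
  have h6 : (2 * (T / 8))⁻¹ = 4 / T := by field_simp; norm_num
  rw [h6]
  refine mul_le_mul_of_nonneg_left ?_ (by positivity)
  have h7 : 72 * (((N / l : ℕ) : ℝ) ^ 2 / 2) ^ 2 * √p₁ = 18 * (((N / l : ℕ) : ℝ) ^ 2) ^ 2 * √p₁ := by
    ring
  linarith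

end torus

end

end Vale.Agent.P159.H159
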