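import Vale.Agent.P159.TM.H104.Calc
import Vale.Agent.P159.T1.H897.Fkg

/-!
P159, module ASSOC (helper159), part 1: positive association of a weight `μ` on `V → ℤ` with the
lattice condition `Hol μ μ`, in every source `J`; Newman's inequality for Lipschitz functionals.
-/

namespace Vale.Agent.P159.H159

open Finset
open Vale.Agent.P159.TM.H104
open Vale.Agent.P159.T1.H897 (Hol fkg_tsum holley_tsum)

variable {V : Type*} [Fintype V] {μ : (V → ℤ) → ℝ}

/-! ### the tilts keep the lattice condition -/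

theorem li_inf_add_sup (J : V → ℝ) (h k : V → ℤ) : li J h + li J k = li J (h ⊓ k) + li J (h ⊔ k) := by
  unfold li
  rw [← Finset.sum_add_distrib, ← Finset.sum_add_distrib]
  refine Finset.sum_congr rfl fun x _ => ?_
  simp only [Pi.inf_apply, Pi.sup_apply]
  rcases le_total (h x) (k x) with hx | hx
  · rw [inf_eq_left.2 hx, sup_eq_right.2 hx]
  · rw [inf_eq_right.2 hx, sup_eq_left.2 hx]
    ring

theorem hol_tilt (hL : Hol μ μ) (J : V → ℝ) :
    Hol (fun h => μ h * Real.exp (li J h)) fun h => μ h * Real.exp (li J h) := by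
  intro h k
  have h1 : Real.exp (li J h) * Real.exp (li J k) =
      Real.exp (li J (h ⊓ k)) * Real.exp (li J (h ⊔ k)) := by
    rw [← Real.exp_add, ← Real.exp_add, li_inf_add_sup]
  calc μ h * Real.exp (li J h) * (μ k * Real.exp (li J k))
      = μ h * μ k * (Real.exp (li J h) * Real.exp (li J k)) := by ring
    _ ≤ μ (h ⊓ k) * μ (h ⊔ k) * (Real.exp (li J h) * Real.exp (li J k)) :=
        mul_le_mul_of_nonneg_right (hL h k) (by positivity)
    _ = _ := by rw [h1]; ring

/-- `J ≤ J'`: Holley -/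
theorem hol_tilt2 (hμ : EM μ) (hL : Hol μ μ) {J J' : V → ℝ} (hJ : J ≤ J') :
    Hol (fun h => μ h * Real.exp (li J h)) fun h => μ h * Real.exp (li J' h) := by
  intro h k
  have h1 : Real.exp (li J h) * Real.exp (li J' k) ≤
      Real.exp (li J (h ⊓ k)) * Real.exp (li J' (h ⊔ k)) := by
    rw [← Real.exp_add, ← Real.exp_add]
    refine Real.exp_le_exp.2 ?_
    unfold li
    rw [← Finset.sum_add_distrib, ← Finset.sum_add_distrib]
    refine Finset.sum_le_sum fun x _ => ?_
    simp only [Pi.inf_apply, Pi.sup_apply]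
    rcases le_total (h x) (k x) with hx | hx
    · rw [inf_eq_left.2 hx, sup_eq_right.2 hx]
    · rw [inf_eq_right.2 hx, sup_eq_left.2 hx]
      have h2 : (k x : ℝ) ≤ h x := by exact_mod_cast hx
      nlinarith [hJ x]
  calc μ h * Real.exp (li J h) * (μ k * Real.exp (li J' k))
      = μ h * μ k * (Real.exp (li J h) * Real.exp (li J' k)) := by ring
    _ ≤ μ (h ⊓ k) * μ (h ⊔ k) * (Real.exp (li J (h ⊓ k)) * Real.exp (li J' (h ⊔ k))) :=
        mul_le_mul (hL h k) h1 (by positivity) (mul_nonneg (hμ.nn _) (hμ.nn _))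
    _ = _ := by ring

theorem T_eq (J : V → ℝ) (F : (V → ℤ) → ℝ) :
    TM.H104.T μ J F = ∑' h, μ h * Real.exp (li J h) * F h := by
  unfold TM.H104.T
  exact tsum_congr fun h => by ring

theorem summ_eq (hμ : EM μ) {F : (V → ℤ) → ℝ} (hF : Gr F) (J : V → ℝ) :
    Summable fun h => μ h * Real.exp (li J h) * F h :=
  (hμ.summ hF J).congr fun h => by ring

theorem summ_one (hμ : EM μ) (J : V → ℝ) : Summable fun h => μ h * Real.exp (li J h) := by
  have := summ_eq hμ (Gr.const 1) J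
  simpa using this

theorem T_one_eq (J : V → ℝ) : (TM.H104.T μ J fun _ => 1) = ∑' h, μ h * Real.exp (li J h) := by
  rw [T_eq]
  exact tsum_congr fun h => by ring

/-- **(AS1) association** in every source -/
theorem Cv_nonneg (hμ : EM μ) (hL : Hol μ μ) {F G : (V → ℤ) → ℝ} (gF : Gr F) (gG : Gr G)
    (hF : Monotone F) (hG : Monotone G) (J : V → ℝ) : 0 ≤ Cv μ J F G := by
  have h0 := T_one_pos hμ J
  have h1 := fkg_tsum (μ := fun h => μ h * Real.exp (li J h)) (f := F) (g := G)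
    (fun h => mul_nonneg (hμ.nn h) (Real.exp_pos _).le) (summ_one hμ J) (summ_eq hμ gF J)
    (summ_eq hμ gG J) (summ_eq hμ (gF.mul gG) J) (hol_tilt hL J) hF hG
  rw [← T_eq, ← T_eq, ← T_one_eq, ← T_eq] at h1
  unfold Cv Ex
  rw [div_mul_div_comm, sub_nonneg, div_le_div_iff₀ (by positivity) h0]
  nlinarith

/-- **(AS1') monotonicity in the source** -/
theorem Ex_mono_source (hμ : EM μ) (hL : Hol μ μ) {F : (V → ℤ) → ℝ} (gF : Gr F)
    (hF : Monotone F) {J J' : V → ℝ} (hJ : J ≤ J') : Ex μ J F ≤ Ex μ J' F := by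
  have h0 := T_one_pos hμ J
  have h0' := T_one_pos hμ J'
  have h1 := holley_tsum (μ := fun h => μ h * Real.exp (li J h))
    (ν := fun h => μ h * Real.exp (li J' h)) (f := F)
    (fun h => mul_nonneg (hμ.nn h) (Real.exp_pos _).le)
    (fun h => mul_nonneg (hμ.nn h) (Real.exp_pos _).le) (summ_one hμ J) (summ_one hμ J')
    (summ_eq hμ gF J) (summ_eq hμ gF J') (hol_tilt2 hμ hL hJ) hF
  rw [← T_eq, ← T_eq, ← T_one_eq, ← T_one_eq] at h1
  unfold Ex
  rw [div_le_div_iff₀ h0 h0']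
  linarith

/-! ### bilinearity of the covariance -/

theorem Cv_add_left (hμ : EM μ) {F F' G : (V → ℤ) → ℝ} (gF : Gr F) (gF' : Gr F') (gG : Gr G)
    (J : V → ℝ) : Cv μ J (fun h => F h + F' h) G = Cv μ J F G + Cv μ J F' G := by
  unfold Cv
  rw [Ex_add hμ gF gF']
  have : (fun h => (F h + F' h) * G h) = fun h => F h * G h + F' h * G h := by
    funext h; ring
  rw [this, Ex_add hμ (gF.mul gG) (gF'.mul gG)]
  ring

theorem Cv_sub_left (hμ : EM μ) {F F' G : (V → ℤ) → ℝ} (gF : Gr F) (gF' : Gr F') (gG : Gr G)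
    (J : V → ℝ) : Cv μ J (fun h => F h - F' h) G = Cv μ J F G - Cv μ J F' G := by
  unfold Cv
  rw [Ex_sub hμ gF gF']
  have : (fun h => (F h - F' h) * G h) = fun h => F h * G h - F' h * G h := by
    funext h; ring
  rw [this, Ex_sub hμ (gF.mul gG) (gF'.mul gG)]
  ring

theorem Cv_add_right (hμ : EM μ) {F G G' : (V → ℤ) → ℝ} (gF : Gr F) (gG : Gr G) (gG' : Gr G')
    (J : V → ℝ) : Cv μ J F (fun h => G h + G' h) = Cv μ J F G + Cv μ J F G' := by
  rw [Cv_comm, Cv_add_left hμ gG gG' gF, Cv_comm, Cv_comm J G' F]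

theorem Cv_sub_right (hμ : EM μ) {F G G' : (V → ℤ) → ℝ} (gF : Gr F) (gG : Gr G) (gG' : Gr G')
    (J : V → ℝ) : Cv μ J F (fun h => G h - G' h) = Cv μ J F G - Cv μ J F G' := by
  rw [Cv_comm, Cv_sub_left hμ gG gG' gF, Cv_comm, Cv_comm J G' F]

theorem Cv_cmul_left (c : ℝ) (F G : (V → ℤ) → ℝ) (J : V → ℝ) :
    Cv μ J (fun h => c * F h) G = c * Cv μ J F G := by
  unfold Cv
  rw [Ex_cmul]
  have : (fun h => c * F h * G h) = fun h => c * (F h * G h) := by
    funext h; ring
  rw [this, Ex_cmul]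
  ring

theorem Cv_cmul_right (c : ℝ) (F G : (V → ℤ) → ℝ) (J : V → ℝ) :
    Cv μ J F (fun h => c * G h) = c * Cv μ J F G := by
  rw [Cv_comm, Cv_cmul_left, Cv_comm]

theorem Cv_const_left (hμ : EM μ) (c : ℝ) (G : (V → ℤ) → ℝ) (J : V → ℝ) :
    Cv μ J (fun _ => c) G = 0 := by
  unfold Cv
  rw [Ex_const hμ, Ex_cmul]
  ring

theorem Cv_const_right (hμ : EM μ) (c : ℝ) (F : (V → ℤ) → ℝ) (J : V → ℝ) :
    Cv μ J F (fun _ => c) = 0 := by
  rw [Cv_comm, Cv_const_left hμ]

theorem gr_sum {ι : Type*} (s : Finset ι) {F : ι → (V → ℤ) → ℝ} (hF : ∀ i ∈ s, Gr (F i)) :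
    Gr fun h => ∑ i ∈ s, F i h := by
  classical
  induction s using Finset.induction_on with
  | empty => simpa using Gr.const (V := V) 0
  | insert i s hi ih =>
    simp only [Finset.sum_insert hi]
    exact (hF i (Finset.mem_insert_self _ _)).add
      (ih fun j hj => hF j (Finset.mem_insert_of_mem hj))

theorem Cv_sum_left (hμ : EM μ) {ι : Type*} (s : Finset ι) {F : ι → (V → ℤ) → ℝ}
    {G : (V → ℤ) → ℝ} (hF : ∀ i ∈ s, Gr (F i)) (gG : Gr G) (J : V → ℝ) :
    Cv μ J (fun h => ∑ i ∈ s, F i h) G = ∑ i ∈ s, Cv μ J (F i) G := by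
  classical
  induction s using Finset.induction_on with
  | empty => simpa using Cv_const_left hμ 0 G J
  | insert i s hi ih =>
    simp only [Finset.sum_insert hi]
    rw [Cv_add_left hμ (hF i (Finset.mem_insert_self _ _))
      (gr_sum s fun j hj => hF j (Finset.mem_insert_of_mem hj)) gG,
      ih fun j hj => hF j (Finset.mem_insert_of_mem hj)]

theorem gr_x (x : V) : Gr fun h : V → ℤ => (h x : ℝ) := by
  classical
  have h1 : (fun h : V → ℤ => (h x : ℝ)) = li (Pi.single x 1) := by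
    funext h
    unfold li
    rw [Finset.sum_eq_single x]
    · simp
    · intro y _ hy
      simp [Pi.single_eq_of_ne hy]
    · simp
  rw [h1]
  exact Gr.li _

/-- covariance of two linear functionals -/
theorem Cv_li_li (hμ : EM μ) (J a b : V → ℝ) :
    Cv μ J (li a) (li b) =
      ∑ x, ∑ y, a x * b y * Cv μ J (fun h => (h x : ℝ)) fun h => (h y : ℝ) := by
  have h1 : (li a : (V → ℤ) → ℝ) = fun h => ∑ x, a x * (h x : ℝ) := rfl
  have h2 : (li b : (V → ℤ) → ℝ) = fun h => ∑ x, b x * (h x : ℝ) := rfl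
  rw [h1, Cv_sum_left hμ _ (fun x _ => (gr_x x).cmul _) (Gr.li b)]
  refine Finset.sum_congr rfl fun x _ => ?_
  rw [Cv_cmul_left, Cv_comm, h2, Cv_sum_left hμ _ (fun x _ => (gr_x x).cmul _) (gr_x x),
    Finset.mul_sum]
  refine Finset.sum_congr rfl fun y _ => ?_
  rw [Cv_cmul_left, Cv_comm]
  ring

/-! ### Newman's inequality -/

/-- `F` is Lipschitz with the constants `a x` (upwards) -/
def Lp (a : V → ℝ) (F : (V → ℤ) → ℝ) : Prop :=
  ∀ h k : V → ℤ, h ≤ k → |F k - F h| ≤ ∑ x, a x * ((k x : ℝ) - h x)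

theorem Lp.mono {a a' : V → ℝ} {F : (V → ℤ) → ℝ} (h : Lp a F) (ha : a ≤ a') : Lp a' F := by
  intro u v huv
  refine (h u v huv).trans (Finset.sum_le_sum fun x _ => ?_)
  have : (u x : ℝ) ≤ v x := by exact_mod_cast huv x
  exact mul_le_mul_of_nonneg_right (ha x) (by linarith)

theorem Lp.up {a : V → ℝ} {F : (V → ℤ) → ℝ} (h : Lp a F) : Monotone fun k => li a k + F k := by
  intro u v huv
  have h1 := h u v huv
  have h2 : li a v - li a u = ∑ x, a x * ((v x : ℝ) - u x) := by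
    unfold li
    rw [← Finset.sum_sub_distrib]
    exact Finset.sum_congr rfl fun x _ => by ring
  have := neg_abs_le (F v - F u)
  simp only
  linarith

theorem Lp.dn {a : V → ℝ} {F : (V → ℤ) → ℝ} (h : Lp a F) : Monotone fun k => li a k - F k := by
  intro u v huv
  have h1 := h u v huv
  have h2 : li a v - li a u = ∑ x, a x * ((v x : ℝ) - u x) := by
    unfold li
    rw [← Finset.sum_sub_distrib]
    exact Finset.sum_congr rfl fun x _ => by ring
  have := le_abs_self (F v - F u)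
  simp only
  linarith

/-- **(AS3) Newman's inequality** in every source -/
theorem newman (hμ : EM μ) (hL : Hol μ μ) {a b : V → ℝ} {F G : (V → ℤ) → ℝ} (gF : Gr F)
    (gG : Gr G) (hF : Lp a F) (hG : Lp b G) (J : V → ℝ) :
    |Cv μ J F G| ≤ Cv μ J (li a) (li b) := by
  have ga := Gr.li a
  have gb := Gr.li b
  have p1 := Cv_nonneg hμ hL (ga.add gF) (gb.add gG) hF.up hG.up J
  have p2 := Cv_nonneg hμ hL (ga.sub gF) (gb.sub gG) hF.dn hG.dn J
  have p3 := Cv_nonneg hμ hL (ga.add gF) (gb.sub gG) hF.up hG.dn J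
  have p4 := Cv_nonneg hμ hL (ga.sub gF) (gb.add gG) hF.dn hG.up J
  rw [Cv_add_left hμ ga gF (gb.add gG), Cv_add_right hμ ga gb gG, Cv_add_right hμ gF gb gG] at p1
  rw [Cv_sub_left hμ ga gF (gb.sub gG), Cv_sub_right hμ ga gb gG, Cv_sub_right hμ gF gb gG] at p2
  rw [Cv_add_left hμ ga gF (gb.sub gG), Cv_sub_right hμ ga gb gG, Cv_sub_right hμ gF gb gG] at p3
  rw [Cv_sub_left hμ ga gF (gb.add gG), Cv_add_right hμ ga gb gG, Cv_add_right hμ gF gb gG] at p4
  rw [abs_le]
  constructor <;> linarith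

end Vale.Agent.P159.H159
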