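import Vale.Agent.P159.H375.FineM
import Vale.Agent.P159.H963.NeuQ
import Vale.Agent.P159.H963.NeuI
import Vale.Agent.P159.H159.Drec2

/-!
P159, module FINEN (helper159), part 1: the neutral model is the limit `s → 0` of the integer model
with the same neutral mass form and the mass `s` on the constants.
-/

namespace Vale.Agent.P159.H159

open Finset Matrix MeasureTheory Filter Topology
open Vale.Agent.P159.TM.H104 (EM Ex Cv li Gr)
open Vale.Agent.P159.H37
open Vale.Agent.P159.H963 (GrI pin Neu spl per_norm gauss_per grI_tsum ntr nM GW MF)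

noncomputable section

section lim

variable {V : Type} [Fintype V] [DecidableEq V]

/-- the integrals over one period of the constant, summed over all fields -/
lemma hasSum_per {x₀ : V} {B a : (V → ℤ) → ℝ} (hB0 : ∀ h, 0 ≤ B h) (hB : GrI B)
    (ha : ∀ (h : V → ℤ) (n : ℤ), a (fun x => h x + n) = a h + n)
    (hs : Summable fun h : V → ℤ => if h x₀ = 0 then B h else 0) {c : ℝ} (hc : 0 < c) :
    HasSum (fun h : V → ℤ => ∫ u in (0 : ℝ)..1, B h * Real.exp (-c * (a h - u) ^ 2))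
      (Real.sqrt (Real.pi / c) * ∑' h : V → ℤ, (if h x₀ = 0 then B h else 0)) := by
  have hS := per_norm (x₀ := x₀) hB0 hB ha hs hc
  have h1 := hS.hasSum
  have h2 : ∑' h : V → ℤ, (∫ u in (0 : ℝ)..1, B h * Real.exp (-c * (a h - u) ^ 2)) =
      Real.sqrt (Real.pi / c) * ∑' h : V → ℤ, (if h x₀ = 0 then B h else 0) := by
    rw [← (spl x₀).tsum_eq]
    have h3 : Summable fun p : {k : V → ℤ // k x₀ = 0} × ℤ => ∫ u in (0 : ℝ)..1,
        B (spl x₀ p) * Real.exp (-c * (a (spl x₀ p) - u) ^ 2) := (spl x₀).summable_iff.2 hS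
    rw [h3.tsum_prod, ← grI_tsum, ← tsum_mul_left]
    refine tsum_congr fun k => ?_
    have h4 := (gauss_per (a k.1) hc).mul_left (B k.1)
    have h5 : (fun n : ℤ => ∫ u in (0 : ℝ)..1,
        B (spl x₀ (k, n)) * Real.exp (-c * (a (spl x₀ (k, n)) - u) ^ 2)) = fun n : ℤ =>
        B k.1 * ∫ u in (0 : ℝ)..1, Real.exp (-c * (a k.1 + n - u) ^ 2) := by
      funext n
      have e : spl x₀ (k, n) = fun x => k.1 x + n := rfl
      simp only [e, hB k.1 n, ha k.1 n]
      rw [intervalIntegral.integral_const_mul]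
    rw [h5, h4.tsum_eq, mul_comm]
  rwa [h2] at h1

/-- termwise comparison, upper -/
lemma term_up {B a k η : ℝ} (hB : 0 ≤ B) (hk : 0 < k) (hη : 0 < η) :
    B * Real.exp (-(k * (1 + η)) * a ^ 2) ≤ Real.exp (k * (1 + 1 / η)) *
      ∫ u in (0 : ℝ)..1, B * Real.exp (-k * (a - u) ^ 2) := by
  have hc : Continuous fun u : ℝ => B * Real.exp (-k * (a - u) ^ 2) := by fun_prop
  rw [← intervalIntegral.integral_const_mul]
  have h1 : B * Real.exp (-(k * (1 + η)) * a ^ 2) =
      ∫ _u in (0 : ℝ)..1, B * Real.exp (-(k * (1 + η)) * a ^ 2) := by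
    rw [intervalIntegral.integral_const]
    simp
  rw [h1]
  refine intervalIntegral.integral_mono_on zero_le_one (by simp)
    ((hc.const_mul _).intervalIntegrable _ _) fun u hu => ?_
  rw [mul_left_comm, ← Real.exp_add]
  refine mul_le_mul_of_nonneg_left (Real.exp_le_exp.2 ?_) hB
  have h2 : (a - u) ^ 2 ≤ (1 + η) * a ^ 2 + (1 + 1 / η) * u ^ 2 := by
    have h3 : (1 + η) * a ^ 2 + (1 + 1 / η) * u ^ 2 - (a - u) ^ 2 = (η * a + u) ^ 2 / η := by
      field_simp
      ring
    have h4 : 0 ≤ (η * a + u) ^ 2 / η := by positivity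
    linarith
  have h5 : u ^ 2 ≤ 1 := by nlinarith [hu.1, hu.2]
  have h6 : (1 + 1 / η) * u ^ 2 ≤ (1 + 1 / η) := by
    have : 0 ≤ 1 + 1 / η := by positivity
    nlinarith
  have h7 : k * (a - u) ^ 2 ≤ k * ((1 + η) * a ^ 2 + (1 + 1 / η)) :=
    mul_le_mul_of_nonneg_left (by linarith) hk.le
  nlinarith

/-- termwise comparison, lower -/
lemma term_lo {B a k η : ℝ} (hB : 0 ≤ B) (hk : 0 < k) (hη : 0 < η) :
    ∫ u in (0 : ℝ)..1, B * Real.exp (-(k * (1 + η)) * (a - u) ^ 2) ≤
      Real.exp (k * (1 + η) / η) * (B * Real.exp (-k * a ^ 2)) := by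
  have hc : Continuous fun u : ℝ => B * Real.exp (-(k * (1 + η)) * (a - u) ^ 2) := by fun_prop
  have h1 : Real.exp (k * (1 + η) / η) * (B * Real.exp (-k * a ^ 2)) =
      ∫ _u in (0 : ℝ)..1, Real.exp (k * (1 + η) / η) * (B * Real.exp (-k * a ^ 2)) := by
    rw [intervalIntegral.integral_const]
    simp
  rw [h1]
  refine intervalIntegral.integral_mono_on zero_le_one (hc.intervalIntegrable _ _) (by simp)
    fun u hu => ?_
  rw [mul_left_comm, ← Real.exp_add]
  refine mul_le_mul_of_nonneg_left (Real.exp_le_exp.2 ?_) hB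
  have h2 : a ^ 2 ≤ (1 + η) * (a - u) ^ 2 + (1 + 1 / η) * u ^ 2 := by
    have h3 : (1 + η) * (a - u) ^ 2 + (1 + 1 / η) * u ^ 2 - a ^ 2 = (η * (a - u) - u) ^ 2 / η := by
      field_simp
      ring
    have h4 : 0 ≤ (η * (a - u) - u) ^ 2 / η := by positivity
    linarith
  have h5 : u ^ 2 ≤ 1 := by nlinarith [hu.1, hu.2]
  have h6 : (1 + 1 / η) * u ^ 2 ≤ (1 + 1 / η) := by
    have : 0 ≤ 1 + 1 / η := by positivity
    nlinarith
  have h7 : k * a ^ 2 ≤ k * ((1 + η) * (a - u) ^ 2 + (1 + 1 / η)) :=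
    mul_le_mul_of_nonneg_left (by linarith) hk.le
  have h8 : k * (1 + η) / η = k * (1 + 1 / η) := by field_simp; ring
  rw [h8]
  nlinarith

/-- two sided bound -/
lemma sum_two {x₀ : V} {B a : (V → ℤ) → ℝ} (hB0 : ∀ h, 0 ≤ B h) (hB : GrI B)
    (ha : ∀ (h : V → ℤ) (n : ℤ), a (fun x => h x + n) = a h + n)
    (hs : Summable fun h : V → ℤ => if h x₀ = 0 then B h else 0) {k η : ℝ} (hk : 0 < k)
    (hη : 0 < η) :
    Real.exp (-(k * (1 + η) / η)) / Real.sqrt (1 + η) *
        (∑' h : V → ℤ, (if h x₀ = 0 then B h else 0)) ≤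
      Real.sqrt (k / Real.pi) * ∑' h : V → ℤ, B h * Real.exp (-k * a h ^ 2) ∧
    Real.sqrt (k / Real.pi) * ∑' h : V → ℤ, B h * Real.exp (-k * a h ^ 2) ≤
      Real.exp (k / η) * Real.sqrt (1 + η) * ∑' h : V → ℤ, (if h x₀ = 0 then B h else 0) := by
  set S : ℝ := ∑' h : V → ℤ, (if h x₀ = 0 then B h else 0) with hS
  have hπ := Real.pi_pos
  have h1η : 0 < 1 + η := by positivity
  have hk' : 0 < k / (1 + η) := by positivity
  have hk'' : 0 < k * (1 + η) := by positivity
  have hu := hasSum_per (x₀ := x₀) hB0 hB ha hs hk'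
  have hl := hasSum_per (x₀ := x₀) hB0 hB ha hs hk''
  have hup : ∀ h : V → ℤ, B h * Real.exp (-k * a h ^ 2) ≤ Real.exp (k / (1 + η) * (1 + 1 / η)) *
      ∫ u in (0 : ℝ)..1, B h * Real.exp (-(k / (1 + η)) * (a h - u) ^ 2) := by
    intro h
    have := term_up (a := a h) (hB0 h) hk' hη
    have e : k / (1 + η) * (1 + η) = k := by field_simp
    rw [e] at this
    exact this
  have hT : Summable fun h : V → ℤ => B h * Real.exp (-k * a h ^ 2) :=
    Summable.of_nonneg_of_le (fun h => mul_nonneg (hB0 h) (Real.exp_pos _).le) hup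
      (hu.summable.mul_left _)
  constructor
  · have h1 := hl.summable.tsum_le_tsum (fun h => term_lo (a := a h) (hB0 h) hk hη)
      (hT.mul_left (Real.exp (k * (1 + η) / η)))
    rw [hl.tsum_eq, tsum_mul_left] at h1
    have h2 : Real.sqrt (k / Real.pi) * Real.sqrt (Real.pi / (k * (1 + η))) =
        1 / Real.sqrt (1 + η) := by
      rw [← Real.sqrt_mul (by positivity), ← Real.sqrt_one, ← Real.sqrt_div zero_le_one,
        Real.sqrt_one]
      congr 1
      field_simp
    have h3 := mul_le_mul_of_nonneg_left h1 (Real.sqrt_nonneg (k / Real.pi))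
    rw [← mul_assoc, h2] at h3
    have h4 := mul_le_mul_of_nonneg_left h3 (Real.exp_pos (-(k * (1 + η) / η))).le
    calc _ = Real.exp (-(k * (1 + η) / η)) * (1 / Real.sqrt (1 + η) * S) := by ring
      _ ≤ _ := h4
      _ = Real.exp (-(k * (1 + η) / η)) * Real.exp (k * (1 + η) / η) *
          (Real.sqrt (k / Real.pi) * ∑' h : V → ℤ, B h * Real.exp (-k * a h ^ 2)) := by ring
      _ = _ := by rw [← Real.exp_add, neg_add_cancel, Real.exp_zero, one_mul]
  · have h1 := hT.tsum_le_tsum hup (hu.summable.mul_left _)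
    rw [tsum_mul_left, hu.tsum_eq] at h1
    have h2 : Real.sqrt (k / Real.pi) * Real.sqrt (Real.pi / (k / (1 + η))) =
        Real.sqrt (1 + η) := by
      rw [← Real.sqrt_mul (by positivity)]
      congr 1
      field_simp
    have h3 := mul_le_mul_of_nonneg_left h1 (Real.sqrt_nonneg (k / Real.pi))
    refine h3.trans_eq ?_
    have e : k / (1 + η) * (1 + 1 / η) = k / η := by field_simp; ring
    rw [e]
    calc _ = Real.exp (k / η) * (Real.sqrt (k / Real.pi) *
          Real.sqrt (Real.pi / (k / (1 + η)))) * S := by ring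
      _ = _ := by rw [h2]

/-- **the limit of the sum over all fields is the pinned sum** -/
theorem lim_sum {x₀ : V} {B a : (V → ℤ) → ℝ} (hB0 : ∀ h, 0 ≤ B h) (hB : GrI B)
    (ha : ∀ (h : V → ℤ) (n : ℤ), a (fun x => h x + n) = a h + n)
    (hs : Summable fun h : V → ℤ => if h x₀ = 0 then B h else 0) :
    Tendsto (fun k : ℝ => Real.sqrt (k / Real.pi) * ∑' h : V → ℤ, B h * Real.exp (-k * a h ^ 2))
      (𝓝[>] 0) (𝓝 (∑' h : V → ℤ, (if h x₀ = 0 then B h else 0))) := by
  set S : ℝ := ∑' h : V → ℤ, (if h x₀ = 0 then B h else 0) with hS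
  have hsq : Tendsto (fun k : ℝ => Real.sqrt k) (𝓝[>] 0) (𝓝 0) := by
    have := (Real.continuous_sqrt.tendsto 0).mono_left (nhdsWithin_le_nhds (s := Set.Ioi 0))
    rwa [Real.sqrt_zero] at this
  have hf : Tendsto (fun k : ℝ => Real.exp (-(Real.sqrt k * (1 + Real.sqrt k))) /
      Real.sqrt (1 + Real.sqrt k) * S) (𝓝[>] 0) (𝓝 S) := by
    have hg : Continuous fun r : ℝ => Real.exp (-(r * (1 + r))) := by fun_prop
    have hg2 : Continuous fun r : ℝ => Real.sqrt (1 + r) := by fun_prop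
    have h1 := (hg.tendsto 0).comp hsq
    have h2 := (hg2.tendsto 0).comp hsq
    simp only [zero_mul, neg_zero, Real.exp_zero, add_zero, Real.sqrt_one] at h1 h2
    have h3 := (h1.div h2 one_ne_zero).mul_const S
    simpa using h3
  have hf' : Tendsto (fun k : ℝ => Real.exp (Real.sqrt k) * Real.sqrt (1 + Real.sqrt k) * S)
      (𝓝[>] 0) (𝓝 S) := by
    have hg : Continuous fun r : ℝ => Real.exp r * Real.sqrt (1 + r) * S := by fun_prop
    have h1 := (hg.tendsto 0).comp hsq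
    simpa [Function.comp_def] using h1
  refine tendsto_of_tendsto_of_tendsto_of_le_of_le' hf hf' ?_ ?_
  · filter_upwards [self_mem_nhdsWithin] with k hk
    have hk : 0 < k := hk
    have h1 := (sum_two (x₀ := x₀) hB0 hB ha hs hk (Real.sqrt_pos.2 hk)).1
    have e : k * (1 + Real.sqrt k) / Real.sqrt k = Real.sqrt k * (1 + Real.sqrt k) := by
      have := Real.mul_self_sqrt hk.le
      have h2 := Real.sqrt_pos.2 hk
      field_simp
      nlinarith
    rw [e] at h1
    exact h1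
  · filter_upwards [self_mem_nhdsWithin] with k hk
    have hk : 0 < k := hk
    have h1 := (sum_two (x₀ := x₀) hB0 hB ha hs hk (Real.sqrt_pos.2 hk)).2
    have e : k / Real.sqrt k = Real.sqrt k := Real.div_sqrt
    rw [e] at h1
    exact h1

/-- the integer model with the neutral mass form of `M` and the mass `s` on the constants -/
def Ms (M : Matrix V V ℝ) (m s : ℝ) : Matrix V V ℝ := ntr M (m - s)

lemma ntr_Ms (M : Matrix V V ℝ) (m s : ℝ) : ntr (Ms M m s) s = ntr M m := by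
  ext x y
  unfold Ms
  rw [H963.ntr_apply, H963.ntr_apply, H963.ntr_apply]
  ring

lemma qf_Ms (M : Matrix V V ℝ) (m s : ℝ) (u : V → ℝ) :
    qf (Ms M m s) u = qf (ntr M m) u + s / Fintype.card V * (∑ x, u x) ^ 2 := by
  rw [H963.qf_ntr (Ms M m s) s u, ntr_Ms]

lemma nM_Ms (w : (V → ℤ) → ℝ) (M : Matrix V V ℝ) (m s : ℝ) (x₀ : V) :
    nM w (Ms M m s) s x₀ = nM w M m x₀ := by
  unfold nM
  rw [ntr_Ms]

lemma Ms_transpose {M : Matrix V V ℝ} (hM : Mᵀ = M) (m s : ℝ) : (Ms M m s)ᵀ = Ms M m s :=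
  H963.ntr_transpose hM _

lemma Ms_row [Nonempty V] {M : Matrix V V ℝ} {m : ℝ} (hM : ∀ x, ∑ y, M x y = m) (s : ℝ) (x : V) :
    ∑ y, Ms M m s x y = s := by
  have hN : (Fintype.card V : ℝ) ≠ 0 := Nat.cast_ne_zero.2 Fintype.card_ne_zero
  unfold Ms
  simp only [H963.ntr_apply, Finset.sum_sub_distrib, hM, Finset.sum_const, Finset.card_univ,
    nsmul_eq_mul]
  field_simp
  ring

/-- **limit of the unnormalised expectations** -/
theorem lim_T [Nonempty V] {w : (V → ℤ) → ℝ} (hw : GrI w) (hw0 : ∀ h, 0 ≤ w h)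
    {M : Matrix V V ℝ} (hM : Mᵀ = M) {m : ℝ} (hrow : ∀ x, ∑ y, M x y = m) {x₀ : V}
    (hE : EM (nM w M m x₀)) {F : (V → ℤ) → ℝ} (hF0 : ∀ h, 0 ≤ F h) (hF : GrI F) (hg : Gr F) :
    Tendsto (fun s : ℝ => Real.sqrt (s * Fintype.card V / 2 / Real.pi) *
      TM.H104.T (wM w (Ms M m s)) 0 F) (𝓝[>] 0) (𝓝 (TM.H104.T (nM w M m x₀) 0 F)) := by
  have hN : (0 : ℝ) < Fintype.card V := Nat.cast_pos.2 Fintype.card_pos
  have hM0t := H963.ntr_transpose hM m
  have hM01 := H963.ntr_row (V := V) hrow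
  have ha : ∀ (h : V → ℤ) (n : ℤ), (∑ x, (((fun x => h x + n) x : ℤ) : ℝ)) /
      (Fintype.card V : ℝ) = (∑ x, (h x : ℝ)) / (Fintype.card V : ℝ) + n := by
    intro h n
    have : ∑ x, (((fun x => h x + n) x : ℤ) : ℝ) = ∑ x, (h x : ℝ) + Fintype.card V * n := by
      push_cast
      rw [Finset.sum_add_distrib, Finset.sum_const, Finset.card_univ, nsmul_eq_mul]
    rw [this]
    field_simp
  have hpt : ∀ h : V → ℤ, (if h x₀ = 0 then
      w h * Real.exp (-(qf (ntr M m) (re h) / 2)) * F h else 0) =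
      F h * nM w M m x₀ h * Real.exp (li 0 h) := by
    intro h
    rw [TM.H104.li_zero, Real.exp_zero, mul_one]
    unfold nM pin
    by_cases h0 : h x₀ = 0
    · rw [if_pos h0, if_pos h0]
      unfold wM
      ring
    · rw [if_neg h0, if_neg h0, mul_zero]
  have hsum : Summable fun h : V → ℤ => if h x₀ = 0 then
      w h * Real.exp (-(qf (ntr M m) (re h) / 2)) * F h else 0 :=
    (hE.summ hg 0).congr fun h => (hpt h).symm
  have hB : GrI fun h : V → ℤ => w h * Real.exp (-(qf (ntr M m) (re h) / 2)) * F h := by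
    intro h n
    simp only [hw h n, H963.re_addc, H963.qf_addc hM0t hM01, hF h n]
  have h1 := lim_sum (x₀ := x₀) (B := fun h : V → ℤ =>
      w h * Real.exp (-(qf (ntr M m) (re h) / 2)) * F h)
    (a := fun h : V → ℤ => (∑ x, (h x : ℝ)) / (Fintype.card V : ℝ))
    (fun h => mul_nonneg (mul_nonneg (hw0 h) (Real.exp_pos _).le) (hF0 h)) hB ha hsum
  have h2 : ∑' h : V → ℤ, (if h x₀ = 0 then
      w h * Real.exp (-(qf (ntr M m) (re h) / 2)) * F h else 0) =
      TM.H104.T (nM w M m x₀) 0 F := by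
    unfold TM.H104.T
    exact tsum_congr hpt
  rw [h2] at h1
  have h3 : Tendsto (fun s : ℝ => s * Fintype.card V / 2) (𝓝[>] 0) (𝓝[>] 0) := by
    refine tendsto_nhdsWithin_iff.2 ⟨?_, ?_⟩
    · have hc : Continuous fun s : ℝ => s * (Fintype.card V : ℝ) / 2 := by fun_prop
      have := (hc.tendsto 0).mono_left (nhdsWithin_le_nhds (s := Set.Ioi (0 : ℝ)))
      simpa using this
    · filter_upwards [self_mem_nhdsWithin] with s hs
      have hs : 0 < s := hs
      exact (by positivity : 0 < s * (Fintype.card V : ℝ) / 2)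
  refine (h1.comp h3).congr fun s => ?_
  simp only [Function.comp_apply]
  congr 1
  unfold TM.H104.T
  refine tsum_congr fun h => ?_
  rw [TM.H104.li_zero, Real.exp_zero, mul_one]
  unfold wM
  have e : Real.exp (-(qf (Ms M m s) (re h) / 2)) = Real.exp (-(qf (ntr M m) (re h) / 2)) *
      Real.exp (-(s * Fintype.card V / 2) * ((∑ x, (h x : ℝ)) / Fintype.card V) ^ 2) := by
    rw [← Real.exp_add, qf_Ms]
    congr 1
    simp only [re]
    field_simp
    ring
  rw [e]
  ring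

/-- **(LIM)** the integer expectations of gradient observables converge to the neutral ones -/
theorem lim_Ex [Nonempty V] {w : (V → ℤ) → ℝ} (hw : GrI w) (hw0 : ∀ h, 0 ≤ w h)
    {M : Matrix V V ℝ} (hM : Mᵀ = M) {m : ℝ} (hrow : ∀ x, ∑ y, M x y = m) {x₀ : V}
    (hE : EM (nM w M m x₀)) {F : (V → ℤ) → ℝ} (hF0 : ∀ h, 0 ≤ F h) (hF : GrI F) (hg : Gr F) :
    Tendsto (fun s : ℝ => Ex (wM w (Ms M m s)) 0 F) (𝓝[>] 0) (𝓝 (Ex (nM w M m x₀) 0 F)) := by
  have hN : (0 : ℝ) < Fintype.card V := Nat.cast_pos.2 Fintype.card_pos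
  have h1 := lim_T hw hw0 hM hrow hE hF0 hF hg
  have h2 := lim_T hw hw0 hM hrow hE (F := fun _ => 1) (fun _ => zero_le_one)
    (H963.GrI.const 1) (Gr.const 1)
  have hp : 0 < TM.H104.T (nM w M m x₀) 0 fun _ => 1 := TM.H104.T_one_pos hE 0
  refine (h1.div h2 hp.ne').congr' ?_
  filter_upwards [self_mem_nhdsWithin] with s hs
  have hs : 0 < s := hs
  have h3 : 0 < Real.sqrt (s * Fintype.card V / 2 / Real.pi) :=
    Real.sqrt_pos.2 (by positivity)
  simp only [Pi.div_apply]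
  rw [mul_div_mul_left _ _ h3.ne']
  rfl

end lim

end

end Vale.Agent.P159.H159
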