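import Vale.Agent.P159.H159.Tower
import Vale.Agent.P159.H864.Cel1
import Vale.Agent.P159.H789.Tor

/-!
P159, module ASSOC (helper159), part 7: the cell channel of the torus: lattice condition, growth,
association of the source, tower inequality.
-/

namespace Vale.Agent.P159.H159

open MeasureTheory Finset Matrix
open Vale.Agent.P159.TM.H104
open Vale.Agent.P159.T1.H897 (Hol)
open Vale.Agent.P159.H37 Vale.Agent.P159.H864
open Vale.Agent.P159.TM.Spec (V)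

variable {N : ℕ} [NeZero N] {l : ℕ} [NeZero (N / l)] {b t τ τ' : ℝ}

theorem fer_MC (hl : l ∣ N) (h : τ ≤ t) : Fer (MC N l t τ) := fun _ _ hxy => MC_off hl h hxy

theorem hol_MC (hb : 0 ≤ b) (hl : l ∣ N) (h : τ ≤ t) :
    Hol (wM (TM.SpecC.wT b N) (MC N l t τ)) (wM (TM.SpecC.wT b N) (MC N l t τ)) :=
  hol_wM_wT hb N (fer_MC hl h)

theorem gt_MC (hb : 0 ≤ b) (hl : l ∣ N) (hτ : 0 < τ) (h : τ ≤ t) :
    GT (wM (TM.SpecC.wT b N) (MC N l t τ)) :=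
  gt_wM (H789.wT_le hb) hτ (qf_MC_ge hl h)

theorem gt_wt (hb : 0 ≤ b) (ht : 0 < t) : GT (wt N b t) :=
  gt_wM (H789.wT_le hb) ht fun u => (qf_smul_one t u).ge

theorem cobP_nonneg (N l : ℕ) [NeZero N] (c : ℝ) (i : Fin (N / l) × Fin (N / l)) (x : V N) :
    0 ≤ (Real.sqrt c • cob N l) i x := by
  rw [Matrix.smul_apply, smul_eq_mul]
  refine mul_nonneg (Real.sqrt_nonneg _) ?_
  unfold cob
  rw [Matrix.of_apply]
  split_ifs
  · positivity
  · exact le_rfl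

/-- **cells: tower inequality**, posterior mass `M(τ)`, prior mass `M(τ')`, every source -/
theorem Cbar_MC_le (hb : 0 ≤ b) (hl : l ∣ N) (hτ' : 0 < τ') (h1 : τ' ≤ τ) (h2 : τ ≤ t)
    (J₁ : V N → ℝ) (x y : V N) :
    0 ≤ Cbar (wM (TM.SpecC.wT b N) (MC N l t τ')) J₁ (Real.sqrt (τ - τ') • cob N l) x y ∧
      Cbar (wM (TM.SpecC.wT b N) (MC N l t τ')) J₁ (Real.sqrt (τ - τ') • cob N l) x y ≤
        Cm (wM (TM.SpecC.wT b N) (MC N l t τ')) J₁ x y := by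
  have hE := em_MC hb hl hτ' (h1.trans h2)
  have hp := post_MC (N := N) (l := l) (t := t) (TM.SpecC.wT b N) h1
  refine Cbar_le hE ?_ (hol_MC hb hl (h1.trans h2)) ?_ (cobP_nonneg N l _) J₁ x y
  · rw [hp]
    exact gt_MC hb hl (hτ'.trans_le h1) h2
  · rw [hp]
    exact hol_MC hb hl h2

/-- **cells: the law of the source is associated** -/
theorem Ech_MC_assoc (hb : 0 ≤ b) (hl : l ∣ N) (hτ' : 0 < τ') (h2 : τ' ≤ t) (c : ℝ)
    (J₁ : V N → ℝ) {Φ Ψ : (V N → ℝ) → ℝ} (hΦ : EGr Φ) (hΨ : EGr Ψ) (mΦ : Monotone Φ)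
    (mΨ : Monotone Ψ) :
    Ech (wM (TM.SpecC.wT b N) (MC N l t τ')) J₁ (Real.sqrt c • cob N l) Φ *
        Ech (wM (TM.SpecC.wT b N) (MC N l t τ')) J₁ (Real.sqrt c • cob N l) Ψ ≤
      Ech (wM (TM.SpecC.wT b N) (MC N l t τ')) J₁ (Real.sqrt c • cob N l) fun J => Φ J * Ψ J :=
  Ech_assoc (em_MC hb hl hτ' h2) (hol_MC hb hl h2) (cobP_nonneg N l c) J₁ hΦ hΨ mΦ mΨ

end Vale.Agent.P159.H159
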