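import Vale.Agent.P159.H159.Assoc

/-!
P159, module ASSOC (helper159), part 2: truncation, third cumulants, dependence on far sources.
-/

namespace Vale.Agent.P159.H159

open Finset
open Vale.Agent.P159.TM.H104
open Vale.Agent.P159.T1.H897 (Hol)

variable {V : Type*} [Fintype V] {μ : (V → ℤ) → ℝ}

/-! ### truncation -/

/-- truncation at level `L` -/
noncomputable def cl (L r : ℝ) : ℝ := max (-L) (min r L)

theorem abs_cl_le {L : ℝ} (hL : 0 ≤ L) (r : ℝ) : |cl L r| ≤ L := by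
  unfold cl
  rw [abs_le]
  exact ⟨le_max_left _ _, max_le (by linarith) (min_le_right _ _)⟩

theorem cl_of_le {L r : ℝ} (h : |r| ≤ L) : cl L r = r := by
  rw [abs_le] at h
  unfold cl
  rw [min_eq_left h.2, max_eq_right h.1]

theorem abs_cl_sub_le (L r s : ℝ) : |cl L r - cl L s| ≤ |r - s| := by
  unfold cl
  have h1 := abs_max_sub_max_le_max (-L) (min r L) (-L) (min s L)
  have h2 := abs_min_sub_min_le_max r L s L
  rw [sub_self, abs_zero, max_eq_right (abs_nonneg (min r L - min s L))] at h1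
  rw [sub_self, abs_zero, max_eq_left (abs_nonneg (r - s))] at h2
  exact h1.trans h2

theorem abs_cl_le_abs {L : ℝ} (hL : 0 ≤ L) (r : ℝ) : |cl L r| ≤ |r| := by
  have h := abs_cl_sub_le L r 0
  have h0 : cl L 0 = 0 := cl_of_le (by simpa using hL)
  rwa [h0, sub_zero, sub_zero] at h

/-- the truncated part of a product has the sign of the product and is smaller -/
theorem abs_mul_sub_cl {L : ℝ} (hL : 0 ≤ L) (r s : ℝ) : |r * s - cl L r * cl L s| ≤ |r * s| := by
  have key : ∀ r : ℝ, 0 ≤ r → 0 ≤ cl L r ∧ cl L r ≤ r := by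
    intro r hr
    unfold cl
    refine ⟨le_max_of_le_right (le_min hr hL), max_le (by linarith) (min_le_left _ _)⟩
  have neg : ∀ r : ℝ, cl L (-r) = -cl L r := by
    intro r
    unfold cl
    rcases le_total r L with h1 | h1
    · rcases le_total (-L) r with h2 | h2
      · rw [min_eq_left h1, min_eq_left (by linarith : -r ≤ L), max_eq_right h2,
          max_eq_right (by linarith)]
      · rw [min_eq_left h1, min_eq_right (by linarith : L ≤ -r), max_eq_left h2,
          max_eq_right (by linarith), neg_neg]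
    · rw [min_eq_right h1, min_eq_left (by linarith : -r ≤ L), max_eq_right (by linarith : -L ≤ L),
        max_eq_left (by linarith)]
  have pos : ∀ r s : ℝ, 0 ≤ r → 0 ≤ s → |r * s - cl L r * cl L s| ≤ |r * s| := by
    intro r s hr hs
    obtain ⟨a0, a1⟩ := key r hr
    obtain ⟨b0, b1⟩ := key s hs
    have h1 : cl L r * cl L s ≤ r * s := mul_le_mul a1 b1 b0 hr
    have h2 : 0 ≤ cl L r * cl L s := mul_nonneg a0 b0
    rw [abs_of_nonneg (by linarith), abs_of_nonneg (mul_nonneg hr hs)]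
    linarith
  rcases le_total 0 r with hr | hr <;> rcases le_total 0 s with hs | hs
  · exact pos r s hr hs
  · have := pos r (-s) hr (by linarith)
    rw [neg s] at this
    have e : r * -s - cl L r * -cl L s = -(r * s - cl L r * cl L s) := by ring
    rw [e, abs_neg, mul_neg, abs_neg] at this
    exact this
  · have := pos (-r) s (by linarith) hs
    rw [neg r] at this
    have e : -r * s - -cl L r * cl L s = -(r * s - cl L r * cl L s) := by ring
    rw [e, abs_neg, neg_mul, abs_neg] at this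
    exact this
  · have := pos (-r) (-s) (by linarith) (by linarith)
    rw [neg r, neg s] at this
    rwa [neg_mul_neg, neg_mul_neg] at this

/-! ### Lipschitz calculus -/

theorem Lp.nonneg_sum {a : V → ℝ} {F : (V → ℤ) → ℝ} (h : Lp a F) {u v : V → ℤ} (huv : u ≤ v) :
    0 ≤ ∑ x, a x * ((v x : ℝ) - u x) := (abs_nonneg _).trans (h u v huv)

/-- linear functionals -/
theorem Lp.li (u : V → ℝ) : Lp (fun x => |u x|) (TM.H104.li u) := by
  intro h k hk
  have h2 : TM.H104.li u k - TM.H104.li u h = ∑ x, u x * ((k x : ℝ) - h x) := by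
    unfold TM.H104.li
    rw [← Finset.sum_sub_distrib]
    exact Finset.sum_congr rfl fun x _ => by ring
  rw [h2]
  refine (Finset.abs_sum_le_sum_abs _ _).trans (Finset.sum_le_sum fun x _ => ?_)
  rw [abs_mul]
  have : (h x : ℝ) ≤ k x := by exact_mod_cast hk x
  rw [abs_of_nonneg (by linarith : (0 : ℝ) ≤ (k x : ℝ) - h x)]

theorem Lp.comp {a : V → ℝ} {F : (V → ℤ) → ℝ} (hF : Lp a F) {φ : ℝ → ℝ}
    (hφ : ∀ r s, |φ r - φ s| ≤ |r - s|) : Lp a fun h => φ (F h) :=
  fun h k hk => (hφ _ _).trans (hF h k hk)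

theorem Lp.sub_const {a : V → ℝ} {F : (V → ℤ) → ℝ} (hF : Lp a F) (c : ℝ) :
    Lp a fun h => F h - c := by
  intro h k hk
  have : F k - c - (F h - c) = F k - F h := by ring
  rw [this]
  exact hF h k hk

/-- products of bounded functionals -/
theorem Lp.mul {a b : V → ℝ} {F G : (V → ℤ) → ℝ} (hF : Lp a F) (hG : Lp b G) {A B : ℝ}
    (hA : ∀ h, |F h| ≤ A) (hB : ∀ h, |G h| ≤ B) :
    Lp (fun x => B * a x + A * b x) fun h => F h * G h := by
  intro h k hk
  have e : F k * G k - F h * G h = (F k - F h) * G k + F h * (G k - G h) := by ring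
  have h1 := hF h k hk
  have h2 := hG h k hk
  have hA0 : 0 ≤ A := (abs_nonneg _).trans (hA h)
  have hB0 : 0 ≤ B := (abs_nonneg _).trans (hB h)
  rw [e]
  refine (abs_add_le _ _).trans ?_
  rw [abs_mul, abs_mul]
  calc |F k - F h| * |G k| + |F h| * |G k - G h|
      ≤ (∑ x, a x * ((k x : ℝ) - h x)) * B + A * ∑ x, b x * ((k x : ℝ) - h x) :=
        add_le_add (mul_le_mul h1 (hB k) (abs_nonneg _) (hF.nonneg_sum hk))
          (mul_le_mul (hA h) h2 (abs_nonneg _) hA0)
    _ = _ := by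
        rw [Finset.sum_mul, Finset.mul_sum, ← Finset.sum_add_distrib]
        exact Finset.sum_congr rfl fun x _ => by ring

/-! ### expectations: absolute values -/

theorem gr_abs {F : (V → ℤ) → ℝ} (hF : Gr F) : Gr fun h => |F h| := by
  obtain ⟨A, hF⟩ := hF
  exact ⟨A, fun h => by rw [abs_abs]; exact hF h⟩

theorem gr_of_le {F G : (V → ℤ) → ℝ} (hG : Gr G) (h : ∀ h, |F h| ≤ |G h|) : Gr F := by
  obtain ⟨A, hG⟩ := hG
  exact ⟨A, fun k => (h k).trans (hG k)⟩

theorem gr_pow {F : (V → ℤ) → ℝ} (hF : Gr F) (p : ℕ) : Gr fun h => F h ^ p := by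
  induction p with
  | zero => simpa using Gr.const (V := V) 1
  | succ p ih =>
    simp only [pow_succ]
    exact ih.mul hF

theorem abs_Ex_le (hμ : EM μ) {F : (V → ℤ) → ℝ} (hF : Gr F) (J : V → ℝ) :
    |Ex μ J F| ≤ Ex μ J fun h => |F h| := by
  rw [abs_le]
  constructor
  · have h1 := Ex_mono hμ ((gr_abs hF).cmul (-1)) hF (fun h => by
      have := neg_abs_le (F h); linarith) J
    rw [Ex_cmul] at h1
    linarith
  · exact Ex_mono hμ hF (gr_abs hF) (fun h => le_abs_self _) J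

theorem Cv_sub_const_left (hμ : EM μ) {F G : (V → ℤ) → ℝ} (gF : Gr F) (gG : Gr G) (c : ℝ)
    (J : V → ℝ) : Cv μ J (fun h => F h - c) G = Cv μ J F G := by
  rw [Cv_sub_left hμ gF (Gr.const c) gG, Cv_const_left hμ, sub_zero]

theorem Cv_sub_const_right (hμ : EM μ) {F G : (V → ℤ) → ℝ} (gF : Gr F) (gG : Gr G) (c : ℝ)
    (J : V → ℝ) : Cv μ J F (fun h => G h - c) = Cv μ J F G := by
  rw [Cv_comm, Cv_sub_const_left hμ gG gF, Cv_comm]

/-- covariance bounded by a mean against the centred second factor -/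
theorem abs_Cv_le (hμ : EM μ) {F G : (V → ℤ) → ℝ} (gF : Gr F) (gG : Gr G) (J : V → ℝ) :
    |Cv μ J F G| ≤ Ex μ J fun h => |F h| * |G h - Ex μ J G| := by
  have gG' : Gr fun h => G h - Ex μ J G := gG.sub (Gr.const _)
  rw [← Cv_sub_const_right hμ gF gG (Ex μ J G) J]
  have h0 : Ex μ J (fun h => G h - Ex μ J G) = 0 := by
    rw [Ex_sub hμ gG (Gr.const _), Ex_const hμ, sub_self]
  have h1 : Cv μ J F (fun h => G h - Ex μ J G) = Ex μ J fun h => F h * (G h - Ex μ J G) := by
    unfold Cv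
    rw [h0, mul_zero, sub_zero]
  rw [h1]
  refine (abs_Ex_le hμ (gF.mul gG') J).trans (le_of_eq ?_)
  simp only [abs_mul]

/-! ### third cumulants -/

/-- the centred functional -/
noncomputable def ce (μ : (V → ℤ) → ℝ) (J : V → ℝ) (F : (V → ℤ) → ℝ) (h : V → ℤ) : ℝ :=
  F h - Ex μ J F

theorem gr_ce {F : (V → ℤ) → ℝ} (gF : Gr F) (J : V → ℝ) : Gr (ce μ J F) := gF.sub (Gr.const _)

/-- third cumulant = covariance of the centred product with the third factor -/
theorem K3_eq (hμ : EM μ) {F G H : (V → ℤ) → ℝ} (gF : Gr F) (gG : Gr G) (gH : Gr H)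
    (J : V → ℝ) : K3 μ J F G H = Cv μ J (fun h => ce μ J F h * ce μ J G h) H := by
  have e : (fun h => ce μ J F h * ce μ J G h) = fun h =>
      (F h * G h - Ex μ J F * G h) - (Ex μ J G * F h - Ex μ J F * Ex μ J G) := by
    funext h
    unfold ce
    ring
  rw [e, Cv_sub_left hμ ((gF.mul gG).sub (gG.cmul _)) ((gF.cmul _).sub (Gr.const _)) gH,
    Cv_sub_left hμ (gF.mul gG) (gG.cmul _) gH, Cv_sub_left hμ (gF.cmul _) (Gr.const _) gH,
    Cv_const_left hμ, Cv_cmul_left, Cv_cmul_left]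
  unfold K3 Cv
  ring

/-- the tail functional of the truncation at `L` -/
noncomputable def tl (μ : (V → ℤ) → ℝ) (J : V → ℝ) (L : ℝ) (F G H : (V → ℤ) → ℝ) : ℝ :=
  Ex μ J fun h => |ce μ J F h * ce μ J G h - cl L (ce μ J F h) * cl L (ce μ J G h)| *
    |ce μ J H h|

theorem gr_tl {L : ℝ} (hL : 0 ≤ L) {F G H : (V → ℤ) → ℝ} (gF : Gr F) (gG : Gr G) (gH : Gr H)
    (J : V → ℝ) : Gr fun h => |ce μ J F h * ce μ J G h - cl L (ce μ J F h) * cl L (ce μ J G h)| *
    |ce μ J H h| := by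
  refine gr_of_le (((gr_ce (μ := μ) gF J).mul (gr_ce (μ := μ) gG J)).mul
    (gr_ce (μ := μ) gH J)) fun h => ?_
  rw [abs_mul, abs_abs, abs_abs, abs_mul]
  exact mul_le_mul_of_nonneg_right (abs_mul_sub_cl hL _ _) (abs_nonneg _)

/-- **(AS4) third cumulants of linear functionals** -/
theorem K3_le (hμ : EM μ) (hL : Hol μ μ) {L : ℝ} (hL0 : 0 ≤ L) (J u v w : V → ℝ) :
    |K3 μ J (li u) (li v) (li w)| ≤
      L * (Cv μ J (li fun x => |u x|) (li fun x => |w x|) +
        Cv μ J (li fun x => |v x|) (li fun x => |w x|)) + tl μ J L (li u) (li v) (li w) := by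
  have gu := Gr.li u
  have gv := Gr.li v
  have gw := Gr.li w
  set X : (V → ℤ) → ℝ := ce μ J (li u) with hX
  set Y : (V → ℤ) → ℝ := ce μ J (li v) with hY
  have gX : Gr X := gr_ce gu J
  have gY : Gr Y := gr_ce gv J
  have gXY : Gr fun h => X h * Y h := gX.mul gY
  have gφ : Gr fun h => cl L (X h) * cl L (Y h) := by
    refine Gr.of_bdd (C := L * L) fun h => ?_
    rw [abs_mul]
    exact mul_le_mul (abs_cl_le hL0 _) (abs_cl_le hL0 _) (abs_nonneg _) hL0
  have e : Cv μ J (fun h => X h * Y h) (li w) = Cv μ J (fun h => cl L (X h) * cl L (Y h)) (li w) +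
      Cv μ J (fun h => X h * Y h - cl L (X h) * cl L (Y h)) (li w) := by
    rw [Cv_sub_left hμ gXY gφ gw]
    ring
  rw [K3_eq hμ gu gv gw, e]
  refine (abs_add_le _ _).trans (add_le_add ?_ ?_)
  · have lX : Lp (fun x => |u x|) fun h => cl L (X h) :=
      ((Lp.li u).sub_const _).comp (abs_cl_sub_le L)
    have lY : Lp (fun x => |v x|) fun h => cl L (Y h) :=
      ((Lp.li v).sub_const _).comp (abs_cl_sub_le L)
    have lP := lX.mul lY (A := L) (B := L) (fun h => abs_cl_le hL0 _) fun h => abs_cl_le hL0 _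
    refine (newman hμ hL gφ gw lP (Lp.li w) J).trans (le_of_eq ?_)
    have e2 : (li fun x => L * |u x| + L * |v x| : (V → ℤ) → ℝ) =
        fun h => L * li (fun x => |u x|) h + L * li (fun x => |v x|) h := by
      funext h
      unfold li
      rw [Finset.mul_sum, Finset.mul_sum, ← Finset.sum_add_distrib]
      exact Finset.sum_congr rfl fun x _ => by ring
    rw [e2, Cv_add_left hμ ((Gr.li _).cmul _) ((Gr.li _).cmul _) (Gr.li _), Cv_cmul_left,
      Cv_cmul_left]
    ring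
  · exact abs_Cv_le hμ (gXY.sub gφ) gw J

/-- the tail with a power -/
theorem tl_le (hμ : EM μ) {L : ℝ} (hL0 : 0 < L) {F G H : (V → ℤ) → ℝ} (gF : Gr F) (gG : Gr G)
    (gH : Gr H) (J : V → ℝ) (p : ℕ) :
    tl μ J L F G H ≤ (Ex μ J fun h => |ce μ J F h * ce μ J G h * ce μ J H h| *
      (|ce μ J F h| ^ p + |ce μ J G h| ^ p)) / L ^ p := by
  have g1 := gr_tl (μ := μ) hL0.le gF gG gH J
  have gA := gr_ce (μ := μ) gF J
  have gB := gr_ce (μ := μ) gG J
  have gC := gr_ce (μ := μ) gH J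
  have g2 : Gr fun h => (1 / L ^ p) * (|ce μ J F h * ce μ J G h * ce μ J H h| *
      (|ce μ J F h| ^ p + |ce μ J G h| ^ p)) :=
    ((gr_abs ((gA.mul gB).mul gC)).mul ((gr_pow (gr_abs gA) p).add
      (gr_pow (gr_abs gB) p))).cmul _
  unfold tl
  rw [div_eq_mul_inv, mul_comm, ← one_div, ← Ex_cmul]
  refine Ex_mono hμ g1 g2 (fun h => ?_) J
  have hp : (0 : ℝ) < L ^ p := by positivity
  by_cases h1 : |ce μ J F h| ≤ L ∧ |ce μ J G h| ≤ L
  · rw [cl_of_le h1.1, cl_of_le h1.2, sub_self, abs_zero, zero_mul]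
    positivity
  · have h2 : 1 ≤ (1 / L ^ p) * (|ce μ J F h| ^ p + |ce μ J G h| ^ p) := by
      rw [one_div, ← div_eq_inv_mul, le_div_iff₀ hp, one_mul]
      rw [not_and_or, not_le, not_le] at h1
      rcases h1 with h1 | h1
      · have := pow_le_pow_left₀ hL0.le h1.le p
        have h3 : 0 ≤ |ce μ J G h| ^ p := by positivity
        linarith
      · have := pow_le_pow_left₀ hL0.le h1.le p
        have h3 : 0 ≤ |ce μ J F h| ^ p := by positivity
        linarith
    have h3 := abs_mul_sub_cl hL0.le (ce μ J F h) (ce μ J G h)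
    calc |ce μ J F h * ce μ J G h - cl L (ce μ J F h) * cl L (ce μ J G h)| * |ce μ J H h|
        ≤ |ce μ J F h * ce μ J G h| * |ce μ J H h| := mul_le_mul_of_nonneg_right h3 (abs_nonneg _)
      _ = |ce μ J F h * ce μ J G h * ce μ J H h| * 1 := by rw [mul_one, abs_mul _ (ce μ J H h)]
      _ ≤ |ce μ J F h * ce μ J G h * ce μ J H h| *
          ((1 / L ^ p) * (|ce μ J F h| ^ p + |ce μ J G h| ^ p)) :=
          mul_le_mul_of_nonneg_left h2 (abs_nonneg _)
      _ = _ := by ring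

/-! ### dependence on the source -/

theorem Ex_diff (hμ : EM μ) {F : (V → ℤ) → ℝ} (gF : Gr F) (J v : V → ℝ) {B : ℝ}
    (hB : ∀ s : ℝ, 0 ≤ s → s ≤ 1 → |Cv μ (J + s • v) F (li v)| ≤ B) :
    |Ex μ (J + v) F - Ex μ J F| ≤ B := by
  have h := (convex_Icc (0 : ℝ) 1).norm_image_sub_le_of_norm_hasDerivWithin_le
    (f := fun s : ℝ => Ex μ (J + s • v) F) (f' := fun s => Cv μ (J + s • v) F (li v)) (C := B)
    (fun s hs => (hasDerivAt_Ex hμ gF J v s).hasDerivWithinAt)
    (fun s hs => by rw [Real.norm_eq_abs]; exact hB s hs.1 hs.2)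
    (Set.left_mem_Icc.2 zero_le_one) (Set.right_mem_Icc.2 zero_le_one)
  simpa using h

theorem Cv_diff (hμ : EM μ) {F G : (V → ℤ) → ℝ} (gF : Gr F) (gG : Gr G) (J v : V → ℝ) {B : ℝ}
    (hB : ∀ s : ℝ, 0 ≤ s → s ≤ 1 → |K3 μ (J + s • v) F G (li v)| ≤ B) :
    |Cv μ (J + v) F G - Cv μ J F G| ≤ B := by
  have h := (convex_Icc (0 : ℝ) 1).norm_image_sub_le_of_norm_hasDerivWithin_le
    (f := fun s : ℝ => Cv μ (J + s • v) F G) (f' := fun s => K3 μ (J + s • v) F G (li v)) (C := B)
    (fun s hs => (hasDerivAt_Cv hμ gF gG J v s).hasDerivWithinAt)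
    (fun s hs => by rw [Real.norm_eq_abs]; exact hB s hs.1 hs.2)
    (Set.left_mem_Icc.2 zero_le_one) (Set.right_mem_Icc.2 zero_le_one)
  simpa using h

end Vale.Agent.P159.H159
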