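import Vale.Agent.P159.H159.StepE
import Vale.Agent.P159.H972.StepG

/-!
P159 (helper159): STEP_D per block, in general letters (`d0_core`): priors `a < 4 a`, `N = nb m l`,
block side `m l`, `1 ≤ T (m l)²`.
-/

set_option linter.unusedSectionVars false

namespace Vale.Agent.P159.H159

open Finset Matrix MeasureTheory
open Vale.Agent.P159.H37
open Vale.Agent.P159.TM.Spec (V)
open Vale.Agent.P159.H447 (K4S SN)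
open Vale.Agent.P159.H963 (nwt)
open Vale.Agent.P159.H239 (Blk dNm dl1 dl2)

noncomputable section

/-- size of `dl1` -/
lemma dl1_le {l nb m K : ℕ} {T δ₀ δ₁ : ℝ} (hT : 0 < T) (h0 : 0 ≤ δ₀) (h1 : 0 ≤ δ₁)
    (hnb : 1 ≤ nb) (hξ : T * ((m : ℝ) * l) ^ 2 ≤ 4) :
    dl1 l nb m K T δ₀ δ₁ ≤ 300 * (T * δ₀ * (2 * K + 1) ^ 4 + T * δ₁ * nb ^ 4) := by
  have e1 : dl1 l nb m K T δ₀ δ₁ = (T * ((m : ℝ) * l) ^ 2) * T *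
      (2 * δ₀ * ((2 * K + 1) ^ 2 * (3 * K ^ 2 + 32)) + δ₁ * (nb ^ 2 * (3 * nb ^ 2 + 32))) := by
    unfold dl1
    ring
  have hK : (0 : ℝ) ≤ K := Nat.cast_nonneg K
  have hn : (1 : ℝ) ≤ nb := by exact_mod_cast hnb
  have a1 : (3 * (K : ℝ) ^ 2 + 32) ≤ 35 * (2 * K + 1) ^ 2 := by nlinarith
  have a2 : (3 * (nb : ℝ) ^ 2 + 32) ≤ 35 * nb ^ 2 := by nlinarith
  have a3 : 2 * δ₀ * ((2 * (K : ℝ) + 1) ^ 2 * (3 * K ^ 2 + 32)) +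
      δ₁ * ((nb : ℝ) ^ 2 * (3 * nb ^ 2 + 32)) ≤
      70 * δ₀ * (2 * K + 1) ^ 4 + 35 * δ₁ * nb ^ 4 := by
    have b1 : 2 * δ₀ * ((2 * (K : ℝ) + 1) ^ 2 * (3 * K ^ 2 + 32)) ≤
        2 * δ₀ * ((2 * K + 1) ^ 2 * (35 * (2 * K + 1) ^ 2)) := by gcongr
    have b2 : δ₁ * ((nb : ℝ) ^ 2 * (3 * nb ^ 2 + 32)) ≤
        δ₁ * ((nb : ℝ) ^ 2 * (35 * nb ^ 2)) := by gcongr
    have b3 : 2 * δ₀ * ((2 * (K : ℝ) + 1) ^ 2 * (35 * (2 * K + 1) ^ 2)) =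
        70 * δ₀ * (2 * K + 1) ^ 4 := by ring
    have b4 : δ₁ * ((nb : ℝ) ^ 2 * (35 * nb ^ 2)) = 35 * δ₁ * nb ^ 4 := by ring
    linarith
  have a4 : 0 ≤ 2 * δ₀ * ((2 * (K : ℝ) + 1) ^ 2 * (3 * K ^ 2 + 32)) +
      δ₁ * ((nb : ℝ) ^ 2 * (3 * nb ^ 2 + 32)) := by positivity
  rw [e1]
  calc (T * ((m : ℝ) * l) ^ 2) * T * (2 * δ₀ * ((2 * K + 1) ^ 2 * (3 * K ^ 2 + 32)) +
        δ₁ * (nb ^ 2 * (3 * nb ^ 2 + 32)))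
      ≤ 4 * T * (70 * δ₀ * (2 * K + 1) ^ 4 + 35 * δ₁ * nb ^ 4) := by gcongr
    _ = 280 * (T * δ₀ * (2 * K + 1) ^ 4) + 140 * (T * δ₁ * nb ^ 4) := by ring
    _ ≤ _ := by
        have c1 : 0 ≤ T * δ₀ * (2 * (K : ℝ) + 1) ^ 4 := by positivity
        have c2 : 0 ≤ T * δ₁ * (nb : ℝ) ^ 4 := by positivity
        linarith

/-- size of `dl2` -/
lemma dl2_le {N l nb m K : ℕ} {T δt δf : ℝ} (ht : 0 ≤ δt) (hf : 0 ≤ δf)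
    (hnb : 1 ≤ nb) (hN : (N : ℝ) = nb * (m * l)) (hξ0 : 1 ≤ T * ((m : ℝ) * l) ^ 2)
    (hml : (0 : ℝ) < (m : ℝ) * l) :
    dl2 nb K δt δf / (N : ℝ) ^ 2 ≤ 2 * (T * δt * (2 * K + 1) ^ 2 + T * δf * nb ^ 2) := by
  have hn : (1 : ℝ) ≤ nb := by exact_mod_cast hnb
  have hn0 : (0 : ℝ) < nb := by linarith
  have hN0 : (0 : ℝ) < (N : ℝ) ^ 2 := by rw [hN]; positivity
  rw [div_le_iff₀ hN0]
  unfold dl2
  have e1 : 2 * (T * δt * (2 * K + 1) ^ 2 + T * δf * nb ^ 2) * (N : ℝ) ^ 2 =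
      (T * ((m : ℝ) * l) ^ 2) * (2 * ((nb : ℝ) ^ 2 * (2 * K + 1) ^ 2 * δt + nb ^ 4 * δf)) := by
    rw [hN]; ring
  rw [e1]
  have e2 : 2 * ((nb : ℝ) ^ 2 * (2 * K + 1) ^ 2 * δt + (nb : ℝ) ^ 4 * (δf / 4)) ≤
      2 * ((nb : ℝ) ^ 2 * (2 * K + 1) ^ 2 * δt + nb ^ 4 * δf) := by
    have : (nb : ℝ) ^ 4 * (δf / 4) ≤ nb ^ 4 * δf :=
      mul_le_mul_of_nonneg_left (by linarith) (by positivity)
    linarith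
  refine e2.trans (le_mul_of_one_le_left (by positivity) hξ0)

/-- **STEP_D per block** -/
theorem d0_core {b : ℝ} (hb : 0 < b) (hh : 0 < helicity b) (hs : 1 / helicity b < 5 / 2) :
    ∃ C e t1 : ℝ, 1 ≤ C ∧ 0 < e ∧ 0 < t1 ∧
    ∀ (N l ρ nb m K : ℕ) [NeZero N] [NeZero (N / l)] [NeZero nb] [NeZero m],
    ∀ T a δ₀ δ₁ δt δf : ℝ, SN' N l ρ nb m K b T a (4 * a) δ₀ δ₁ δt δf → T ≤ t1 →
      9 ≤ T * (N : ℝ) ^ 2 → T * (ρ : ℝ) ^ 2 ≤ 1 → 1 ≤ T * ((m : ℝ) * l) ^ 2 →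
      T * ((m : ℝ) * l) ^ 2 ≤ 4 →
      C / a * √(T * (N : ℝ) ^ 2) * (T * (l : ℝ) ^ 2) ^ e ≤ (ρ : ℝ) ^ 2 →
      ∃ τ ∈ Set.Ioo a (4 * a),
        1 / 2 * τ ^ 2 * (a⁻¹ / (N : ℝ) ^ 2) * K4S (nwt N b τ 0) (SN N l) (SN N l) ≤
        C * ((T * δ₀ * (2 * K + 1) ^ 4 + T * δ₁ * nb ^ 4) * (1 + Real.log (T / a)) +
          (T * δt * (2 * K + 1) ^ 2 + T * δf * nb ^ 2) +
          (T / a) ^ 2 * ((m * l) / (N : ℝ)) ^ 2 * (T * ∑ k ∈ smo N l ρ, Vk N l b T a T k) +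
          1 / ((ρ : ℝ) ^ 2 * a) * √(T * (N : ℝ) ^ 2) * (T * (l : ℝ) ^ 2) ^ e +
          (T * (ρ : ℝ) ^ 2) ^ e) := by
  obtain ⟨C, e, t1, hC, he, ht1, hD⟩ := step_E hb hh hs
  refine ⟨1600 * C, e, t1, by linarith, he, ht1, ?_⟩
  intro N l ρ nb m K _ _ _ _ T a δ₀ δ₁ δt δf h hTt h9 hρ hξ0 hξ4 hsm
  have ha := h.ha
  have hT : 0 < T := ha.trans (h.hac.trans_le h.hc)
  have haT : a ≤ T := h.hac.le.trans h.hc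
  have hNp : (0 : ℝ) < N := by exact_mod_cast NeZero.pos N
  have hlp : (0 : ℝ) < l := by exact_mod_cast H864.l_pos h.hl
  have hmp : (0 : ℝ) < m := by exact_mod_cast NeZero.pos m
  have hnb : 1 ≤ nb := NeZero.pos nb
  have hρ0 : (0 : ℝ) < ρ := by
    exact_mod_cast Nat.pos_of_dvd_of_pos h.hρ (NeZero.pos N)
  have hml : (0 : ℝ) < (m : ℝ) * l := by positivity
  have hN : (N : ℝ) = nb * (m * l) := by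
    have h1 := H864.Nl (N := N) h.hl
    rw [h.hn] at h1
    push_cast at h1
    rw [← h1]
    ring
  have hsm' : C / a * √(T * (N : ℝ) ^ 2) * (T * (l : ℝ) ^ 2) ^ e ≤ (ρ : ℝ) ^ 2 := by
    refine le_trans ?_ hsm
    have : C / a ≤ 1600 * C / a := by
      apply div_le_div_of_nonneg_right _ ha.le
      linarith
    gcongr
  obtain ⟨τ, hτ, hK⟩ := hD N l ρ nb m K T a (4 * a) δ₀ δ₁ δt δf h hTt h9 hρ hsm'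
  refine ⟨τ, hτ, ?_⟩
  have hτ0 : 0 < τ := ha.trans hτ.1
  have hTa : 1 ≤ T / a := (one_le_div ha).2 haT
  have hlog : 0 ≤ Real.log (T / a) := Real.log_nonneg hTa
  have hd1 := dl1_le (l := l) (nb := nb) (m := m) (K := K) hT h.blk.d0 h.blk.d1 hnb hξ4
  have hd2 := dl2_le (N := N) (l := l) (nb := nb) (m := m) (K := K) (T := T) h.blk.dt h.blk.df
    hnb hN hξ0 hml
  have hV : 0 ≤ ∑ k ∈ smo N l ρ, Vk N l b T a T k :=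
    Finset.sum_nonneg fun k _ => Vk_nonneg hb.le h.hl ha haT le_rfl k
  obtain ⟨V', hV'⟩ : ∃ V' : ℝ, V' = ∑ k ∈ smo N l ρ, Vk N l b T a T k := ⟨_, rfl⟩
  obtain ⟨D1, hD1⟩ : ∃ D1 : ℝ, D1 = dl1 l nb m K T δ₀ δ₁ := ⟨_, rfl⟩
  obtain ⟨D2, hD2⟩ : ∃ D2 : ℝ, D2 = dl2 nb K δt δf := ⟨_, rfl⟩
  obtain ⟨K4, hK4⟩ : ∃ K4 : ℝ, K4 = K4S (nwt N b τ 0) (SN N l) (SN N l) := ⟨_, rfl⟩
  obtain ⟨Lo, hLo⟩ : ∃ Lo : ℝ, Lo = 1 + Real.log (T / a) := ⟨_, rfl⟩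
  have hLo0 : 0 ≤ Lo := by rw [hLo]; linarith
  obtain ⟨F, hF⟩ : ∃ F : ℝ, F = √(T * (N : ℝ) ^ 2) * (T * (l : ℝ) ^ 2) ^ e := ⟨_, rfl⟩
  have hF0 : 0 ≤ F := by rw [hF]; positivity
  obtain ⟨G, hG⟩ : ∃ G : ℝ, G = (T * (ρ : ℝ) ^ 2) ^ e := ⟨_, rfl⟩
  have hG0 : 0 ≤ G := by rw [hG]; positivity
  rw [← hV'] at hV
  rw [← hD1] at hd1
  rw [← hD2] at hd2
  rw [← hV', ← hD1, ← hD2, ← hK4, ← hLo, ← hG,
    show 1 / a * √(T * (N : ℝ) ^ 2) * (T * (l : ℝ) ^ 2) ^ e = 1 / a * F by rw [hF]; ring] at hK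
  rw [← hV', ← hK4, ← hLo, ← hG, show 1 / ((ρ : ℝ) ^ 2 * a) * √(T * (N : ℝ) ^ 2) *
    (T * (l : ℝ) ^ 2) ^ e = 1 / ((ρ : ℝ) ^ 2 * a) * F by rw [hF]; ring]
  -- the prefactor
  have hpre : τ ^ 2 * (a⁻¹ / (N : ℝ) ^ 2) ≤ 16 * a / (N : ℝ) ^ 2 := by
    have h1 : τ ^ 2 ≤ (4 * a) ^ 2 := pow_le_pow_left₀ hτ0.le hτ.2.le 2
    calc τ ^ 2 * (a⁻¹ / (N : ℝ) ^ 2) ≤ (4 * a) ^ 2 * (a⁻¹ / (N : ℝ) ^ 2) := by gcongr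
      _ = _ := by field_simp; ring
  have hca : (4 * a - a)⁻¹ = 1 / (3 * a) := by
    rw [show 4 * a - a = 3 * a by ring, one_div]
  rw [hca] at hK
  obtain ⟨U, hU⟩ : ∃ U : ℝ, U = D1 * (N : ℝ) ^ 2 * Lo + D2 + (T / a) ^ 2 * V' +
    ((N : ℝ) / ρ) ^ 2 * (1 / a * F) + (N : ℝ) ^ 2 * G := ⟨_, rfl⟩
  rw [← hU] at hK
  have hD10 : 0 ≤ D1 := by
    rw [hD1]
    have e1 := h.blk.d0
    have e2 := h.blk.d1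
    unfold dl1
    positivity
  have hD20 : 0 ≤ D2 := by
    rw [hD2]
    have e1 := h.blk.dt
    have e2 := h.blk.df
    unfold dl2
    positivity
  have hU0 : 0 ≤ U := by rw [hU]; positivity
  have hstep : 1 / 2 * τ ^ 2 * (a⁻¹ / (N : ℝ) ^ 2) * K4 ≤ 16 / 3 * C * (U / (N : ℝ) ^ 2) := by
    calc 1 / 2 * τ ^ 2 * (a⁻¹ / (N : ℝ) ^ 2) * K4 = τ ^ 2 * (a⁻¹ / (N : ℝ) ^ 2) * (1 / 2 * K4) := by
          ring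
      _ ≤ τ ^ 2 * (a⁻¹ / (N : ℝ) ^ 2) * (C * (1 / (3 * a)) * U) :=
          mul_le_mul_of_nonneg_left hK (by positivity)
      _ ≤ 16 * a / (N : ℝ) ^ 2 * (C * (1 / (3 * a)) * U) :=
          mul_le_mul_of_nonneg_right hpre (by positivity)
      _ = _ := by field_simp
  refine hstep.trans ?_
  have hUN : U / (N : ℝ) ^ 2 = D1 * Lo + D2 / (N : ℝ) ^ 2 +
      (T / a) ^ 2 * (V' / (N : ℝ) ^ 2) + 1 / ((ρ : ℝ) ^ 2 * a) * F + G := by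
    rw [hU]
    field_simp
  have hVN : V' / (N : ℝ) ^ 2 ≤ ((m * l) / (N : ℝ)) ^ 2 * (T * V') := by
    rw [div_pow, div_mul_eq_mul_div]
    refine div_le_div_of_nonneg_right ?_ (by positivity)
    calc V' = 1 * V' := (one_mul _).symm
      _ ≤ T * ((m : ℝ) * l) ^ 2 * V' := mul_le_mul_of_nonneg_right hξ0 hV
      _ = _ := by ring
  obtain ⟨d1, hd1'⟩ : ∃ d1 : ℝ, d1 = T * δ₀ * (2 * K + 1) ^ 4 + T * δ₁ * nb ^ 4 := ⟨_, rfl⟩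
  obtain ⟨d2, hd2'⟩ : ∃ d2 : ℝ, d2 = T * δt * (2 * K + 1) ^ 2 + T * δf * nb ^ 2 := ⟨_, rfl⟩
  rw [← hd1'] at hd1 ⊢
  rw [← hd2'] at hd2 ⊢
  have hd20 : 0 ≤ d2 := by
    have : 0 ≤ D2 / (N : ℝ) ^ 2 := by positivity
    linarith
  obtain ⟨W, hW⟩ : ∃ W : ℝ, W = (T / a) ^ 2 * ((m * l) / (N : ℝ)) ^ 2 * (T * V') := ⟨_, rfl⟩
  have hW0 : 0 ≤ W := by rw [hW]; positivity
  have hVW : (T / a) ^ 2 * (V' / (N : ℝ) ^ 2) ≤ W := by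
    rw [hW, mul_assoc]
    exact mul_le_mul_of_nonneg_left hVN (by positivity)
  rw [← hW]
  have hf0 : 0 ≤ 1 / ((ρ : ℝ) ^ 2 * a) * F := by positivity
  obtain ⟨f, hf⟩ : ∃ f : ℝ, f = 1 / ((ρ : ℝ) ^ 2 * a) * F := ⟨_, rfl⟩
  rw [← hf] at hf0 hUN ⊢
  have hdd : D1 * Lo ≤ 300 * (d1 * Lo) := by
    calc D1 * Lo ≤ 300 * d1 * Lo := mul_le_mul_of_nonneg_right hd1 hLo0
      _ = _ := by ring
  have hd1Lo : 0 ≤ d1 * Lo := by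
    have : 0 ≤ D1 * Lo := by positivity
    linarith
  have hfin : U / (N : ℝ) ^ 2 ≤ 300 * (d1 * Lo + d2 + W + f + G) := by
    rw [hUN]
    linarith
  calc 16 / 3 * C * (U / (N : ℝ) ^ 2) ≤ 16 / 3 * C * (300 * (d1 * Lo + d2 + W + f + G)) :=
        mul_le_mul_of_nonneg_left hfin (by positivity)
    _ = 1600 * C * (d1 * Lo + d2 + W + f + G) := by ring

end

end Vale.Agent.P159.H159
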