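import Vale.Agent.P159.H159.D0C

/-!
P159 (helper159): **D0Step in the letters of `Good`** (helper972). `D0In` = the inputs (near / far
control `Blk` and the numbers); the scale `ρ = 2 ^ (n - lg (1/e) ε)` and all fine terms are chosen
and estimated here.
-/

set_option linter.unusedSectionVars false

namespace Vale.Agent.P159.H159

open Finset Matrix MeasureTheory
open Vale.Agent.P159.H37
open Vale.Agent.P159.TM.Spec (V)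
open Vale.Agent.P159.H447 (K4S SN)
open Vale.Agent.P159.H963 (nwt)
open Vale.Agent.P159.H239 (Blk dNm)
open Vale.Agent.P159.H972 (Par lg tn DN en)

noncomputable section

/-- the inputs of `D0Step` at the levels `n < m`: near and far control of the difference of the
mean posterior covariances for the priors `t_m`, `4 t_m`, on the torus `2 ^ r` with the cells
`2 ^ s`, and the numbers; `q` = the target, `κ` = a small constant -/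
def D0I (b κ q : ℝ) (n m r s : ℕ) : Prop :=
  ∀ _ : NeZero (2 ^ r / 2 ^ s),
    ∃ (T : ℝ) (K : ℕ) (δ₀ δ₁ δt δf : ℝ), tn n ≤ T ∧ T ≤ 4 * tn n ∧
      Blk (2 ^ (r - n)) (2 ^ (n - s)) K (dNm (2 ^ r) (2 ^ s) b T (tn m) (4 * tn m)) δ₀ δ₁ δt δf ∧
      T * δ₀ * (2 * K + 1) ^ 4 * (m - n + 1 : ℕ) ≤ κ * q ∧
      T * δ₁ * (2 ^ (r - n)) ^ 4 * (m - n + 1 : ℕ) ≤ κ * q ∧
      T * δt * (2 * K + 1) ^ 2 ≤ κ * q ∧
      T * δf * (2 ^ (r - n)) ^ 2 ≤ κ * q ∧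
      ∀ S : Finset (V (2 ^ r / 2 ^ s)), 16 ^ (m - n) * (2 ^ n / 2 ^ r) ^ 2 *
        (T * ∑ k ∈ S, Vk (2 ^ r) (2 ^ s) b T (tn m) T k) ≤ κ * q

/-- the inputs of `D0Step` in the letters of `Good`: torus `2 ^ (m + kE ε + 1)`, cells of the
level `n` -/
def D0In (P : Par) (b κ q : ℝ) (n m : ℕ) (ε : ℝ) : Prop :=
  D0I b κ q n m (m + P.kE ε + 1) (P.sE n ε)

lemma lg_add3 {c C0 ε : ℝ} (h : c + 3 ≤ C0) (hc : 0 ≤ c) (hε : 0 < ε) (h2 : ε ≤ 1 / 2) :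
    lg c ε + 3 ≤ lg C0 ε := by
  have hL := H972.one_le_logb hε h2
  unfold lg
  have h1 : (c + 3) * Real.logb 2 (1 / ε) ≤ C0 * Real.logb 2 (1 / ε) := by gcongr
  have h3 : ⌈c * Real.logb 2 (1 / ε) + (3 : ℕ)⌉₊ ≤ ⌈C0 * Real.logb 2 (1 / ε)⌉₊ := by
    apply Nat.ceil_mono
    push_cast
    nlinarith
  rwa [Nat.ceil_add_natCast (by positivity)] at h3

/-- `2 ^ lg c ε` is at least `ε ^ (-c)` -/
lemma two_lg_ge {c ε : ℝ} (hε : 0 < ε) : ε ^ (-c) ≤ 2 ^ (lg c ε) := by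
  have h1 : c * Real.logb 2 (1 / ε) ≤ (lg c ε : ℝ) := Nat.le_ceil _
  have h2 : (2 : ℝ) ^ (c * Real.logb 2 (1 / ε)) = ε ^ (-c) := by
    rw [mul_comm, Real.rpow_mul (by norm_num), Real.rpow_logb (by norm_num) (by norm_num)
      (by positivity), one_div, Real.inv_rpow hε.le, Real.rpow_neg hε.le]
  rw [← h2, ← Real.rpow_natCast]
  exact Real.rpow_le_rpow_of_exponent_le (by norm_num) h1

/-- `2 ^ lg c ε` is at most `2 ε ^ (-c)` -/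
lemma two_lg_le {c ε : ℝ} (hc : 0 ≤ c) (hε : 0 < ε) (h1 : ε ≤ 1) :
    (2 : ℝ) ^ (lg c ε) ≤ 2 * ε ^ (-c) := by
  have hL : 0 ≤ Real.logb 2 (1 / ε) :=
    Real.logb_nonneg one_lt_two ((le_div_iff₀ hε).2 (by linarith))
  have h3 : (lg c ε : ℝ) ≤ c * Real.logb 2 (1 / ε) + 1 :=
    (Nat.ceil_lt_add_one (by positivity)).le
  have h2 : (2 : ℝ) ^ (c * Real.logb 2 (1 / ε)) = ε ^ (-c) := by
    rw [mul_comm, Real.rpow_mul (by norm_num), Real.rpow_logb (by norm_num) (by norm_num)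
      (by positivity), one_div, Real.inv_rpow hε.le, Real.rpow_neg hε.le]
  rw [← Real.rpow_natCast]
  calc (2 : ℝ) ^ ((lg c ε : ℕ) : ℝ) ≤ 2 ^ (c * Real.logb 2 (1 / ε) + 1) :=
        Real.rpow_le_rpow_of_exponent_le (by norm_num) h3
    _ = _ := by rw [Real.rpow_add (by norm_num), h2, Real.rpow_one, mul_comm]

lemma tn_eq' (n : ℕ) : tn n = ((2 : ℝ) ^ n)⁻¹ ^ 2 := by
  unfold tn
  rw [inv_pow, ← pow_mul, mul_comm, pow_mul]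
  norm_num

lemma tn_pos (n : ℕ) : 0 < tn n := by
  unfold tn
  positivity

/-- `T / t_m` -/
lemma tn_ratio {n m : ℕ} (h : n ≤ m) : tn n / tn m = 4 ^ (m - n) := by
  unfold tn
  obtain ⟨k, rfl⟩ := Nat.exists_eq_add_of_le h
  rw [Nat.add_sub_cancel_left, pow_add]
  field_simp

/-- scalar: the fine terms -/
lemma fine_num {C e κ : ℝ} (hC : 1 ≤ C) (he : 0 < e) (hκ : 0 < κ) : ∃ C00 E0 : ℝ, 0 < C00 ∧
    0 < E0 ∧ E0 ≤ 1 / 2 ∧ 1 / e + 3 ≤ C00 ∧ ∀ C0 thp th ε : ℝ, C00 ≤ C0 → 0 ≤ thp → thp ≤ 1 →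
      0 ≤ th → th ≤ 1 → 0 < ε → ε ≤ E0 →
      C * (2 : ℝ) ^ (3 * (4 * lg thp ε)) * 2 ^ (2 + lg th ε) * 2 ^ (2 * lg (1 / e) ε) *
        (4 * ((2 : ℝ) ^ (lg C0 ε))⁻¹ ^ 2) ^ e ≤ min 1 (κ * (ε / 8)) ∧
      (4 * ((2 : ℝ) ^ (lg (1 / e) ε))⁻¹ ^ 2) ^ e ≤ κ * (ε / 8) ∧
      4 * ((2 : ℝ) ^ (lg (1 / e) ε))⁻¹ ^ 2 ≤ 1 := by
  have h4e : (0 : ℝ) < 4 ^ e := by positivity
  obtain ⟨Q, hQ⟩ : ∃ Q : ℝ, Q = C * 2 ^ 17 * 4 ^ e := ⟨_, rfl⟩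
  have hQ0 : 0 < Q := by rw [hQ]; positivity
  have hQ4 : (4 : ℝ) ^ e ≤ Q := by
    rw [hQ]
    exact le_mul_of_one_le_left h4e.le (by linarith)
  have hie : 0 < 1 / e := by positivity
  refine ⟨max (1 / e + 3) ((15 + 2 * (1 / e)) / (2 * e)),
    min (1 / 2) (min (1 / Q) (κ / 8 / Q)), by positivity, by positivity, min_le_left _ _,
    le_max_left _ _, ?_⟩
  intro C0 thp th ε hC0 ht0 ht1 hk0 hk1 hε hεE
  have hε2 : ε ≤ 1 / 2 := hεE.trans (min_le_left _ _)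
  have hε1 : ε ≤ 1 := by linarith
  have hεQ : Q * ε ≤ 1 := by
    have := hεE.trans ((min_le_right _ _).trans (min_le_left _ _))
    rw [le_div_iff₀ hQ0] at this
    linarith
  have hεκ : Q * ε ≤ κ / 8 := by
    have := hεE.trans ((min_le_right _ _).trans (min_le_right _ _))
    rw [le_div_iff₀ hQ0] at this
    linarith
  have hC0' : 15 + 2 * (1 / e) ≤ 2 * e * C0 := by
    have := (le_max_right (1 / e + 3) ((15 + 2 * (1 / e)) / (2 * e))).trans hC0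
    rw [div_le_iff₀ (by positivity)] at this
    linarith
  have hC00 : 0 ≤ C0 := by
    have := (le_max_left (1 / e + 3) ((15 + 2 * (1 / e)) / (2 * e))).trans hC0
    linarith
  have g1 : (2 : ℝ) ^ (lg thp ε) ≤ 2 * ε ^ (-(1 : ℝ)) :=
    (two_lg_le ht0 hε hε1).trans (mul_le_mul_of_nonneg_left
      (Real.rpow_le_rpow_of_exponent_ge hε hε1 (by linarith)) (by norm_num))
  have g2 : (2 : ℝ) ^ (lg th ε) ≤ 2 * ε ^ (-(1 : ℝ)) :=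
    (two_lg_le hk0 hε hε1).trans (mul_le_mul_of_nonneg_left
      (Real.rpow_le_rpow_of_exponent_ge hε hε1 (by linarith)) (by norm_num))
  have g3 : (2 : ℝ) ^ (lg (1 / e) ε) ≤ 2 * ε ^ (-(1 / e)) := two_lg_le hie.le hε hε1
  have g4 : ((2 : ℝ) ^ (lg C0 ε))⁻¹ ≤ ε ^ C0 := by
    have h1 := inv_anti₀ (by positivity) (two_lg_ge (c := C0) hε)
    rwa [Real.rpow_neg hε.le, inv_inv] at h1
  have g5 : ((2 : ℝ) ^ (lg (1 / e) ε))⁻¹ ≤ ε ^ (1 / e) := by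
    have h1 := inv_anti₀ (by positivity) (two_lg_ge (c := 1 / e) hε)
    rwa [Real.rpow_neg hε.le, inv_inv] at h1
  have k4 : (4 * ((2 : ℝ) ^ (lg C0 ε))⁻¹ ^ 2) ^ e ≤ 4 ^ e * ε ^ (2 * e * C0) := by
    calc (4 * ((2 : ℝ) ^ (lg C0 ε))⁻¹ ^ 2) ^ e ≤ (4 * (ε ^ C0) ^ 2) ^ e := by gcongr
      _ = _ := by
        rw [Real.mul_rpow (by norm_num) (by positivity), ← Real.rpow_natCast, ← Real.rpow_mul
          hε.le, ← Real.rpow_mul hε.le]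
        congr 2
        push_cast
        ring
  have k5 : (4 * ((2 : ℝ) ^ (lg (1 / e) ε))⁻¹ ^ 2) ^ e ≤ 4 ^ e * ε ^ (2 : ℝ) := by
    calc (4 * ((2 : ℝ) ^ (lg (1 / e) ε))⁻¹ ^ 2) ^ e ≤ (4 * (ε ^ (1 / e)) ^ 2) ^ e := by gcongr
      _ = _ := by
        rw [Real.mul_rpow (by norm_num) (by positivity), ← Real.rpow_natCast, ← Real.rpow_mul
          hε.le, ← Real.rpow_mul hε.le]
        congr 2
        push_cast
        field_simp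
  have h2 : ε ^ (2 : ℝ) = ε * ε := by
    rw [Real.rpow_two, pow_two]
  refine ⟨?_, ?_, ?_⟩
  · have p1 : (2 : ℝ) ^ (3 * (4 * lg thp ε)) ≤ 2 ^ 12 * ε ^ (-(12 : ℝ)) := by
      have e1 : (2 : ℝ) ^ (3 * (4 * lg thp ε)) = (2 ^ (lg thp ε)) ^ 12 := by
        rw [← pow_mul]
        congr 1
        ring
      rw [e1]
      calc ((2 : ℝ) ^ (lg thp ε)) ^ 12 ≤ (2 * ε ^ (-(1 : ℝ))) ^ 12 := by gcongr
        _ = _ := by
          rw [mul_pow, ← Real.rpow_natCast (ε ^ (-(1 : ℝ))), ← Real.rpow_mul hε.le]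
          norm_num
    have p2 : (2 : ℝ) ^ (2 + lg th ε) ≤ 8 * ε ^ (-(1 : ℝ)) := by
      rw [pow_add]
      linarith
    have p3 : (2 : ℝ) ^ (2 * lg (1 / e) ε) ≤ 4 * ε ^ (-(2 * (1 / e))) := by
      have e1 : (2 : ℝ) ^ (2 * lg (1 / e) ε) = (2 ^ (lg (1 / e) ε)) ^ 2 := by
        rw [← pow_mul]
        congr 1
        ring
      rw [e1]
      calc ((2 : ℝ) ^ (lg (1 / e) ε)) ^ 2 ≤ (2 * ε ^ (-(1 / e))) ^ 2 := by gcongr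
        _ = _ := by
          rw [mul_pow, ← Real.rpow_natCast (ε ^ (-(1 / e))), ← Real.rpow_mul hε.le]
          norm_num
          ring_nf
    have hexp : ε ^ (-(12 : ℝ)) * ε ^ (-(1 : ℝ)) * ε ^ (-(2 * (1 / e))) * ε ^ (2 * e * C0) ≤
        ε * ε := by
      rw [← h2, ← Real.rpow_add hε, ← Real.rpow_add hε, ← Real.rpow_add hε]
      exact Real.rpow_le_rpow_of_exponent_ge hε hε1 (by linarith)
    have hall : C * (2 : ℝ) ^ (3 * (4 * lg thp ε)) * 2 ^ (2 + lg th ε) * 2 ^ (2 * lg (1 / e) ε) *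
        (4 * ((2 : ℝ) ^ (lg C0 ε))⁻¹ ^ 2) ^ e ≤ Q * (ε * ε) := by
      calc C * (2 : ℝ) ^ (3 * (4 * lg thp ε)) * 2 ^ (2 + lg th ε) * 2 ^ (2 * lg (1 / e) ε) *
            (4 * ((2 : ℝ) ^ (lg C0 ε))⁻¹ ^ 2) ^ e
          ≤ C * (2 ^ 12 * ε ^ (-(12 : ℝ))) * (8 * ε ^ (-(1 : ℝ))) * (4 * ε ^ (-(2 * (1 / e)))) *
            (4 ^ e * ε ^ (2 * e * C0)) := by gcongr
        _ = C * 2 ^ 17 * 4 ^ e * (ε ^ (-(12 : ℝ)) * ε ^ (-(1 : ℝ)) * ε ^ (-(2 * (1 / e))) *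
            ε ^ (2 * e * C0)) := by ring
        _ ≤ C * 2 ^ 17 * 4 ^ e * (ε * ε) := by gcongr
        _ = _ := by rw [hQ]
    refine hall.trans (le_min ?_ ?_)
    · calc Q * (ε * ε) = (Q * ε) * ε := by ring
        _ ≤ 1 * 1 := mul_le_mul hεQ hε1 hε.le zero_le_one
        _ = 1 := one_mul 1
    · calc Q * (ε * ε) = (Q * ε) * ε := by ring
        _ ≤ κ / 8 * ε := mul_le_mul_of_nonneg_right hεκ hε.le
        _ = _ := by ring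
  · refine k5.trans ?_
    rw [h2]
    calc (4 : ℝ) ^ e * (ε * ε) ≤ Q * (ε * ε) := by gcongr
      _ = (Q * ε) * ε := by ring
      _ ≤ κ / 8 * ε := mul_le_mul_of_nonneg_right hεκ hε.le
      _ = _ := by ring
  · have h1 : 1 ≤ lg (1 / e) ε := H972.one_le_lg hie hε hε2
    have h3 : (2 : ℝ) ^ 1 ≤ 2 ^ (lg (1 / e) ε) := pow_le_pow_right₀ (by norm_num) h1
    have h5 : ((2 : ℝ) ^ (lg (1 / e) ε))⁻¹ ≤ 2⁻¹ := inv_anti₀ (by norm_num) (by simpa using h3)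
    have h6 : ((2 : ℝ) ^ (lg (1 / e) ε))⁻¹ ^ 2 ≤ 2⁻¹ ^ 2 := pow_le_pow_left₀ (by positivity) h5 2
    norm_num at h6 ⊢
    linarith

/-- scalar: the sum of the five terms -/
lemma d0_sum {C κ q A1 A2 B1 B2 L x Vt S f G R : ℝ} (hC : 1 ≤ C) (hκ : κ = 1 / (26 * C))
    (hq : 0 ≤ q) (hx : 0 ≤ x) (hA1 : 0 ≤ A1) (hA2 : 0 ≤ A2) (hL : L ≤ 3 * x)
    (h1 : A1 * x ≤ κ * q) (h2 : A2 * x ≤ κ * q) (h3 : B1 ≤ κ * q) (h4 : B2 ≤ κ * q)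
    (hR : R ≤ 16 * S) (hVt : 0 ≤ Vt) (h5 : S * Vt ≤ κ * q) (h6 : f ≤ κ * q) (h7 : G ≤ κ * q) :
    C * ((A1 + A2) * L + (B1 + B2) + R * Vt + f + G) ≤ q := by
  have hκC : 26 * (C * κ) = 1 := by
    rw [hκ]
    field_simp
  have e1 : (A1 + A2) * L ≤ 6 * (κ * q) := by
    calc (A1 + A2) * L ≤ (A1 + A2) * (3 * x) := mul_le_mul_of_nonneg_left hL (by linarith)
      _ = 3 * (A1 * x) + 3 * (A2 * x) := by ring
      _ ≤ _ := by linarith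
  have e2 : R * Vt ≤ 16 * (κ * q) := by
    calc R * Vt ≤ 16 * S * Vt := mul_le_mul_of_nonneg_right hR hVt
      _ = 16 * (S * Vt) := by ring
      _ ≤ _ := by linarith
  calc C * ((A1 + A2) * L + (B1 + B2) + R * Vt + f + G) ≤ C * (26 * (κ * q)) :=
        mul_le_mul_of_nonneg_left (by linarith) (by linarith)
    _ = 26 * (C * κ) * q := by ring
    _ = q := by rw [hκC, one_mul]

/-- scalar -/
lemma log_num {x : ℝ} {k : ℕ} (hx : 0 < x) (h : x ≤ 4 * 4 ^ k) :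
    1 + Real.log x ≤ 3 * ((k + 1 : ℕ) : ℝ) := by
  have h1 : Real.log x ≤ Real.log (4 ^ (k + 1)) := by
    apply Real.log_le_log hx
    rw [pow_succ]
    linarith
  rw [Real.log_pow] at h1
  have h2 : Real.log 4 ≤ 2 := by
    have : Real.log 4 = 2 * Real.log 2 := by
      rw [show (4 : ℝ) = 2 ^ 2 by norm_num, Real.log_pow]
      norm_num
    rw [this]
    have := Real.log_two_lt_d9
    linarith
  have h3 : (1 : ℝ) ≤ ((k + 1 : ℕ) : ℝ) := by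
    push_cast
    have : (0 : ℝ) ≤ ((k : ℕ) : ℝ) := Nat.cast_nonneg _
    linarith
  have h4 : ((k + 1 : ℕ) : ℝ) * Real.log 4 ≤ ((k + 1 : ℕ) : ℝ) * 2 :=
    mul_le_mul_of_nonneg_left h2 (by linarith)
  linarith

/-- scalar -/
lemma sq_num {x y : ℝ} {k : ℕ} (hx : 0 < x) (h : x ≤ 4 * 4 ^ k) :
    x ^ 2 * y ^ 2 ≤ 16 * (16 ^ k * y ^ 2) := by
  have h1 : x ^ 2 ≤ (4 * 4 ^ k) ^ 2 := pow_le_pow_left₀ hx.le h 2
  have h2 : ((4 : ℝ) * 4 ^ k) ^ 2 = 16 * 16 ^ k := by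
    rw [mul_pow, ← pow_mul, mul_comm k 2, pow_mul]
    norm_num
  rw [h2] at h1
  calc x ^ 2 * y ^ 2 ≤ 16 * 16 ^ k * y ^ 2 := by gcongr
    _ = _ := by ring

/-- `t_n ≤ ε` -/
lemma tn_le {C0 ε : ℝ} {n : ℕ} (hC : 1 ≤ C0) (hε : 0 < ε) (hε1 : ε ≤ 1) (h : lg C0 ε ≤ n) :
    tn n ≤ ε := by
  have h2 : (2 : ℝ) ^ (lg C0 ε) ≤ 2 ^ n := pow_le_pow_right₀ (by norm_num) h
  have h3 : ε ^ (-C0) ≤ 2 ^ (lg C0 ε) := two_lg_ge hε
  have h5 : ε ^ (-(1 : ℝ)) ≤ ε ^ (-C0) :=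
    Real.rpow_le_rpow_of_exponent_ge hε hε1 (by linarith)
  have h6 : ε⁻¹ ≤ 2 ^ n := by
    rw [Real.rpow_neg hε.le, Real.rpow_one] at h5
    linarith
  have h7 : ((2 : ℝ) ^ n)⁻¹ ≤ ε := by
    rw [inv_le_comm₀ (by positivity) hε]
    exact h6
  rw [tn_eq', pow_two]
  have h8 : ((2 : ℝ) ^ n)⁻¹ ≤ 1 := h7.trans hε1
  calc ((2 : ℝ) ^ n)⁻¹ * ((2 : ℝ) ^ n)⁻¹ ≤ 1 * ((2 : ℝ) ^ n)⁻¹ :=
        mul_le_mul_of_nonneg_right h8 (by positivity)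
    _ ≤ ε := by rw [one_mul]; exact h7

/-- sizes of the scales in units of the block side -/
structure Scl (n r s B A : ℕ) (T : ℝ) : Prop where
  x1 : 1 ≤ T * ((2 : ℝ) ^ n) ^ 2
  x2 : T * ((2 : ℝ) ^ n) ^ 2 ≤ 4
  rho : T * ((2 : ℝ) ^ (n - B)) ^ 2 ≤ 4 * ((2 : ℝ) ^ B)⁻¹ ^ 2
  l : T * ((2 : ℝ) ^ s) ^ 2 ≤ 4 * ((2 : ℝ) ^ A)⁻¹ ^ 2
  N : √(T * ((2 : ℝ) ^ r) ^ 2) ≤ 2 * 2 ^ (r - n)
  N9 : 9 ≤ T * ((2 : ℝ) ^ r) ^ 2

lemma scl {n r s B A : ℕ} {T : ℝ} (hT1 : tn n ≤ T) (hT2 : T ≤ 4 * tn n) (hr : n + 2 ≤ r)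
    (hB : B ≤ n) (hA : A ≤ n) (hs : s = n - A) : Scl n r s B A T := by
  have tN : ∀ j : ℕ, tn n * ((2 : ℝ) ^ j) ^ 2 = ((2 : ℝ) ^ j * (2 ^ n)⁻¹) ^ 2 := by
    intro j
    rw [tn_eq']
    ring
  have d1 : ∀ j, j ≤ n → (2 : ℝ) ^ (n - j) * (2 ^ n)⁻¹ = (2 ^ j)⁻¹ := by
    intro j hj
    have : (2 : ℝ) ^ n = 2 ^ (n - j) * 2 ^ j := by rw [← pow_add, Nat.sub_add_cancel hj]
    rw [this, mul_inv]
    field_simp
  have d2 : (2 : ℝ) ^ r * (2 ^ n)⁻¹ = 2 ^ (r - n) := by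
    have : (2 : ℝ) ^ r = 2 ^ (r - n) * 2 ^ n := by
      rw [← pow_add, Nat.sub_add_cancel (by omega)]
    rw [this]
    field_simp
  have lo : ∀ j : ℕ, ((2 : ℝ) ^ j * (2 ^ n)⁻¹) ^ 2 ≤ T * ((2 : ℝ) ^ j) ^ 2 := by
    intro j
    rw [← tN]
    gcongr
  have up : ∀ j : ℕ, T * ((2 : ℝ) ^ j) ^ 2 ≤ 4 * ((2 : ℝ) ^ j * (2 ^ n)⁻¹) ^ 2 := by
    intro j
    rw [← tN]
    calc T * ((2 : ℝ) ^ j) ^ 2 ≤ 4 * tn n * (2 ^ j) ^ 2 := by gcongr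
      _ = _ := by ring
  have e0 : ((2 : ℝ) ^ n * (2 ^ n)⁻¹) ^ 2 = 1 := by
    rw [mul_inv_cancel₀ (by positivity), one_pow]
  refine ⟨?_, ?_, ?_, ?_, ?_, ?_⟩
  · have := lo n
    rwa [e0] at this
  · have := up n
    rwa [e0, mul_one] at this
  · have := up (n - B)
    rwa [d1 B hB] at this
  · have := up s
    rwa [hs, d1 A hA, ← hs] at this
  · rw [Real.sqrt_le_left (by positivity)]
    have := up r
    rw [d2] at this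
    linarith
  · have h1 : (2 : ℝ) ^ 2 ≤ 2 ^ (r - n) := pow_le_pow_right₀ (by norm_num) (by omega)
    have h2 : ((2 : ℝ) ^ 2) ^ 2 ≤ (2 ^ (r - n)) ^ 2 := pow_le_pow_left₀ (by norm_num) h1 2
    have h3 := lo r
    rw [d2] at h3
    linarith

/-- the fine number -/
lemma fine_big {C e κ0 T : ℝ} {n m r s w kk A B : ℕ} (hC : 1 ≤ C) (he : 0 < e)
    (hS : Scl n r s B A T) (hT0 : 0 < T) (hnm : n ≤ m) (hm : m ≤ n + 4 * w) (hr : r = m + kk + 1)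
    (hB : B ≤ n) (h : C * (2 : ℝ) ^ (3 * (4 * w)) * 2 ^ (2 + kk) * 2 ^ (2 * B) *
        (4 * ((2 : ℝ) ^ A)⁻¹ ^ 2) ^ e ≤ κ0) :
    C * (1 / ((((2 : ℝ) ^ (n - B)) ^ 2) * tn m) * √(T * ((2 : ℝ) ^ r) ^ 2) *
      (T * ((2 : ℝ) ^ s) ^ 2) ^ e) ≤ κ0 := by
  refine le_trans ?_ h
  have htm := tn_pos m
  have g1 : 1 / ((((2 : ℝ) ^ (n - B)) ^ 2) * tn m) = 4 ^ (m - n) * 2 ^ (2 * B) := by
    have h1 : (2 : ℝ) ^ m = 2 ^ (n - B) * 2 ^ (m - n) * 2 ^ B := by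
      rw [← pow_add, ← pow_add]
      congr 1
      omega
    have h2 : (4 : ℝ) ^ (m - n) = (2 ^ (m - n)) ^ 2 := by
      rw [← pow_mul, mul_comm, pow_mul]
      norm_num
    rw [tn_eq', h1, h2, mul_comm 2 B, pow_mul]
    field_simp
  rw [g1]
  have g2 : (4 : ℝ) ^ (m - n) * 2 ^ (r - n) ≤ 2 ^ (3 * (4 * w)) * 2 ^ (1 + kk) := by
    have h1 : (4 : ℝ) ^ (m - n) = 2 ^ (2 * (m - n)) := by
      rw [pow_mul]
      norm_num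
    rw [h1, ← pow_add, ← pow_add]
    exact pow_le_pow_right₀ (by norm_num) (by omega)
  have hN := hS.N
  have hl := hS.l
  calc C * (4 ^ (m - n) * 2 ^ (2 * B) * √(T * ((2 : ℝ) ^ r) ^ 2) *
        (T * ((2 : ℝ) ^ s) ^ 2) ^ e)
      ≤ C * (4 ^ (m - n) * 2 ^ (2 * B) * (2 * 2 ^ (r - n)) *
        (4 * ((2 : ℝ) ^ A)⁻¹ ^ 2) ^ e) := by gcongr
    _ = C * (2 * ((4 : ℝ) ^ (m - n) * 2 ^ (r - n))) * 2 ^ (2 * B) *
        (4 * ((2 : ℝ) ^ A)⁻¹ ^ 2) ^ e := by ring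
    _ ≤ C * (2 * (2 ^ (3 * (4 * w)) * 2 ^ (1 + kk))) * 2 ^ (2 * B) *
        (4 * ((2 : ℝ) ^ A)⁻¹ ^ 2) ^ e := by gcongr
    _ = _ := by
      rw [show 2 + kk = 1 + (1 + kk) by ring, pow_add 2 1 (1 + kk)]
      ring

/-- **D0Step at one pair of levels**, letters `r`, `s` -/
theorem d0_rs {b : ℝ} (hb : 0 < b) (hh : 0 < helicity b) (hs : 1 / helicity b < 5 / 2) :
    ∃ κ C00 E0 : ℝ, 0 < κ ∧ 0 < C00 ∧ 0 < E0 ∧ ∀ C0 thp th : ℝ, 0 ≤ thp → thp ≤ 1 → 0 ≤ th →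
      th ≤ 1 → C00 ≤ C0 → ∀ (n m r s : ℕ) (ε q : ℝ), 0 < ε → ε ≤ E0 → lg C0 ε ≤ n → n + 1 ≤ m →
        m ≤ n + 4 * lg thp ε → r = m + lg th ε + 1 → s = n - lg C0 ε → ε / 8 ≤ q →
        D0I b κ q n m r s → ∃ τ, tn m ≤ τ ∧ τ ≤ 4 * tn m ∧ DN b m r s τ ≤ q := by
  obtain ⟨C, e, t1, hC, he, ht1, hD⟩ := d0_core hb hh hs
  obtain ⟨κ, hκ⟩ : ∃ κ : ℝ, κ = 1 / (26 * C) := ⟨_, rfl⟩
  have hκ0 : 0 < κ := by rw [hκ]; positivity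
  obtain ⟨C00, E0, hC00, hE0, hE2, hC3, hF⟩ := fine_num hC he hκ0
  refine ⟨κ, max C00 1, min E0 (t1 / 4), hκ0, by positivity, by positivity, ?_⟩
  intro C0 thp th hthp0 hthp hth0 hth hC0 n m r s ε q hε hεE hn hnm hm hr hs' hq hI
  have hεE0 : ε ≤ E0 := hεE.trans (min_le_left _ _)
  have hεt : ε ≤ t1 / 4 := hεE.trans (min_le_right _ _)
  have hε2 : ε ≤ 1 / 2 := hεE0.trans hE2
  have hε1 : ε ≤ 1 := by linarith
  have hie : 0 < 1 / e := by positivity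
  have hC0' : C00 ≤ C0 := (le_max_left _ _).trans hC0
  have hC01 : 1 ≤ C0 := (le_max_right _ _).trans hC0
  obtain ⟨f1, f2, f3⟩ := hF C0 thp th ε hC0' hthp0 hthp hth0 hth hε hεE0
  have hlg3 : lg (1 / e) ε + 3 ≤ lg C0 ε := lg_add3 (hC3.trans hC0') hie.le hε hε2
  obtain ⟨A, hA⟩ : ∃ A : ℕ, A = lg C0 ε := ⟨_, rfl⟩
  obtain ⟨B, hB⟩ : ∃ B : ℕ, B = lg (1 / e) ε := ⟨_, rfl⟩
  obtain ⟨w, hw⟩ : ∃ w : ℕ, w = lg thp ε := ⟨_, rfl⟩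
  obtain ⟨kk, hkk⟩ : ∃ kk : ℕ, kk = lg th ε := ⟨_, rfl⟩
  rw [← hw, ← hkk, ← hA, ← hB] at f1
  rw [← hB] at f2 f3
  rw [← hA] at hn
  rw [← hA, ← hB] at hlg3
  rw [← hw] at hm
  rw [← hkk] at hr
  rw [← hA] at hs'
  have hsn : s ≤ n := by omega
  have hnr : n ≤ r := by omega
  have hsr : s ≤ r := by omega
  haveI inz : NeZero (2 ^ r / 2 ^ s) := ⟨by
    rw [Nat.pow_div hsr (by norm_num)]
    positivity⟩
  obtain ⟨T, K, δ₀, δ₁, δt, δf, hT1, hT2, hblk, n1, n2, n3, n4, n5⟩ := hI inz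
  have htm := tn_pos m
  have htn := tn_pos n
  have hT0 : 0 < T := htn.trans_le hT1
  have h4 : 4 * tn m ≤ tn n := by
    have h1 := tn_ratio (n := n) (m := m) (by omega)
    have h2 : (4 : ℝ) ^ 1 ≤ 4 ^ (m - n) := pow_le_pow_right₀ (by norm_num) (by omega)
    rw [div_eq_iff htm.ne'] at h1
    rw [h1]
    nlinarith
  have hSN : SN' (2 ^ r) (2 ^ s) (2 ^ (n - B)) (2 ^ (r - n)) (2 ^ (n - s)) K b T (tn m)
      (4 * tn m) δ₀ δ₁ δt δf := by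
    refine ⟨Nat.pow_dvd_pow 2 hsr, ?_, Nat.pow_dvd_pow 2 (by omega), ?_, htm, by linarith,
      h4.trans hT1, hblk⟩
    · have : 8 * 2 ^ s = 2 ^ (s + 3) := by rw [pow_add]; ring
      rw [this]
      exact Nat.pow_dvd_pow 2 (by omega)
    · rw [Nat.pow_div hsr (by norm_num), ← pow_add]
      congr 1
      omega
  -- the numbers
  have hTt : T ≤ t1 := by
    have h1 : tn n ≤ ε := tn_le hC01 hε hε1 (hA ▸ hn)
    linarith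
  have c1 : ((2 ^ r : ℕ) : ℝ) = 2 ^ r := by push_cast; rfl
  have c2 : ((2 ^ s : ℕ) : ℝ) = 2 ^ s := by push_cast; rfl
  have c3 : ((2 ^ (n - B) : ℕ) : ℝ) = 2 ^ (n - B) := by push_cast; rfl
  have c4 : ((2 ^ (r - n) : ℕ) : ℝ) = 2 ^ (r - n) := by push_cast; rfl
  have c5 : ((2 ^ (n - s) : ℕ) : ℝ) * ((2 ^ s : ℕ) : ℝ) = 2 ^ n := by
    push_cast
    rw [← pow_add, Nat.sub_add_cancel hsn]
  have hS : Scl n r s B A T := scl hT1 hT2 (by omega) (by omega) hn hs'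
  have hfine := fine_big hC he hS hT0 (by omega) hm hr (by omega) f1
  have hfpos : 0 ≤ 1 / ((((2 : ℝ) ^ (n - B)) ^ 2) * tn m) * √(T * ((2 : ℝ) ^ r) ^ 2) *
      (T * ((2 : ℝ) ^ s) ^ 2) ^ e := by positivity
  obtain ⟨τ, hτ, hK⟩ := hD (2 ^ r) (2 ^ s) (2 ^ (n - B)) (2 ^ (r - n)) (2 ^ (n - s)) K T (tn m)
    δ₀ δ₁ δt δf hSN hTt (by rw [c1]; exact hS.N9) (by rw [c3]; exact hS.rho.trans f3)
    (by rw [c5]; exact hS.x1) (by rw [c5]; exact hS.x2) (by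
      rw [c1, c2, c3]
      have h1 := hfine.trans (min_le_left _ _)
      have h2 : C / tn m * √(T * ((2 : ℝ) ^ r) ^ 2) * (T * ((2 : ℝ) ^ s) ^ 2) ^ e =
          C * (1 / ((((2 : ℝ) ^ (n - B)) ^ 2) * tn m) * √(T * ((2 : ℝ) ^ r) ^ 2) *
          (T * ((2 : ℝ) ^ s) ^ 2) ^ e) * ((2 : ℝ) ^ (n - B)) ^ 2 := by
        field_simp
      rw [h2]
      exact mul_le_of_le_one_left (by positivity) h1)
  refine ⟨τ, hτ.1.le, hτ.2.le, ?_⟩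
  rw [c5, c1, c2, c3, c4] at hK
  have hDN : DN b m r s τ = 1 / 2 * τ ^ 2 * ((tn m)⁻¹ / ((2 : ℝ) ^ r) ^ 2) *
      K4S (nwt (2 ^ r) b τ 0) (SN (2 ^ r) (2 ^ s)) (SN (2 ^ r) (2 ^ s)) := by
    unfold H972.DN
    rw [tn_eq', inv_pow, inv_inv, div_pow]
  rw [hDN]
  refine hK.trans ?_
  have hq0 : 0 ≤ q := by linarith [hε]
  have hVt : 0 ≤ T * ∑ k ∈ smo (2 ^ r) (2 ^ s) (2 ^ (n - B)),
      Vk (2 ^ r) (2 ^ s) b T (tn m) T k := by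
    refine mul_nonneg hT0.le (Finset.sum_nonneg fun k _ => ?_)
    exact Vk_nonneg hb.le hSN.hl htm ((by linarith : tn m ≤ 4 * tn m).trans (h4.trans hT1))
      le_rfl k
  have hx : (0 : ℝ) ≤ ((m - n + 1 : ℕ) : ℝ) := Nat.cast_nonneg _
  have hTa : T / tn m ≤ 4 * 4 ^ (m - n) := by
    rw [← tn_ratio (n := n) (m := m) (by omega), ← mul_div_assoc]
    exact div_le_div_of_nonneg_right hT2 htm.le
  have hTa0 : 0 < T / tn m := by positivity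
  have hlog := log_num hTa0 hTa
  have hR := sq_num (y := (2 : ℝ) ^ n / 2 ^ r) hTa0 hTa
  have hd0 : 0 ≤ T * δ₀ * (2 * (K : ℝ) + 1) ^ 4 := by
    have := hblk.d0
    positivity
  have hd1' : 0 ≤ T * δ₁ * ((2 : ℝ) ^ (r - n)) ^ 4 := by
    have := hblk.d1
    positivity
  have hκε : κ * (ε / 8) ≤ κ * q := mul_le_mul_of_nonneg_left hq hκ0.le
  have hf6 : 1 / ((((2 : ℝ) ^ (n - B)) ^ 2) * tn m) * √(T * ((2 : ℝ) ^ r) ^ 2) *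
      (T * ((2 : ℝ) ^ s) ^ 2) ^ e ≤ κ * q := by
    refine (le_mul_of_one_le_left hfpos hC).trans ?_
    exact (hfine.trans (min_le_right _ _)).trans hκε
  have hf7 : (T * ((2 : ℝ) ^ (n - B)) ^ 2) ^ e ≤ κ * q := by
    exact (Real.rpow_le_rpow (by positivity) hS.rho he.le).trans (f2.trans hκε)
  exact d0_sum hC hκ hq0 hx hd0 hd1' hlog n1 n2 n3 n4 hR hVt (n5 _) hf6 hf7

/-- **D0Step at one pair of levels**, letters of `Good` -/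
theorem d0_point {b : ℝ} (hb : 0 < b) (hh : 0 < helicity b) (hs : 1 / helicity b < 5 / 2) :
    ∃ κ C00 E0 : ℝ, 0 < κ ∧ 0 < C00 ∧ 0 < E0 ∧ ∀ P : Par, P.thp ≤ 1 → P.th ≤ 1 → C00 ≤ P.C0 →
      ∀ (n m : ℕ) (ε q : ℝ), 0 < ε → ε ≤ E0 → lg P.C0 ε ≤ n → n + 1 ≤ m → m ≤ n + 4 * P.w ε →
        ε / 8 ≤ q → D0In P b κ q n m ε → ∃ τ, tn m ≤ τ ∧ τ ≤ 4 * tn m ∧
          DN b m (m + P.kE ε + 1) (P.sE n ε) τ ≤ q := by
  obtain ⟨κ, C00, E0, h1, h2, h3, h4⟩ := d0_rs hb hh hs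
  refine ⟨κ, C00, E0, h1, h2, h3, ?_⟩
  intro P hthp hth hC0 n m ε q hε hεE hn hnm hm hq hI
  exact h4 P.C0 P.thp P.th P.thp0.le hthp P.th0.le hth hC0 n m _ _ ε q hε hεE hn hnm hm rfl rfl
    hq hI

/-- **D0Step from its inputs** (constants depend on `b` only) -/
theorem D0Step.of {b : ℝ} (hb : 0 < b) (hh : 0 < helicity b) (hs : 1 / helicity b < 5 / 2) :
    ∃ κ C00 E0 : ℝ, 0 < κ ∧ 0 < C00 ∧ 0 < E0 ∧ ∀ (P : Par) (sg : ℝ) (N0 : ℕ), P.thp ≤ 1 →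
      P.th ≤ 1 → C00 ≤ P.C0 → P.es ≤ E0 →
      (∀ n m ε Y a, H972.SI P b N0 n m ε Y → H972.FLs P b m (en sg ε Y) a →
        H972.RNGs P b m (en sg ε Y) → lg P.C0 ε ≤ n ∧
          D0In P b κ (max (ε / 8) (ε ^ (-(sg / 2)) * Y ^ 2)) n m ε) →
      H972.D0Step P b sg N0 := by
  obtain ⟨κ, C00, E0, h1, h2, h3, h4⟩ := d0_point hb hh hs
  refine ⟨κ, C00, E0, h1, h2, h3, ?_⟩
  intro P sg N0 hthp hth hC0 hes hI n m ε Y a hS hF hR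
  obtain ⟨i1, i2⟩ := hI n m ε Y a hS hF hR
  have hlt := hS.lt
  exact h4 P hthp hth hC0 n m ε _ hS.εpos (hS.εes.trans hes) i1 hlt hS.up (le_max_left _ _) i2

end

end Vale.Agent.P159.H159
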