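import Vale.Agent.P159.H159.Trn
import Vale.Agent.P159.H462.In3Sum

/-!
P159, module DREC (helper159): the drop of the next window, mode by mode and summed.

Letters on the cell torus `V n` (side `n`, cells of side `l`, `l2 = l²`): `λ = EE k / l2`,
`g` = symbol of the cell covariance at the base mass `t`, `ga` = the same at the lowest mass `a`,
`ν1, ν2` = symbols of the mean excess covariances `E^b N`, `E^a N` (two priors `a < b ≤ t`, same
posterior), `Δ1 = Π_t - Π_b`, `Δ2 = Π_b - Π_a`.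
-/

namespace Vale.Agent.P159.H159

open Finset
open Vale.Agent.P159.TM.H764 (EE)
open Vale.Agent.P159.TM.Spec (V)
open Vale.Agent.P159.H462 (low sum_log)

/-- `ν ↦ 1/g - 1/(g+ν)` is concave -/
theorem conc {g ν1 ν2 : ℝ} (h1 : 0 < g + ν1) (h2 : 0 < g + ν2) :
    1 / g - 1 / (g + ν2) ≤ 1 / g - 1 / (g + ν1) + (ν2 - ν1) / (g + ν1) ^ 2 := by
  have e : 1 / (g + ν1) - 1 / (g + ν2) = (ν2 - ν1) / ((g + ν1) * (g + ν2)) := by
    field_simp
    ring
  have e2 : (ν2 - ν1) / ((g + ν1) * (g + ν2)) ≤ (ν2 - ν1) / (g + ν1) ^ 2 := by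
    rw [div_le_div_iff₀ (by positivity) (by positivity)]
    have : (ν2 - ν1) * ((g + ν1) * (g + ν2)) - (ν2 - ν1) * (g + ν1) ^ 2 =
        (g + ν1) * (ν2 - ν1) ^ 2 := by ring
    nlinarith [mul_nonneg h1.le (sq_nonneg (ν2 - ν1))]
  linarith

/-- **saturation, one mode** -/
theorem sat_mode {g ν1 ν2 Δ1 Δ2 θ e1 : ℝ} (h1 : 0 < g + ν1) (h2 : 0 < g + ν2) (hθ : θ < 1)
    (s1 : 1 / g - 1 / (g + ν1) ≤ Δ1) (s2 : (1 - θ) * (Δ1 + Δ2) ≤ 1 / g - 1 / (g + ν2) + e1) :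
    Δ2 ≤ (1 - θ)⁻¹ * (θ * Δ1 + (ν2 - ν1) / (g + ν1) ^ 2 + e1) := by
  have h3 := conc h1 h2
  have h4 : 0 < 1 - θ := by linarith
  rw [← div_eq_inv_mul, le_div_iff₀ h4]
  nlinarith

/-- the hypotheses on a set `S` of momenta -/
structure Dr (n : ℕ) [NeZero n] (S : Finset (V n)) (l2 t a c a0 a1 θ δ1 δ2 : ℝ)
    (g ga ν1 ν2 Δ1 Δ2 e1 : V n → ℝ) : Prop where
  hl2 : 0 < l2
  ha : 0 < a
  ht : 0 < t
  hc : 0 < c
  ha0 : 0 ≤ a0
  ha1 : 0 ≤ a1
  hδ1 : 0 ≤ δ1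
  hθ : θ < 1
  /-- no constant mode -/
  S0 : ∀ k ∈ S, k ≠ 0
  g0 : ∀ k ∈ S, 0 < g k
  /-- upper bound of the self energy at the base mass -/
  gi : ∀ k ∈ S, 1 / g k ≤ (1 + a0) * t + a1 * (EE k / l2)
  ga0 : ∀ k ∈ S, 0 ≤ ga k
  /-- domination at the lowest mass -/
  ga1 : ∀ k ∈ S, ga k ≤ 1 / (a + c * (EE k / l2))
  n1 : ∀ k ∈ S, 0 ≤ ν1 k
  n2 : ∀ k ∈ S, 0 < g k + ν2 k
  s1 : ∀ k ∈ S, 1 / g k - 1 / (g k + ν1 k) ≤ Δ1 k
  s2 : ∀ k ∈ S, (1 - θ) * (Δ1 k + Δ2 k) ≤ 1 / g k - 1 / (g k + ν2 k) + e1 k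
  /-- slowly varying directions -/
  lo : ∀ k ∈ S, t ^ 2 * |ν2 k - ν1 k| ≤ δ1 * (EE k / l2)
  /-- trace norm -/
  tr : ∑ k ∈ S, |ν2 k - ν1 k| ≤ δ2

theorem Dr.main {n : ℕ} [NeZero n] {S : Finset (V n)} {l2 t a c a0 a1 θ δ1 δ2 : ℝ}
    {g ga ν1 ν2 Δ1 Δ2 e1 : V n → ℝ}
    (h : Dr n S l2 t a c a0 a1 θ δ1 δ2 g ga ν1 ν2 Δ1 Δ2 e1) :
    ∑ k ∈ S, ga k ^ 2 * Δ2 k ≤ (1 - θ)⁻¹ * (θ * ∑ k ∈ S, ga k ^ 2 * Δ1 k +
      25 * ((1 + a0 + a1) / c) ^ 2 * δ1 * ((n : ℝ) ^ 2 * l2) * (1 + Real.log (1 + c * t / a)) +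
      ((1 + a0 + a1) / c) ^ 2 * δ2 + ∑ k ∈ S, ga k ^ 2 * e1 k) := by
  classical
  set A : ℝ := 1 + a0 + a1 with hA
  have hA0 : 0 < A := by have := h.ha0; have := h.ha1; positivity
  have hl := h.hl2
  have ha := h.ha
  have ht := h.ht
  have hc := h.hc
  have h1θ : 0 < 1 - θ := by linarith [h.hθ]
  -- the weight
  have hw : ∀ k ∈ S, ga k ^ 2 * ((ν2 k - ν1 k) / (g k + ν1 k) ^ 2) ≤
      (ga k / g k) ^ 2 * |ν2 k - ν1 k| := by
    intro k hk
    have hg := h.g0 k hk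
    have hn := h.n1 k hk
    have e1 : (ν2 k - ν1 k) / (g k + ν1 k) ^ 2 ≤ |ν2 k - ν1 k| / g k ^ 2 := by
      refine (div_le_div_of_nonneg_right (le_abs_self _) (by positivity)).trans ?_
      exact div_le_div_of_nonneg_left (abs_nonneg _) (by positivity)
        (pow_le_pow_left₀ hg.le (by linarith) 2)
    calc ga k ^ 2 * ((ν2 k - ν1 k) / (g k + ν1 k) ^ 2)
        ≤ ga k ^ 2 * (|ν2 k - ν1 k| / g k ^ 2) := mul_le_mul_of_nonneg_left e1 (sq_nonneg _)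
      _ = _ := by rw [div_pow]; ring
  have hr : ∀ k ∈ S, 0 ≤ ga k / g k ∧ ga k / g k ≤
      ((1 + a0) * t + a1 * (EE k / l2)) / (a + c * (EE k / l2)) := by
    intro k hk
    have hE : 0 ≤ EE k := TM.H764.EE_nonneg k
    have hg := h.g0 k hk
    refine ⟨div_nonneg (h.ga0 k hk) hg.le, ?_⟩
    have hd : 0 < a + c * (EE k / l2) := by positivity
    rw [div_eq_mul_one_div, div_eq_mul_one_div _ (a + c * (EE k / l2)), mul_comm]
    exact mul_le_mul (h.gi k hk) (h.ga1 k hk) (h.ga0 k hk)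
      (by have := h.ha0; have := h.ha1; positivity)
  -- high modes
  have high : ∀ k ∈ S, t * l2 ≤ EE k → (ga k / g k) ^ 2 ≤ (A / c) ^ 2 := by
    intro k hk hE
    have hE0 : 0 ≤ EE k := TM.H764.EE_nonneg k
    obtain ⟨r0, r1⟩ := hr k hk
    refine pow_le_pow_left₀ r0 (r1.trans ?_) 2
    have hd : 0 < a + c * (EE k / l2) := by positivity
    have hx : t ≤ EE k / l2 := by rwa [le_div_iff₀ hl]
    rw [div_le_div_iff₀ hd hc]
    have h5 : (1 + a0) * t ≤ (1 + a0) * (EE k / l2) :=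
      mul_le_mul_of_nonneg_left hx (by have := h.ha0; positivity)
    have h6 : ((1 + a0) * t + a1 * (EE k / l2)) ≤ A * (EE k / l2) := by
      rw [hA]; nlinarith
    calc ((1 + a0) * t + a1 * (EE k / l2)) * c ≤ A * (EE k / l2) * c :=
          mul_le_mul_of_nonneg_right h6 hc.le
      _ ≤ A * (a + c * (EE k / l2)) := by nlinarith [mul_pos hA0 ha]
  -- low modes
  have lowm : ∀ k ∈ S, EE k < t * l2 → (ga k / g k) ^ 2 * |ν2 k - ν1 k| ≤
      (A / c) ^ 2 * δ1 * l2 * (EE k + a * l2 / c)⁻¹ := by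
    intro k hk hE
    have hE0 : 0 ≤ EE k := TM.H764.EE_nonneg k
    obtain ⟨r0, r1⟩ := hr k hk
    have hd : 0 < a + c * (EE k / l2) := by positivity
    have hx : EE k / l2 ≤ t := by
      rw [div_le_iff₀ hl]; exact hE.le
    have h5 : ga k / g k ≤ A * t / (a + c * (EE k / l2)) := by
      refine r1.trans (div_le_div_of_nonneg_right ?_ hd.le)
      rw [hA]
      nlinarith [mul_le_mul_of_nonneg_left hx h.ha1]
    have h6 : |ν2 k - ν1 k| ≤ δ1 * (EE k / l2) / t ^ 2 := by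
      rw [le_div_iff₀ (by positivity), mul_comm]
      exact h.lo k hk
    have hδ := h.hδ1
    calc (ga k / g k) ^ 2 * |ν2 k - ν1 k|
        ≤ (A * t / (a + c * (EE k / l2))) ^ 2 * (δ1 * (EE k / l2) / t ^ 2) :=
          mul_le_mul (pow_le_pow_left₀ r0 h5 2) h6 (abs_nonneg _) (sq_nonneg _)
      _ = A ^ 2 * δ1 * ((EE k / l2) / (a + c * (EE k / l2))) * (a + c * (EE k / l2))⁻¹ := by
          field_simp
      _ ≤ A ^ 2 * δ1 * (1 / c) * (a + c * (EE k / l2))⁻¹ := by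
          refine mul_le_mul_of_nonneg_right (mul_le_mul_of_nonneg_left ?_ (by positivity))
            (by positivity)
          rw [div_le_div_iff₀ hd hc]
          nlinarith
      _ = (A / c) ^ 2 * δ1 * l2 * (EE k + a * l2 / c)⁻¹ := by
          have e : a + c * (EE k / l2) = (c / l2) * (EE k + a * l2 / c) := by
            field_simp
            ring
          rw [e, mul_inv, inv_div, div_pow]
          ring
  have hsum : ∑ k ∈ S, (ga k / g k) ^ 2 * |ν2 k - ν1 k| ≤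
      25 * (A / c) ^ 2 * δ1 * ((n : ℝ) ^ 2 * l2) * (1 + Real.log (1 + c * t / a)) +
        (A / c) ^ 2 * δ2 := by
    rw [← Finset.sum_filter_add_sum_filter_not S fun k => EE k < t * l2]
    refine add_le_add ?_ ?_
    · have hδ := h.hδ1
      have h7 : ∑ k ∈ S.filter fun k => EE k < t * l2, (ga k / g k) ^ 2 * |ν2 k - ν1 k| ≤
          ∑ k ∈ S.filter fun k => EE k < t * l2,
            (A / c) ^ 2 * δ1 * l2 * (EE k + a * l2 / c)⁻¹ :=
        Finset.sum_le_sum fun k hk => by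
          rw [Finset.mem_filter] at hk
          exact lowm k hk.1 hk.2
      refine h7.trans ?_
      rw [← Finset.mul_sum]
      have h8 : ∑ k ∈ S.filter fun k => EE k < t * l2, (EE k + a * l2 / c)⁻¹ ≤
          ∑ k ∈ low n (t * l2), (EE k + a * l2 / c)⁻¹ := by
        refine Finset.sum_le_sum_of_subset_of_nonneg (fun k hk => ?_) fun k _ _ => ?_
        · rw [Finset.mem_filter] at hk
          exact Finset.mem_filter.2 ⟨Finset.mem_univ _, h.S0 k hk.1, hk.2⟩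
        · have hE0 : 0 ≤ EE k := TM.H764.EE_nonneg k
          positivity
      have h9 := sum_log (N := n) (ν := t * l2) (m := a * l2 / c) (by positivity) (by positivity)
      have e : t * l2 / (a * l2 / c) = c * t / a := by
        field_simp
      rw [e] at h9
      calc (A / c) ^ 2 * δ1 * l2 * ∑ k ∈ S.filter fun k => EE k < t * l2, (EE k + a * l2 / c)⁻¹
          ≤ (A / c) ^ 2 * δ1 * l2 * (25 * (n : ℝ) ^ 2 * (1 + Real.log (1 + c * t / a))) :=
            mul_le_mul_of_nonneg_left (h8.trans h9) (by positivity)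
        _ = _ := by ring
    · calc ∑ k ∈ S.filter fun k => ¬EE k < t * l2, (ga k / g k) ^ 2 * |ν2 k - ν1 k|
          ≤ ∑ k ∈ S.filter fun k => ¬EE k < t * l2, (A / c) ^ 2 * |ν2 k - ν1 k| :=
            Finset.sum_le_sum fun k hk => by
              rw [Finset.mem_filter, not_lt] at hk
              exact mul_le_mul_of_nonneg_right (high k hk.1 hk.2) (abs_nonneg _)
        _ ≤ ∑ k ∈ S, (A / c) ^ 2 * |ν2 k - ν1 k| :=
            Finset.sum_le_sum_of_subset_of_nonneg (Finset.filter_subset _ _) fun k _ _ => by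
              positivity
        _ = (A / c) ^ 2 * ∑ k ∈ S, |ν2 k - ν1 k| := by rw [Finset.mul_sum]
        _ ≤ (A / c) ^ 2 * δ2 := mul_le_mul_of_nonneg_left h.tr (by positivity)
  have hmode : ∀ k ∈ S, ga k ^ 2 * Δ2 k ≤ (1 - θ)⁻¹ * (θ * (ga k ^ 2 * Δ1 k) +
      (ga k / g k) ^ 2 * |ν2 k - ν1 k| + ga k ^ 2 * e1 k) := by
    intro k hk
    have hg := h.g0 k hk
    have hn := h.n1 k hk
    have h3 := sat_mode (by linarith : 0 < g k + ν1 k) (h.n2 k hk) h.hθ (h.s1 k hk) (h.s2 k hk)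
    have h4 := mul_le_mul_of_nonneg_left h3 (sq_nonneg (ga k))
    refine h4.trans ?_
    have h5 := hw k hk
    calc ga k ^ 2 * ((1 - θ)⁻¹ * (θ * Δ1 k + (ν2 k - ν1 k) / (g k + ν1 k) ^ 2 + e1 k))
        = (1 - θ)⁻¹ * (θ * (ga k ^ 2 * Δ1 k) +
          ga k ^ 2 * ((ν2 k - ν1 k) / (g k + ν1 k) ^ 2) + ga k ^ 2 * e1 k) := by ring
      _ ≤ _ := mul_le_mul_of_nonneg_left (by linarith) (by positivity)
  refine (Finset.sum_le_sum hmode).trans ?_
  rw [← Finset.mul_sum, Finset.sum_add_distrib, Finset.sum_add_distrib, ← Finset.mul_sum]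
  refine mul_le_mul_of_nonneg_left ?_ (by positivity)
  linarith

end Vale.Agent.P159.H159
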