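import Vale.Agent.P159.H159.Drec3

/-!
P159, module DREC3 (helper159), part 3: **one window**. The recursion `Dr` only on the smooth cell
momenta; everything else is unconditional (F1, F2 in the neutral model).
-/

set_option linter.unusedSectionVars false

namespace Vale.Agent.P159.H159

open Finset Matrix Filter Topology
open Vale.Agent.P159.TM.H104 (EM Ex Cv Lg li Gr)
open Vale.Agent.P159.TM.H764 (EE)
open Vale.Agent.P159.TM.Spec (V)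
open Vale.Agent.P159.TM.SpecC (wT)
open Vale.Agent.P159.H37
open Vale.Agent.P159.H864 (TI sym)
open Vale.Agent.P159.H447 (K4S SN)
open Vale.Agent.P159.H963 (Neu nM Gnc PinC nwt nMC)

noncomputable section

/-- the smooth cell momenta -/
def smo (N l ρ : ℕ) [NeZero N] [NeZero (N / l)] : Finset (V (N / l)) :=
  (Finset.univ.erase 0).filter fun k => (ρ : ℝ) ^ 2 * EE k < 32 * (l : ℝ) ^ 2

section card

variable {N l ρ : ℕ} [NeZero N] [NeZero (N / l)]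

lemma mem_smo {k : V (N / l)} :
    k ∈ smo N l ρ ↔ k ≠ 0 ∧ (ρ : ℝ) ^ 2 * EE k < 32 * (l : ℝ) ^ 2 := by
  unfold smo
  rw [Finset.mem_filter, Finset.mem_erase]
  simp

lemma smo_sub : smo N l ρ ⊆ Finset.univ.erase 0 := Finset.filter_subset _ _

theorem card_smo (hl : l ∣ N) (h8 : 8 * l ∣ ρ) (hρ : ρ ∣ N) :
    ((smo N l ρ).card : ℝ) ≤ 128 * ((N : ℝ) / ρ) ^ 2 := by
  obtain ⟨r, hr⟩ := h8
  obtain ⟨q, hq⟩ := hρ
  have hl0 : 0 < l := H864.l_pos hl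
  have hN0 : N ≠ 0 := NeZero.ne N
  have hρ0 : 0 < ρ := Nat.pos_of_ne_zero fun h => hN0 (by rw [hq, h, zero_mul])
  have hr0 : 0 < r := Nat.pos_of_ne_zero fun h => hρ0.ne' (by rw [hr, h, mul_zero])
  have hNl : N / l = r * (8 * q) := by
    rw [hq, hr]
    apply Nat.div_eq_of_eq_mul_right hl0
    ring
  have hrd : r ∣ N / l := ⟨8 * q, hNl⟩
  have := nez_div (N := N / l) hrd
  have h1 := card_low (N := N / l) (ρ := r) hrd (smo N l ρ) (fun p hp => by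
    have h2 := (mem_smo.1 hp).2
    have h3 : (ρ : ℝ) = 8 * l * r := by
      rw [hr]
      push_cast
      ring
    rw [h3] at h2
    have hlp : (0 : ℝ) < l := by exact_mod_cast hl0
    have h4 : (l : ℝ) ^ 2 * (2 * ((r : ℝ) ^ 2 * EE p)) ≤ (l : ℝ) ^ 2 * 1 := by nlinarith
    exact le_of_mul_le_mul_left h4 (by positivity))
  refine h1.trans (le_of_eq ?_)
  have h5 : N / l / r = 8 * q := by
    rw [hNl]
    exact Nat.mul_div_cancel_left _ hr0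
  have h6 : (N : ℝ) / ρ = q := by
    rw [hq]
    have : (ρ : ℝ) ≠ 0 := by exact_mod_cast hρ0.ne'
    push_cast
    field_simp
  rw [h5, h6]
  push_cast
  ring

end card

lemma rpow_le_of {x c c' : ℝ} (h0 : 0 < x) (h1 : x ≤ 1) (h : c ≤ c') : x ^ c' ≤ x ^ c :=
  Real.rpow_le_rpow_of_exponent_ge h0 h1 h

/-- **one window, neutral model** -/
theorem drec3 {b : ℝ} (hb : 0 < b) : ∃ C c : ℝ, 0 < C ∧ 0 < c ∧
    ∀ (N l ρ : ℕ) [NeZero N] [NeZero (N / l)], l ∣ N → 8 * l ∣ ρ → ρ ∣ N →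
    ∀ t0 a cc : ℝ, 0 < a → a < cc → cc ≤ t0 → 9 ≤ t0 * (N : ℝ) ^ 2 → t0 * (ρ : ℝ) ^ 2 ≤ 1 →
    ∀ (l2 t c' a0 a1 θ δ1 δ2 : ℝ) (g ga ν1 ν2 Δ1 Δ2 e1 : V (N / l) → ℝ),
      Dr (N / l) (smo N l ρ) l2 t a c' a0 a1 θ δ1 δ2 g ga ν1 ν2 Δ1 Δ2 e1 →
      (∀ k ∈ smo N l ρ, sym (Gnc N l b t0 a) k = ga k) →
      (∀ k ∈ smo N l ρ, PinC N l b t0 cc k - PinC N l b t0 a k = Δ2 k) →
      (∀ k ∈ smo N l ρ, C / a * √(t0 * (N : ℝ) ^ 2) * (t0 * (l : ℝ) ^ 2) ^ c ≤ ga k) →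
      ∃ τ ∈ Set.Ioo a cc, 1 / 2 * K4S (nwt N b τ 0) (SN N l) (SN N l) ≤
        4 * (cc - a)⁻¹ * ((1 - θ)⁻¹ * (θ * ∑ k ∈ smo N l ρ, ga k ^ 2 * Δ1 k +
          25 * ((1 + a0 + a1) / c') ^ 2 * δ1 * (((N / l : ℕ) : ℝ) ^ 2 * l2) *
            (1 + Real.log (1 + c' * t / a)) +
          ((1 + a0 + a1) / c') ^ 2 * δ2 + ∑ k ∈ smo N l ρ, ga k ^ 2 * e1 k) +
          128 * ((N : ℝ) / ρ) ^ 2 *
            (C / a * √(t0 * (N : ℝ) ^ 2) * (t0 * (l : ℝ) ^ 2) ^ c)) +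
        (cc - a)⁻¹ * (C * (N : ℝ) ^ 2 * (t0 * (ρ : ℝ) ^ 2) ^ c) := by
  obtain ⟨C1, c1, hC1, hc1, hF1⟩ := fine_N (b := b) hb.le
  obtain ⟨C2, c2, hC2, hc2, hF2⟩ := fine_GN (b := b) hb.le
  refine ⟨max C2 (4 / 3 * C1), min c1 c2, lt_max_of_lt_left hC2, lt_min hc1 hc2, ?_⟩
  intro N l ρ _ _ hl h8 hρ t0 a cc ha hac hcc htN htρ l2 t c' a0 a1 θ δ1 δ2 g ga ν1 ν2 Δ1 Δ2 e1
    hD hga hΔ hsm
  set C : ℝ := max C2 (4 / 3 * C1) with hC
  set c : ℝ := min c1 c2 with hc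
  have ht0 : 0 < t0 := (ha.trans hac).trans_le hcc
  have hl0 : 0 < l := H864.l_pos hl
  have hlp : (0 : ℝ) < l := by exact_mod_cast hl0
  have hρ0 : 0 < ρ := Nat.pos_of_dvd_of_pos hρ (NeZero.pos N)
  have hρp : (0 : ℝ) < ρ := by exact_mod_cast hρ0
  have hlρ : (l : ℝ) ≤ ρ := by
    have : l ≤ ρ := Nat.le_of_dvd hρ0 ((Dvd.intro_left 8 rfl).trans h8)
    exact_mod_cast this
  have htl : t0 * (l : ℝ) ^ 2 ≤ 1 := by
    refine le_trans (mul_le_mul_of_nonneg_left ?_ ht0.le) htρ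
    exact pow_le_pow_left₀ hlp.le hlρ 2
  have hx1 : 0 < t0 * (l : ℝ) ^ 2 := by positivity
  have hx2 : 0 < t0 * (ρ : ℝ) ^ 2 := by positivity
  set εF : ℝ := C / a * √(t0 * (N : ℝ) ^ 2) * (t0 * (l : ℝ) ^ 2) ^ c with hεF
  have hε0 : 0 ≤ εF := by
    have : 0 < C := lt_max_of_lt_left hC2
    positivity
  -- F2 at the two masses
  have f2 : ∀ s : ℝ, 0 < s → s ≤ t0 → a ≤ s → ∀ u : V N → ℝ, Neu u →
      0 ≤ qf (Gm (nwt N b s 0)) u - qf (Gm (nMC N l b t0 s 0)) u ∧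
      qf (Gm (nwt N b s 0)) u - qf (Gm (nMC N l b t0 s 0)) u ≤ εF * ∑ x, u x ^ 2 := by
    intro s hs hst has u hu
    have h1 := hF2 N t0 ht0 htN l hl htl s (t0 - s) (s • (1 : Matrix (V N) (V N) ℝ)) s
      (sub_nonneg.2 hst) (by linarith) (masN_mc hl hs hst) 0 u hu
    rw [nM_mc] at h1
    have h2 : nM (wT b N) (s • (1 : Matrix (V N) (V N) ℝ)) s 0 = nwt N b s 0 := rfl
    rw [h2] at h1
    refine ⟨h1.1, h1.2.trans ?_⟩
    have h3 : (t0 * (l : ℝ) ^ 2) ^ c2 ≤ (t0 * (l : ℝ) ^ 2) ^ c :=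
      rpow_le_of hx1 htl (min_le_right _ _)
    have hu0 : 0 ≤ ∑ x, u x ^ 2 := sum_nonneg fun _ _ => sq_nonneg _
    calc C2 * ((∑ x, u x ^ 2) / s) * √(t0 * (N : ℝ) ^ 2) * (t0 * (l : ℝ) ^ 2) ^ c2
        ≤ C * ((∑ x, u x ^ 2) / a) * √(t0 * (N : ℝ) ^ 2) * (t0 * (l : ℝ) ^ 2) ^ c := by
          refine mul_le_mul (mul_le_mul_of_nonneg_right (mul_le_mul (le_max_left _ _)
            (div_le_div_of_nonneg_left hu0 ha has) (by positivity)
            (hC2.le.trans (le_max_left _ _))) (Real.sqrt_nonneg _)) h3 (by positivity) ?_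
          have : 0 < C := lt_max_of_lt_left hC2
          positivity
      _ = εF * ∑ x, u x ^ 2 := by rw [hεF]; ring
  obtain ⟨τ, hτ, h⟩ := scal_step2 (N := N) (l := l) hb hl (smo N l ρ) smo_sub ha hac
  refine ⟨τ, hτ, h.trans ?_⟩
  have hca : 0 < (cc - a)⁻¹ := inv_pos.2 (sub_pos.2 hac)
  -- smooth modes
  have h1 : ∑ k ∈ smo N l ρ, sym (Gnc N l b a a) k ^ 2 *
      (PinC N l b cc cc k - PinC N l b a a k) ≤
      4 * (∑ k ∈ smo N l ρ, ga k ^ 2 * Δ2 k + 128 * ((N : ℝ) / ρ) ^ 2 * εF) := by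
    have h2 : ∑ k ∈ smo N l ρ, sym (Gnc N l b a a) k ^ 2 *
        (PinC N l b cc cc k - PinC N l b a a k) ≤
        ∑ k ∈ smo N l ρ, 4 * (ga k ^ 2 * Δ2 k + εF) := by
      refine Finset.sum_le_sum fun k hk => ?_
      have hk0 := (mem_smo.1 hk).1
      have hg := H963.sym_Gnc_pos (N := N) (l := l) (t := t0) hb hl ha (hac.le.trans hcc) hk0
      have hg' := H963.sym_Gnc_pos (N := N) (l := l) (t := t0) hb hl (ha.trans hac) hcc hk0
      have hmono := H447.PinC_mono (N := N) (l := l) hb hl ha hac.le hcc hk0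
      have s1 := sym_F2 hb.le hl ha (hac.le.trans hcc)
        (f2 a ha (hac.le.trans hcc) le_rfl) hk0
      have s2 := sym_F2 hb.le hl (ha.trans hac) hcc (f2 cc (ha.trans hac) hcc hac.le) hk0
      have h3 := fine_mode (a := a) (c := cc) hg hg' s1.1 s1.2
        (by rw [hga k hk]; exact hsm k hk) s2.1 (by unfold PinC at hmono; linarith)
      rw [← hga k hk, ← hΔ k hk]
      exact h3
    refine h2.trans ?_
    rw [← Finset.mul_sum, Finset.sum_add_distrib, Finset.sum_const, nsmul_eq_mul]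
    have h4 := mul_le_mul_of_nonneg_right (card_smo (N := N) hl h8 hρ) hε0
    linarith
  -- rough modes
  have h5 : ∑ k ∈ Finset.univ.erase 0 \ smo N l ρ,
      (sym (Gnc N l b a a) k - sym (Gnc N l b cc cc) k) ≤
      C * (N : ℝ) ^ 2 * (t0 * (ρ : ℝ) ^ 2) ^ c := by
    have h6 := (hF1 N t0 ht0 htN ρ hρ htρ a (a • (1 : Matrix (V N) (V N) ℝ))
      (cc • (1 : Matrix (V N) (V N) ℝ)) a cc (masN_sc ha hac.le hcc) 0).2
    have h7 : nM (wT b N) (a • (1 : Matrix (V N) (V N) ℝ)) a 0 = nwt N b a 0 := rfl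
    have h8' : nM (wT b N) (cc • (1 : Matrix (V N) (V N) ℝ)) cc 0 = nwt N b cc 0 := rfl
    rw [h7, h8'] at h6
    have h9 := high_sum (N := N) (l := l) hb.le hl hρ ha hac.le h6
      (Finset.univ.erase 0 \ smo N l ρ) (fun k hk => by
        rw [Finset.mem_sdiff, Finset.mem_erase, mem_smo] at hk
        by_contra hcon
        exact hk.2 ⟨hk.1.1, not_le.1 hcon⟩)
    refine h9.trans ?_
    have h10 : (t0 * (ρ : ℝ) ^ 2) ^ c1 ≤ (t0 * (ρ : ℝ) ^ 2) ^ c :=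
      rpow_le_of hx2 htρ (min_le_left _ _)
    calc 4 / 3 * (C1 * (N : ℝ) ^ 2 * (t0 * (ρ : ℝ) ^ 2) ^ c1)
        = (4 / 3 * C1) * (N : ℝ) ^ 2 * (t0 * (ρ : ℝ) ^ 2) ^ c1 := by ring
      _ ≤ C * (N : ℝ) ^ 2 * (t0 * (ρ : ℝ) ^ 2) ^ c := by
          refine mul_le_mul (mul_le_mul_of_nonneg_right (le_max_right _ _) (sq_nonneg _)) h10
            (by positivity) ?_
          have : 0 < C := lt_max_of_lt_left hC2
          positivity
  have h3 := hD.main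
  have h11 := mul_le_mul_of_nonneg_left (add_le_add h1 h5) hca.le
  refine h11.trans ?_
  have h12 := mul_le_mul_of_nonneg_left h3 hca.le
  nlinarith

end

end Vale.Agent.P159.H159
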