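import Vale.Agent.P159.H159.D0G
import Vale.Agent.P159.H730.Thd2
import Vale.Agent.P159.H375.FineT
import Vale.Agent.P159.H276.DownT
import Vale.Agent.P159.H276.Eta
import Vale.Agent.P159.H239.Typ

/-!
P159 (helper159): the drop of the neutral self energy, all momenta, general letters:
`drop_all` from 239's `TypE` (zero source, exact law) via 730's `drop_N_EE`, 375's
`PinC_rel`, 280's TOP.
-/

set_option linter.unusedSectionVars false

namespace Vale.Agent.P159.H159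

open Finset Matrix MeasureTheory
open Vale.Agent.P159.H37
open Vale.Agent.P159.TM.H764 (EE)
open Vale.Agent.P159.TM.H104 (EM)
open Vale.Agent.P159.TM.Spec (V)
open Vale.Agent.P159.H864 (sym cen rd pw_cen)
open Vale.Agent.P159.H963 (nwt obsN nMC Pin PinC Gnh Gnc)
open Vale.Agent.P159.H730 (wN ThN)
open Vale.Agent.P159.H239 (TypE)
open Vale.Agent.P159.H375 (eFin)

noncomputable section

variable {N l : ℕ} [NeZero N] [NeZero (N / l)] {b : ℝ}

/-- small momenta are central -/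
lemma cen_of_small {p : V N} (h : (l : ℝ) ^ 2 * EE p ≤ 4) : cen l p := by
  have hN : (0 : ℝ) < N := by exact_mod_cast NeZero.pos N
  have key : ∀ z : ZMod N, (l : ℝ) ^ 2 * (2 * (1 - TM.H764.cN z)) ≤ 4 →
      2 * l * z.valMinAbs.natAbs ≤ N := by
    intro z hz
    rw [TM.H764.cN_pw] at hz
    have h0 : |TM.H764.pw z| ≤ Real.pi := by
      haveI : NeZero (N / 1) := ⟨by rw [Nat.div_one]; exact NeZero.ne N⟩
      have h1 := pw_cen (N := N) (l := 1) (p := z) (by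
        have := ZMod.natAbs_valMinAbs_le z
        omega)
      simpa using h1
    have h1 := TM.H764.one_sub_cos_low h0
    have h2 : (l : ℝ) ^ 2 * (TM.H764.pw z) ^ 2 ≤ Real.pi ^ 2 := by
      have h3 : (l : ℝ) ^ 2 * (2 * (2 / Real.pi ^ 2 * (TM.H764.pw z) ^ 2)) ≤ 4 :=
        (mul_le_mul_of_nonneg_left (by linarith) (by positivity)).trans hz
      have h4 : (l : ℝ) ^ 2 * (2 * (2 / Real.pi ^ 2 * (TM.H764.pw z) ^ 2)) =
          4 * ((l : ℝ) ^ 2 * (TM.H764.pw z) ^ 2) / Real.pi ^ 2 := by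
        ring
      rw [h4, div_le_iff₀ (by positivity)] at h3
      linarith
    have h5 : |(l : ℝ) * TM.H764.pw z| ≤ Real.pi := by
      rw [← mul_pow] at h2
      exact abs_le_of_sq_le_sq h2 Real.pi_pos.le
    have h6 : ((z.valMinAbs.natAbs : ℕ) : ℝ) = |(z.valMinAbs : ℝ)| := by
      rw [Nat.cast_natAbs, Int.cast_abs]
    unfold TM.H764.pw at h5
    rw [abs_mul, abs_div, abs_mul, abs_of_pos (show (0 : ℝ) < 2 * Real.pi by positivity),
      abs_of_pos hN, ← h6, Nat.abs_cast] at h5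
    have h7 : (l : ℝ) * (2 * Real.pi * (z.valMinAbs.natAbs : ℝ) / N) =
        Real.pi * (2 * l * (z.valMinAbs.natAbs : ℝ)) / N := by ring
    rw [h7, div_le_iff₀ hN] at h5
    have h8 : 2 * (l : ℝ) * (z.valMinAbs.natAbs : ℝ) ≤ N :=
      le_of_mul_le_mul_left h5 Real.pi_pos
    exact_mod_cast h8
  have e1 : EE p = 2 * (1 - TM.H764.cN p.1) + 2 * (1 - TM.H764.cN p.2) := rfl
  have a1 : 0 ≤ 2 * (1 - TM.H764.cN p.1) := by
    have := TM.H764.cN_le_one p.1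
    linarith
  have a2 : 0 ≤ 2 * (1 - TM.H764.cN p.2) := by
    have := TM.H764.cN_le_one p.2
    linarith
  rw [e1, mul_add] at h
  have b1 : 0 ≤ (l : ℝ) ^ 2 * (2 * (1 - TM.H764.cN p.1)) := mul_nonneg (by positivity) a1
  have b2 : 0 ≤ (l : ℝ) ^ 2 * (2 * (1 - TM.H764.cN p.2)) := mul_nonneg (by positivity) a2
  exact ⟨key _ (by linarith), key _ (by linarith)⟩

/-- `Θ` from typical sources -/
lemma ThN_typ (hb : 0 < b) (hl : l ∣ N) {T s ρ p : ℝ} (hs : 0 < s) (hsT : s ≤ T)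
    (h : TypE N l b T s 1 ρ p) (hp : p ≤ 1 / 2) : ThN N l b T s T ≤ ρ + 2 * p := by
  have hT : 0 < T := hs.trans_le hsT
  have e0 : wN N l b T T = nwt N b T 0 := H963.nMC_self N l b T 0
  have hE : EM (wN N l b T s) := H963.em_nMC hb.le hl hs hsT 0
  have hG := H239.typ_meas (N := N) (b := b) (T := T) hb.le hT 1 ρ
  have hp0 : 0 ≤ p := h.nonneg hb.le hl hs hsT
  have h1 : 1 - p ≤ Ech (wN N l b T s) 0 (obsN N l (T - s))
      (({J : V N → ℝ | Rs (nwt N b T 0) ((1 : ℝ) • J) ≤ ρ}).indicator fun _ => (1 : ℝ)) := by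
    have h2 := H663.Ech_add' (H239.chi_set hE 0 (obsN N l (T - s)) hG)
      (H239.chi_set hE 0 (obsN N l (T - s)) hG.compl)
    have h3 : (fun J : V N → ℝ => (({J : V N → ℝ | Rs (nwt N b T 0) ((1 : ℝ) • J) ≤ ρ}).indicator
        fun _ => (1 : ℝ)) J + (({J : V N → ℝ | Rs (nwt N b T 0) ((1 : ℝ) • J) ≤ ρ}ᶜ).indicator
        fun _ => (1 : ℝ)) J) = fun _ => (1 : ℝ) := by
      funext J
      exact congrFun (Set.indicator_self_add_compl _ (fun _ : V N → ℝ => (1 : ℝ))) J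
    rw [h3, Ech_const hE] at h2
    unfold TypE at h
    linarith
  have h2 := H730.ThN_le (N := N) (l := l) hb hl hs hsT le_rfl (ρ := ρ) (pb := p) hG
    (fun J hJ _ => by
      rw [e0]
      have : Rs (nwt N b T 0) ((1 : ℝ) • J) ≤ ρ := hJ
      rwa [one_smul] at this) h1 (by linarith)
  have h3 : -Real.log (1 - p) ≤ 2 * p := by
    have h4 : 0 < 1 - p := by linarith
    have h5 := Real.one_sub_inv_le_log_of_pos h4
    have h6 : (1 - p)⁻¹ - 1 ≤ 2 * p := by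
      rw [sub_le_iff_le_add, inv_le_comm₀ h4 (by linarith)]
      rw [inv_le_comm₀ (by linarith) h4]
      rw [inv_eq_one_div, div_le_iff₀ h4]
      nlinarith
    linarith
  linarith

/-- scalar: the drop in the cells -/
lemma drp_s1 {C1 R x0 Th E F W C' : ℝ} (hC1 : 0 ≤ C1) (hR : 1 ≤ R) (hx0 : 0 ≤ x0) (hx : x0 ≤ R)
    (hTh : 0 ≤ Th) (hE0 : 0 ≤ E) (hE : E ≤ F * W) (hC' : C' = 432 * (1 + C1) * R) :
    4 * (x0 + 2 * C' + C' ^ 2) * Th * E ≤ 1000000 * (1 + C1) ^ 2 * R ^ 2 * Th * (F * W) := by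
  have hR0 : 0 ≤ R := by linarith
  have h3 : x0 + 2 * C' + C' ^ 2 ≤ 200000 * (1 + C1) ^ 2 * R ^ 2 := by
    have a1 : R ≤ (1 + C1) ^ 2 * R ^ 2 := by
      have b1 : 1 ≤ (1 + C1) ^ 2 := one_le_pow₀ (by linarith)
      have b2 : R ≤ R ^ 2 := by nlinarith
      nlinarith [sq_nonneg R]
    have a2 : (1 + C1) * R ≤ (1 + C1) ^ 2 * R ^ 2 := by
      have b1 : 1 ≤ (1 + C1) * R := by nlinarith
      have b2 : (1 + C1) ^ 2 * R ^ 2 = ((1 + C1) * R) * ((1 + C1) * R) := by ring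
      rw [b2]
      exact le_mul_of_one_le_left (by positivity) b1
    have e1 : C' ^ 2 = 186624 * ((1 + C1) ^ 2 * R ^ 2) := by rw [hC']; ring
    have e2 : 2 * C' = 864 * ((1 + C1) * R) := by rw [hC']; ring
    rw [e1, e2]
    have h0 : 0 ≤ (1 + C1) ^ 2 * R ^ 2 := by positivity
    linarith
  have hC'0 : 0 ≤ C' := by rw [hC']; positivity
  have hFW : 0 ≤ F * W := hE0.trans hE
  calc 4 * (x0 + 2 * C' + C' ^ 2) * Th * E
      ≤ 4 * (200000 * (1 + C1) ^ 2 * R ^ 2) * Th * (F * W) := by gcongr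
    _ ≤ 1000000 * (1 + C1) ^ 2 * R ^ 2 * Th * (F * W) := by
        have : 0 ≤ (1 + C1) ^ 2 * R ^ 2 * Th * (F * W) := by positivity
        linarith

/-- scalar: the change of the fine mass -/
lemma drp_s2 {C1 C2 b R τ T E f u l2 P W : ℝ} (hC1 : 0 ≤ C1) (hC2 : 0 ≤ C2) (hb : 0 < b)
    (hR : 1 ≤ R) (hτ : 0 < τ) (hτT : τ ≤ T) (hE : 0 < E) (hTR : T ≤ R * E)
    (hf : 0 ≤ f) (hu : u ≤ 4 * R) (hu0 : 0 ≤ u) (hl2 : 0 ≤ l2) (hP0 : 0 ≤ τ + P)
    (hP : τ + P ≤ (1 + C1) * (τ + E)) (hW : T + E ≤ T * W)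
    (hs1 : (1 + C1) * (4 * C2 * R * f) ≤ 1 / 8) (hs2 : (1 + C1) * (6 * b * (T * l2)) ≤ 1 / 8)
    (hs3 : (1 + C1) * (6 * b * (l2 * E)) ≤ 1 / 4) :
    (τ + P) * (C2 / (τ + E) * u * f + 6 * l2 / (1 / b)) ≤ 1 / 2 ∧
      2 * (τ + P) ^ 2 * (C2 / (τ + E) * u * f + 6 * l2 / (1 / b)) ≤
        4 * (1 + C1) ^ 2 * (4 * C2 + 12 * b) * R ^ 2 * (f + T * l2) * (E * W) := by
  have hx : 0 < τ + E := by linarith
  have hT : 0 < T := hτ.trans_le hτT
  have hW1 : 1 ≤ W := by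
    by_contra h
    push Not at h
    nlinarith
  obtain ⟨G, hG⟩ : ∃ G : ℝ, G = C2 / (τ + E) * u * f + 6 * l2 / (1 / b) := ⟨_, rfl⟩
  have hG0 : 0 ≤ G := by rw [hG]; positivity
  have e1 : (τ + E) * G = C2 * u * f + 6 * b * (l2 * (τ + E)) := by
    rw [hG]
    field_simp
  have a1 : C2 * u * f ≤ 4 * C2 * R * f := by
    calc C2 * u * f ≤ C2 * (4 * R) * f := by gcongr
      _ = _ := by ring
  have a2 : l2 * (τ + E) ≤ T * l2 + l2 * E := by nlinarith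
  have hg1 : (τ + E) * G ≤ 4 * C2 * R * f + 6 * b * (T * l2) + 6 * b * (l2 * E) := by
    rw [e1]
    have : 6 * b * (l2 * (τ + E)) ≤ 6 * b * (T * l2 + l2 * E) := by gcongr
    linarith
  have hg2 : (τ + E) * G ≤ (4 * C2 + 12 * b) * R * (f + T * l2) * W := by
    have b0 : T * l2 + l2 * E = l2 * (T + E) := by ring
    have b1 : T * l2 + l2 * E ≤ T * l2 * W := by
      rw [b0]
      calc l2 * (T + E) ≤ l2 * (T * W) := by gcongr
        _ = _ := by ring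
    have b2 : 6 * b * (T * l2) + 6 * b * (l2 * E) ≤ 6 * b * (T * l2 * W) := by
      calc 6 * b * (T * l2) + 6 * b * (l2 * E) = 6 * b * (T * l2 + l2 * E) := by ring
        _ ≤ _ := by gcongr
    have c1 : 4 * C2 * R * f ≤ 4 * C2 * R * f * W := le_mul_of_one_le_right (by positivity) hW1
    have c2 : 6 * b * (T * l2 * W) ≤ 12 * b * R * (T * l2) * W := by
      have : 0 ≤ b * (T * l2) * W := by positivity
      calc 6 * b * (T * l2 * W) = 6 * (b * (T * l2) * W) := by ring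
        _ ≤ 12 * R * (b * (T * l2) * W) := by nlinarith
        _ = _ := by ring
    have c3 : 0 ≤ 4 * C2 * R * (T * l2) * W := by positivity
    have c4 : 0 ≤ 12 * b * R * f * W := by positivity
    calc (τ + E) * G ≤ 4 * C2 * R * f * W + 12 * b * R * (T * l2) * W := by linarith
      _ ≤ 4 * C2 * R * f * W + 12 * b * R * (T * l2) * W + (4 * C2 * R * (T * l2) * W +
          12 * b * R * f * W) := by linarith
      _ = _ := by ring
  rw [← hG]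
  have h1 : (τ + P) * G ≤ (1 + C1) * ((τ + E) * G) := by
    calc (τ + P) * G ≤ (1 + C1) * (τ + E) * G := mul_le_mul_of_nonneg_right hP hG0
      _ = _ := by ring
  have hC11 : 0 ≤ 1 + C1 := by linarith
  refine ⟨?_, ?_⟩
  · refine h1.trans ((mul_le_mul_of_nonneg_left hg1 hC11).trans ?_)
    have : (1 + C1) * (4 * C2 * R * f + 6 * b * (T * l2) + 6 * b * (l2 * E)) =
        (1 + C1) * (4 * C2 * R * f) + (1 + C1) * (6 * b * (T * l2)) +
        (1 + C1) * (6 * b * (l2 * E)) := by ring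
    linarith
  · have h2 : τ + P ≤ 2 * (1 + C1) * R * E := by
      have : τ + E ≤ 2 * (R * E) := by nlinarith
      calc τ + P ≤ (1 + C1) * (τ + E) := hP
        _ ≤ (1 + C1) * (2 * (R * E)) := by gcongr
        _ = _ := by ring
    have h3 : (τ + P) * G ≤ (1 + C1) * ((4 * C2 + 12 * b) * R * (f + T * l2) * W) :=
      h1.trans (mul_le_mul_of_nonneg_left hg2 hC11)
    calc 2 * (τ + P) ^ 2 * G = 2 * (τ + P) * ((τ + P) * G) := by ring
      _ ≤ 2 * (2 * (1 + C1) * R * E) *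
          ((1 + C1) * ((4 * C2 + 12 * b) * R * (f + T * l2) * W)) := by gcongr
      _ = _ := by ring

/-- scalar: rough momenta -/
lemma drp_s3 {C1 R T s1 E l2 δ x : ℝ} (hC1 : 0 ≤ C1) (hR : 1 ≤ R) (hs1 : 0 < s1) (hT : s1 ≤ T)
    (hE : 0 < E) (hTR : T ≤ R * E) (hl2 : 0 ≤ l2) (hδ : 0 < δ) (h : δ ≤ l2 * E)
    (hx : x ≤ C1 * (T + E)) : x ≤ 2 * C1 / δ * R ^ 2 * (T * l2) * (E * (1 + E / s1)) := by
  have hT0 : 0 < T := hs1.trans_le hT
  have h1 : x ≤ 2 * C1 * R * E := by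
    refine hx.trans ?_
    have : T + E ≤ 2 * (R * E) := by nlinarith
    calc C1 * (T + E) ≤ C1 * (2 * (R * E)) := by gcongr
      _ = _ := by ring
  have h2 : δ ≤ (T * l2) * (1 + E / s1) := by
    have h3 : l2 * E ≤ (T * l2) * (E / s1) := by
      rw [mul_div_assoc', le_div_iff₀ hs1]
      have : 0 ≤ l2 * E := by positivity
      nlinarith
    have h4 : (T * l2) * (E / s1) ≤ (T * l2) * (1 + E / s1) := by
      have : 0 ≤ T * l2 := by positivity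
      nlinarith
    linarith
  have hRR : R ≤ R ^ 2 := by nlinarith
  calc x ≤ 2 * C1 * R * E := h1
    _ = 2 * C1 / δ * R * E * δ := by field_simp
    _ ≤ 2 * C1 / δ * R ^ 2 * E * ((T * l2) * (1 + E / s1)) := by gcongr
    _ = _ := by ring

/-- change of the fine mass, central momenta -/
lemma drp_fine {b C1 C2 c t1 : ℝ} (hb : 0 < b) (hC1 : 0 < C1) (hC2 : 0 < C2)
    (h1 : ∀ (N : ℕ) [NeZero N] (t : ℝ), 0 < t → t ≤ t1 → ∀ k : V N, k ≠ 0 →
      Pik N b t k ≤ C1 * (t + EE k))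
    (h2 : ∀ (N l : ℕ) [NeZero N] [NeZero (N / l)] (t τ : ℝ), 0 < τ → τ ≤ t →
      9 ≤ t * (N : ℝ) ^ 2 → l ∣ N → t * (l : ℝ) ^ 2 ≤ 1 → ∀ c0 : ℝ, 0 < c0 →
      (∀ q : V N, Gnh N b τ q ≤ (τ + c0 * EE q)⁻¹) → ∀ p : V N, cen l p → p ≠ 0 →
      (τ + Pin N b τ p) * (eFin C2 c N l t (τ + EE p) + 6 * (l : ℝ) ^ 2 / c0) ≤ 1 / 2 →
      |PinC N l b t τ (rd p) - Pin N b τ p| ≤
        2 * (τ + Pin N b τ p) ^ 2 * (eFin C2 c N l t (τ + EE p) + 6 * (l : ℝ) ^ 2 / c0))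
    {N l : ℕ} [NeZero N] [NeZero (N / l)] {T τ R W f : ℝ} (hτ : 0 < τ) (hτT : τ ≤ T)
    (hTt : T ≤ t1) (hl : l ∣ N) (hTl : T * (l : ℝ) ^ 2 ≤ 1) (hTN9 : 9 ≤ T * (N : ℝ) ^ 2)
    (hR : 1 ≤ R) (hTN : T * (N : ℝ) ^ 2 ≤ 16 * R) (hf : f = (T * (l : ℝ) ^ 2) ^ c)
    {k : V N} (hk : k ≠ 0) (hcen : cen l k) (hTR : T ≤ R * EE k) (hW : T + EE k ≤ T * W)
    (hs1 : (1 + C1) * (4 * C2 * R * f) ≤ 1 / 8)
    (hs2 : (1 + C1) * (6 * b * (T * (l : ℝ) ^ 2)) ≤ 1 / 8)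
    (hs3 : (1 + C1) * (6 * b * ((l : ℝ) ^ 2 * EE k)) ≤ 1 / 4) :
    |PinC N l b T τ (rd k) - Pin N b τ k| ≤
      4 * (1 + C1) ^ 2 * (4 * C2 + 12 * b) * R ^ 2 * (f + T * (l : ℝ) ^ 2) * (EE k * W) := by
  have hT : 0 < T := hτ.trans_le hτT
  have hNp : (0 : ℝ) < N := by exact_mod_cast NeZero.pos N
  have hE : 0 < EE k := lt_of_lt_of_le (by positivity) (H462.EE_gap (N := N) hk)
  have hf0 : 0 ≤ f := by rw [hf]; positivity
  have hu : √(T * (N : ℝ) ^ 2) ≤ 4 * R := by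
    rw [Real.sqrt_le_left (by linarith)]
    nlinarith
  have hP0 := H963.Pin_nonneg (N := N) hb hτ hk
  have hP : τ + Pin N b τ k ≤ (1 + C1) * (τ + EE k) := by
    have h3 := (H963.Pin_le_Pik hb hτ hk).trans (h1 N τ hτ (hτT.trans hTt) k hk)
    nlinarith
  have h4 := drp_s2 (C1 := C1) (C2 := C2) (b := b) (R := R) (τ := τ) (T := T) (E := EE k)
    (f := f) (u := √(T * (N : ℝ) ^ 2)) (l2 := (l : ℝ) ^ 2) (P := Pin N b τ k) (W := W) hC1.le
    hC2.le hb hR hτ hτT hE hTR hf0 hu (Real.sqrt_nonneg _) (by positivity) (by linarith) hP hW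
    hs1 hs2 hs3
  have e1 : eFin C2 c N l T (τ + EE k) + 6 * (l : ℝ) ^ 2 / (1 / b) =
      C2 / (τ + EE k) * √(T * (N : ℝ) ^ 2) * f + 6 * (l : ℝ) ^ 2 / (1 / b) := by
    unfold eFin
    rw [hf]
  have h5 := h2 N l T τ hτ hτT hTN9 hl hTl (1 / b) (by positivity)
    (fun q => H276.Gnh_dom hb hτ q) k hcen hk (by rw [e1]; exact h4.1)
  rw [e1] at h5
  exact h5.trans h4.2

/-- the drop at fixed fine mass, central momenta -/
lemma drp_cell {b C1 t1 : ℝ} (hb : 0 < b) (hC1 : 0 < C1)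
    (h1 : ∀ (N : ℕ) [NeZero N] (t : ℝ), 0 < t → t ≤ t1 → ∀ k : V N, k ≠ 0 →
      Pik N b t k ≤ C1 * (t + EE k))
    {N l : ℕ} [NeZero N] [NeZero (N / l)] {T s0 s1 R ρ p : ℝ} (hs1 : 0 < s1) (hs10 : s1 ≤ s0)
    (hs0T : s0 ≤ T) (hTt : T ≤ t1) (hl : l ∣ N) (hR : 1 ≤ R) (hTN : T * (N : ℝ) ^ 2 ≤ 16 * R)
    (htyp : TypE N l b T (s1 / 2) 1 ρ p) (hp : p ≤ 1 / 2)
    {k : V N} (hk : k ≠ 0) (hcen : cen l k) (hTR : T ≤ R * EE k) :
    PinC N l b T s0 (rd k) - PinC N l b T s1 (rd k) ≤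
      1000000 * (1 + C1) ^ 2 * R ^ 2 * (ρ + 2 * p) * (EE k * (1 + EE k / s1)) := by
  have hs0 : 0 < s0 := hs1.trans_le hs10
  have hT : 0 < T := hs0.trans_le hs0T
  have hlp : (0 : ℝ) < l := by exact_mod_cast H864.l_pos hl
  have hk' : (rd k : V (N / l)) ≠ 0 := H375.rd_cen_ne hl hcen hk
  have hTh := ThN_typ (N := N) (l := l) hb hl (by positivity) (by linarith) htyp hp
  have hTh0 := H730.ThN_nonneg (N := N) (l := l) (t := T) hb hl (τ' := s1 / 2) (τ := T)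
    (by positivity) (by linarith) le_rfl
  have hm : PinC N l b T s0 (rd k) ≤ PinC N l b T T (rd k) :=
    H447.PinC_mono (N := N) (l := l) hb hl hs0 hs0T le_rfl hk'
  have hE' : EE (rd k : V (N / l)) / (l : ℝ) ^ 2 ≤ EE k := by
    rw [div_le_iff₀ (by positivity)]
    have := H864.EE_rd_le (N := N) hl k
    linarith
  have hE'' : EE k ≤ 3 * (EE (rd k : V (N / l)) / (l : ℝ) ^ 2) := by
    rw [← mul_div_assoc, le_div_iff₀ (by positivity)]
    have := H280.EE_cen_rd hl hcen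
    linarith
  have hE0 : 0 ≤ EE (rd k : V (N / l)) / (l : ℝ) ^ 2 :=
    div_nonneg (TM.H764.EE_nonneg _) (by positivity)
  obtain ⟨E, hE⟩ : ∃ E : ℝ, E = EE (rd k : V (N / l)) / (l : ℝ) ^ 2 := ⟨_, rfl⟩
  rw [← hE] at hE' hE'' hE0
  obtain ⟨C', hC'⟩ : ∃ C' : ℝ, C' = 432 * (1 + C1) * R := ⟨_, rfl⟩
  have htop : PinC N l b T T (rd k) ≤ C' * (EE (rd k : V (N / l)) / (l : ℝ) ^ 2) := by
    have h3 := H280.top2n (N := N) (l := l) hb hC1 h1 hl hT le_rfl hTt hk'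
    refine h3.trans ?_
    rw [← hE]
    have h4 : T ≤ 3 * R * E := by
      refine hTR.trans ?_
      have := mul_le_mul_of_nonneg_left hE'' (show (0 : ℝ) ≤ R by linarith)
      linarith
    have h5 : T + E ≤ 4 * R * E := by
      have := mul_nonneg (sub_nonneg.2 hR) hE0
      linarith
    calc 108 * (1 + C1) * (T + E) ≤ 108 * (1 + C1) * (4 * R * E) := by gcongr
      _ = _ := by rw [hC']; ring
  have hξ : 0 < 2 / √s1 := by positivity
  have h6 := H730.drop_N_EE (N := N) (l := l) (t := T) (τ := T) (σ := s1) (τ' := s1 / 2) hb hl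
    (by positivity) (by linarith) (hs10.trans hs0T) le_rfl hk' hξ (by
      rw [div_pow, Real.sq_sqrt hs1.le]
      norm_num) (by rw [hC']; positivity) htop
  have e1 : ((N : ℝ) / (2 / √s1)) ^ 2 / 4 = s1 * (N : ℝ) ^ 2 / 16 := by
    rw [div_div_eq_mul_div, div_pow, mul_pow, Real.sq_sqrt hs1.le]
    ring
  rw [e1, ← hE] at h6
  have hEW : E * (1 + E / s1) ≤ EE k * (1 + EE k / s1) := by
    have hk0 : 0 ≤ EE k := hE0.trans hE'
    gcongr
  have h7 := drp_s1 (C1 := C1) (R := R) (x0 := s1 * (N : ℝ) ^ 2 / 16)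
    (Th := ThN N l b T (s1 / 2) T) (E := E * (1 + E / s1)) (F := EE k)
    (W := 1 + EE k / s1) (C' := C') hC1.le hR (by positivity) (by
      have : s1 * (N : ℝ) ^ 2 ≤ T * (N : ℝ) ^ 2 :=
        mul_le_mul_of_nonneg_right (hs10.trans hs0T) (by positivity)
      linarith) hTh0 (by positivity) hEW hC'
  have h8 : PinC N l b T s0 (rd k) - PinC N l b T s1 (rd k) ≤
      PinC N l b T T (rd k) - PinC N l b T s1 (rd k) := by linarith
  refine h8.trans (h6.trans (h7.trans ?_))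
  have h9 : 0 ≤ ρ + 2 * p := hTh0.trans hTh
  have hk0 : 0 ≤ EE k := hE0.trans hE'
  gcongr

/-- **the drop of the neutral self energy**, all momenta, general letters -/
theorem drop_all {b : ℝ} (hb : 0 < b) (hh : 0 < helicity b) (hs : 1 / helicity b < 5 / 2) :
    ∃ C c t1 : ℝ, 1 ≤ C ∧ 0 < c ∧ 0 < t1 ∧ ∀ (N l : ℕ) [NeZero N] [NeZero (N / l)],
    ∀ T s0 s1 ρ p R : ℝ, 0 < s1 → s1 ≤ s0 → s0 ≤ T → T ≤ t1 → l ∣ N → T * (l : ℝ) ^ 2 ≤ 1 →
      9 ≤ T * (N : ℝ) ^ 2 → 1 ≤ R → T * (N : ℝ) ^ 2 ≤ 16 * R →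
      TypE N l b T (s1 / 2) 1 ρ p → p ≤ 1 / 2 →
      C * R * ((T * (l : ℝ) ^ 2) ^ c + T * (l : ℝ) ^ 2) ≤ 1 →
      ∀ k : V N, k ≠ 0 → |Pin N b s0 k - Pin N b s1 k| ≤
        C * R ^ 2 * (ρ + 2 * p + ((T * (l : ℝ) ^ 2) ^ c + T * (l : ℝ) ^ 2)) *
          (EE k * (1 + EE k / s1)) := by
  obtain ⟨C1, t1, hC1, ht1, h1⟩ := H280.top1 hb hh hs
  obtain ⟨C2, c, hC2, hc, h2⟩ := H375.PinC_rel (b := b) hb
  -- the constants
  obtain ⟨δ, hδ⟩ : ∃ δ : ℝ, δ = min 4 (1 / (24 * b * (1 + C1))) := ⟨_, rfl⟩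
  have hδ0 : 0 < δ := by rw [hδ]; positivity
  have hδ4 : δ ≤ 4 := by rw [hδ]; exact min_le_left _ _
  have hδb : δ ≤ 1 / (24 * b * (1 + C1)) := by rw [hδ]; exact min_le_right _ _
  obtain ⟨M, hM⟩ : ∃ M : ℝ, M = (1 + C1) ^ 2 * (4 * C2 + 12 * b) := ⟨_, rfl⟩
  have hM0 : 0 < M := by rw [hM]; positivity
  obtain ⟨A, hA⟩ : ∃ A : ℝ, A = (1 + C1) ^ 2 := ⟨_, rfl⟩
  have hA0 : 0 < A := by rw [hA]; positivity
  have hD0 : 0 ≤ 2 * C1 / δ := by positivity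
  have hM1 : (1 + C1) * (4 * C2) ≤ M := by
    rw [hM]
    have h3 : (1 + C1) ≤ (1 + C1) ^ 2 := by nlinarith
    calc (1 + C1) * (4 * C2) ≤ (1 + C1) ^ 2 * (4 * C2) := by gcongr
      _ ≤ (1 + C1) ^ 2 * (4 * C2 + 12 * b) := by gcongr; linarith
  have hM2 : (1 + C1) * (6 * b) ≤ M := by
    rw [hM]
    have h3 : (1 + C1) ≤ (1 + C1) ^ 2 := by nlinarith
    calc (1 + C1) * (6 * b) ≤ (1 + C1) ^ 2 * (6 * b) := by gcongr
      _ ≤ (1 + C1) ^ 2 * (4 * C2 + 12 * b) := by gcongr; linarith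
  obtain ⟨Q, hQ⟩ : ∃ Q : ℝ, Q = 1 + 1000000 * A + 8 * M + 2 * C1 / δ := ⟨_, rfl⟩
  have hQ1 : 1 ≤ Q := by rw [hQ]; linarith
  have hQM : 8 * M ≤ Q := by rw [hQ]; linarith
  have hQD : 2 * C1 / δ ≤ Q := by rw [hQ]; linarith
  refine ⟨Q, c, t1, hQ1, hc, ht1, ?_⟩
  intro N l _ _ T s0 s1 ρ p R hs1 hs10 hs0T hTt hl hTl hTN9 hR hTN htyp hp hsm k hk
  have hs0 : 0 < s0 := hs1.trans_le hs10
  have hT : 0 < T := hs0.trans_le hs0T
  have hNp : (0 : ℝ) < N := by exact_mod_cast NeZero.pos N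
  have hlp : (0 : ℝ) < l := by exact_mod_cast H864.l_pos hl
  have hgap := H462.EE_gap (N := N) hk
  have hE : 0 < EE k := lt_of_lt_of_le (by positivity) hgap
  have hTR : T ≤ R * EE k := by
    have h3 : T ≤ R * (16 / (N : ℝ) ^ 2) := by
      rw [← mul_div_assoc, le_div_iff₀ (by positivity)]
      linarith
    exact h3.trans (mul_le_mul_of_nonneg_left hgap (by linarith))
  obtain ⟨f, hf⟩ : ∃ f : ℝ, f = (T * (l : ℝ) ^ 2) ^ c := ⟨_, rfl⟩
  have hf0 : 0 ≤ f := by rw [hf]; positivity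
  obtain ⟨g, hg⟩ : ∃ g : ℝ, g = T * (l : ℝ) ^ 2 := ⟨_, rfl⟩
  have hg0 : 0 ≤ g := by rw [hg]; positivity
  have hTh := ThN_typ (N := N) (l := l) hb hl (by positivity) (by linarith) htyp hp
  have hTh0 := H730.ThN_nonneg (N := N) (l := l) (t := T) hb hl (τ' := s1 / 2) (τ := T)
    (by positivity) (by linarith) le_rfl
  have h9 : 0 ≤ ρ + 2 * p := hTh0.trans hTh
  obtain ⟨F, hF⟩ : ∃ F : ℝ, F = EE k * (1 + EE k / s1) := ⟨_, rfl⟩
  have hF0 : 0 ≤ F := by rw [hF]; positivity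
  rw [← hf, ← hg] at hsm ⊢
  rw [← hF]
  by_cases hc4 : (l : ℝ) ^ 2 * EE k ≤ δ
  · have hcen : cen l k := cen_of_small (hc4.trans hδ4)
    have hR0 : 0 < R := by linarith
    have k1 : M * (R * (f + g)) ≤ 1 / 8 := by
      have h3 : 8 * M * (R * (f + g)) ≤ Q * (R * (f + g)) :=
        mul_le_mul_of_nonneg_right hQM (by positivity)
      have h4 : Q * (R * (f + g)) = Q * R * (f + g) := by ring
      linarith
    have k2 : (1 + C1) * (4 * C2 * R * f) ≤ 1 / 8 := by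
      calc (1 + C1) * (4 * C2 * R * f) = (1 + C1) * (4 * C2) * (R * f) := by ring
        _ ≤ M * (R * (f + g)) := by gcongr; linarith
        _ ≤ _ := k1
    have k3 : (1 + C1) * (6 * b * (T * (l : ℝ) ^ 2)) ≤ 1 / 8 := by
      rw [← hg]
      calc (1 + C1) * (6 * b * g) = (1 + C1) * (6 * b) * (1 * g) := by ring
        _ ≤ M * (R * (f + g)) := by gcongr; linarith
        _ ≤ _ := k1
    have k4 : (1 + C1) * (6 * b * ((l : ℝ) ^ 2 * EE k)) ≤ 1 / 4 := by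
      have h3 := hc4.trans hδb
      rw [le_div_iff₀ (by positivity)] at h3
      linarith
    have hW : T + EE k ≤ T * (1 + EE k / s1) := by
      have h3 : EE k ≤ T * (EE k / s1) := by
        rw [mul_div_assoc', le_div_iff₀ hs1]
        have := mul_le_mul_of_nonneg_right (hs10.trans hs0T) hE.le
        linarith
      linarith
    have f0 := drp_fine hb hC1 hC2 h1 h2 (N := N) (l := l) (T := T) (τ := s0) (R := R)
      (W := 1 + EE k / s1) (f := f) hs0 hs0T hTt hl hTl hTN9 hR hTN hf hk hcen hTR hW k2 k3 k4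
    have f1 := drp_fine hb hC1 hC2 h1 h2 (N := N) (l := l) (T := T) (τ := s1) (R := R)
      (W := 1 + EE k / s1) (f := f) hs1 (hs10.trans hs0T) hTt hl hTl hTN9 hR hTN hf hk hcen hTR
      hW k2 k3 k4
    have hd := drp_cell hb hC1 h1 (N := N) (l := l) hs1 hs10 hs0T hTt hl hR hTN htyp hp hk hcen
      hTR
    have hmono : 0 ≤ PinC N l b T s0 (rd k) - PinC N l b T s1 (rd k) :=
      sub_nonneg.2 (H447.PinC_mono (N := N) (l := l) hb hl hs1 hs10 hs0T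
        (H375.rd_cen_ne hl hcen hk))
    rw [← hg, ← hF] at f0 f1
    rw [← hF, ← hA] at hd
    have e : Pin N b s0 k - Pin N b s1 k = -(PinC N l b T s0 (rd k) - Pin N b s0 k) +
        (PinC N l b T s0 (rd k) - PinC N l b T s1 (rd k)) +
        (PinC N l b T s1 (rd k) - Pin N b s1 k) := by ring
    rw [e]
    refine (abs_add_le _ _).trans ((add_le_add (abs_add_le _ _) le_rfl).trans ?_)
    rw [abs_neg, abs_of_nonneg hmono]
    have hfin : Q * R ^ 2 * (ρ + 2 * p + (f + g)) * F =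
        1000000 * A * R ^ 2 * (ρ + 2 * p) * F +
        8 * M * R ^ 2 * (f + g) * F + ((1 + 2 * C1 / δ) * R ^ 2 * (ρ + 2 * p + (f + g)) * F +
        1000000 * A * R ^ 2 * (f + g) * F + 8 * M * R ^ 2 * (ρ + 2 * p) * F) := by
      rw [hQ]
      ring
    rw [hfin]
    have g1 : 0 ≤ (1 + 2 * C1 / δ) * R ^ 2 * (ρ + 2 * p + (f + g)) * F := by positivity
    have g2 : 0 ≤ 1000000 * A * R ^ 2 * (f + g) * F := by positivity
    have g3 : 0 ≤ 8 * M * R ^ 2 * (ρ + 2 * p) * F := by positivity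
    have e2 : 4 * (1 + C1) ^ 2 * (4 * C2 + 12 * b) * R ^ 2 * (f + g) * F =
        4 * M * R ^ 2 * (f + g) * F := by rw [hM]; ring
    rw [e2] at f0 f1
    linarith
  · push Not at hc4
    have hp1 := H963.Pin_nonneg (N := N) hb hs1 hk
    have hmono := H276.Pin_mono (N := N) hb hs1 hs10 hk
    have hup : Pin N b s0 k ≤ C1 * (T + EE k) := by
      refine (H963.Pin_le_Pik hb hs0 hk).trans ((h1 N s0 hs0 (hs0T.trans hTt) k hk).trans ?_)
      gcongr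
    rw [abs_of_nonneg (sub_nonneg.2 hmono)]
    have h3 := drp_s3 (C1 := C1) (R := R) (T := T) (s1 := s1) (E := EE k) (l2 := (l : ℝ) ^ 2)
      (δ := δ) (x := Pin N b s0 k - Pin N b s1 k) hC1.le hR hs1 (hs10.trans hs0T) hE hTR
      (by positivity) hδ0 hc4.le (by linarith)
    rw [← hg, ← hF] at h3
    refine h3.trans ?_
    have h4 : g ≤ ρ + 2 * p + (f + g) := by linarith
    calc 2 * C1 / δ * R ^ 2 * g * F ≤ Q * R ^ 2 * (ρ + 2 * p + (f + g)) * F := by gcongr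

end

end Vale.Agent.P159.H159
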