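import Vale.Agent.P159.H159.Drp
import Vale.Agent.P159.H239.FamR
import Vale.Agent.P159.H145.Nu2
import Vale.Agent.P159.H145.Nu3
import Vale.Agent.P159.H846.Fs1

/-!
P159 (helper159): **the drop of the neutral self energy as a family** (module DROP of P_up).

* `TypA` : typical sources at the real mass of the state (helper730's output (A));
* `ThS`  : the entropy loss `ThN <= eps ^ q`, every `q < 1` (`fam_ThS`);
* `DropS` : the drop at all momenta, `eps ^ q * (1 + EE / t') * EE` (`fam_dropS`), text of 846;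
* `Drop'` : low momenta (`fam_drop'`), text of 972.
-/

set_option linter.unusedSectionVars false

namespace Vale.Agent.P159.H159

open Finset Matrix MeasureTheory
open Vale.Agent.P159.H37
open Vale.Agent.P159.H972
open Vale.Agent.P159.TM.H764 (EE)
open Vale.Agent.P159.TM.Spec (V)
open Vale.Agent.P159.H963 (nwt Pin)
open Vale.Agent.P159.H730 (ThN)
open Vale.Agent.P159.H239 (TypE Fam Sel)
open Vale.Agent.P159.H145
open Vale.Agent.P159.H447 (K4S SN cl cl_eq cl_nonneg)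

noncomputable section

/-! ### numbers -/

/-- scalar core: all losses are small powers -/
lemma drop_num {C q c th thp α B C0 u : ℝ} {J : ℕ} (hC : 0 ≤ C) (hq0 : 0 < q) (hq : q < 1)
    (hc : 0 < c) (hth : 0 < th) (hthp : 0 < thp) (hB : 0 ≤ B) (hα0 : 0 ≤ α)
    (hα : α ≤ (1 - q) / 32) (hthp' : thp ≤ (1 - q) / 128) (hu0 : 0 < u) (hu : u ≤ (1 - q) / 8)
    (hJ : (1 / 2 : ℝ) ^ J ≤ (1 - q) / 8) (hC0 : 2 ≤ C0 * c) (hC1 : 2 ≤ C0) :
    ∃ E : ℝ, 0 < E ∧ ∀ ε, 0 < ε → ε ≤ E → ∀ Mr nb g : ℝ, 0 ≤ Mr → Mr ≤ 256 * ε ^ (-(8 * thp)) →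
      0 ≤ nb → nb ≤ B * ε ^ (-α) → 0 ≤ g → g ≤ 4 * ε ^ (2 * C0) →
      C * nb ^ 4 * (cl J (8 * (ε ^ (-u) * (128 * Mr ^ 2 * nb ^ 2 * ε))) +
        2 * (18 * Real.exp (-(ε ^ (-(th / 16)))) + 17 * Real.exp (-(√(ε ^ (-u)) / 10))) +
        (g ^ c + g)) ≤ ε ^ q := by
  obtain ⟨μ, hμ⟩ : ∃ μ : ℝ, μ = 1 - q := ⟨_, rfl⟩
  have hμ0 : 0 < μ := by linarith
  have hμ1 : μ < 1 := by linarith
  rw [← hμ] at hα hthp' hu hJ
  obtain ⟨h, hh⟩ : ∃ h : ℝ, h = (1 / 2 : ℝ) ^ J := ⟨_, rfl⟩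
  have hh0 : 0 ≤ h := by rw [hh]; positivity
  rw [← hh] at hJ
  -- the exponent of all terms
  obtain ⟨w, hw⟩ : ∃ w : ℝ, w = 1 - 3 * μ / 4 + 4 * α := ⟨_, rfl⟩
  have hw2 : w ≤ 2 := by rw [hw]; linarith
  obtain ⟨E1, hE1, h1⟩ := exp_absorb (c := 1) (a := th / 16) w one_pos (by linarith)
  obtain ⟨E2, hE2, h2⟩ := exp_absorb (c := 1 / 10) (a := u / 2) w (by norm_num) (by linarith)
  obtain ⟨A1, hA1⟩ : ∃ A1 : ℝ, A1 = 8 * (8 * (128 * 256 ^ 2 * B ^ 2)) ^ (1 - h) := ⟨_, rfl⟩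
  have hA10 : 0 ≤ A1 := by rw [hA1]; positivity
  obtain ⟨A, hA⟩ : ∃ A : ℝ, A = C * B ^ 4 * (A1 + 2 * (18 + 17) + (4 ^ c + 4)) := ⟨_, rfl⟩
  have hA0 : 0 ≤ A := by rw [hA]; positivity
  obtain ⟨E3, hE3, h3⟩ := absorb (A := A) (a := μ / 4) (κ := 1) hA0 (by linarith) one_pos
  refine ⟨min (min E1 E2) (min E3 1), by positivity, ?_⟩
  intro ε he hee Mr nb g hM0 hM hn0 hn hg0 hg
  have k1 := h1 ε he (hee.trans ((min_le_left _ _).trans (min_le_left _ _)))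
  have k2 := h2 ε he (hee.trans ((min_le_left _ _).trans (min_le_right _ _)))
  have k3 := h3 ε he (hee.trans ((min_le_right _ _).trans (min_le_left _ _)))
  have he1 : ε ≤ 1 := hee.trans ((min_le_right _ _).trans (min_le_right _ _))
  -- the cumulant
  have bM : Bd ε Mr 256 (-(8 * thp)) := ⟨hM0, by norm_num, hM⟩
  have bn : Bd ε nb B (-α) := ⟨hn0, hB, hn⟩
  have bu : Bd ε (ε ^ (-u)) 1 (-u) := ⟨by positivity, zero_le_one, by rw [one_mul]⟩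
  have b1 : Bd ε (8 * (ε ^ (-u) * (128 * Mr ^ 2 * nb ^ 2 * ε)))
      (8 * (1 * (128 * 256 ^ 2 * B ^ 2 * 1)))
      (-u + (-(8 * thp) * (2 : ℕ) + -α * (2 : ℕ) + 1)) :=
    (bu.mul he ((((bM.pow he 2).smul (by norm_num : (0 : ℝ) ≤ 128)).mul he (bn.pow he 2)).mul he
      (Bd.self he))).smul (by norm_num)
  have hh1 : h ≤ 1 := by linarith
  have b2 : Bd ε (cl J (8 * (ε ^ (-u) * (128 * Mr ^ 2 * nb ^ 2 * ε)))) A1 w := by
    rw [cl_eq J b1.x0, ← hh]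
    have b3 := (b1.rp he (s := 1 - h) (by linarith)).smul (by norm_num : (0 : ℝ) ≤ 8)
    refine b3.mono he he1 (by rw [hA1]; simp) ?_
    push_cast
    have e1 : (-u + (-(8 * thp) * 2 + -α * 2 + 1)) * (1 - h) =
        (1 - u - 16 * thp - 2 * α) - (1 - u - 16 * thp - 2 * α) * h := by ring
    have e2 : (1 - u - 16 * thp - 2 * α) * h ≤ 1 * h :=
      mul_le_mul_of_nonneg_right (by linarith) hh0
    rw [e1, hw]
    linarith
  -- the exponentials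
  have b4 : Bd ε (Real.exp (-(ε ^ (-(th / 16))))) 1 w := by
    refine ⟨(Real.exp_pos _).le, zero_le_one, ?_⟩
    rw [one_mul]
    rw [one_mul] at k1
    exact k1
  have b5 : Bd ε (Real.exp (-(√(ε ^ (-u)) / 10))) 1 w := by
    refine ⟨(Real.exp_pos _).le, zero_le_one, ?_⟩
    rw [one_mul]
    have e1 : √(ε ^ (-u)) = ε ^ (-(u / 2)) := by
      rw [Real.sqrt_eq_rpow, ← Real.rpow_mul he.le]
      congr 1
      ring
    rw [e1]
    have e2 : ε ^ (-(u / 2)) / 10 = 1 / 10 * ε ^ (-(u / 2)) := by ring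
    rw [e2]
    exact k2
  -- the cells
  have bg : Bd ε g 4 (2 * C0) := ⟨hg0, by norm_num, hg⟩
  have b6 : Bd ε (g ^ c) (4 ^ c) w := (bg.rp he hc.le).exp he he1 (by nlinarith)
  have b7 : Bd ε g 4 w := bg.exp he he1 (by linarith)
  -- the sum
  have b8 : Bd ε (cl J (8 * (ε ^ (-u) * (128 * Mr ^ 2 * nb ^ 2 * ε))) +
        2 * (18 * Real.exp (-(ε ^ (-(th / 16)))) + 17 * Real.exp (-(√(ε ^ (-u)) / 10))) +
        (g ^ c + g)) (A1 + 2 * (18 * 1 + 17 * 1) + (4 ^ c + 4)) w :=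
    (b2.add (((b4.smul (by norm_num : (0 : ℝ) ≤ 18)).add
      (b5.smul (by norm_num : (0 : ℝ) ≤ 17))).smul zero_le_two)).add (b6.add b7)
  have b9 := (((bn.pow he 4).smul hC).mul he b8).le
  refine b9.trans ?_
  have e3 : C * B ^ 4 * (A1 + 2 * (18 * 1 + 17 * 1) + (4 ^ c + 4)) = A := by rw [hA]; norm_num
  rw [e3]
  have e4 : -α * ((4 : ℕ) : ℝ) + w = μ / 4 + q := by
    rw [hw, hμ]
    push_cast
    ring
  rw [e4, Real.rpow_add he, ← mul_assoc]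
  exact (mul_le_mul_of_nonneg_right k3 (Real.rpow_nonneg he.le _)).trans (one_mul _).le

/-! ### the numbers of a state -/

lemma nz_cell {r s : ℕ} (h : s ≤ r) : NeZero (2 ^ r / 2 ^ s) :=
  ⟨by rw [Nat.pow_div h two_pos]; positivity⟩

/-- the mass ratio -/
lemma m_num {thp ε : ℝ} {n m j : ℕ} (ht : 0 ≤ thp) (hε : 0 < ε) (hε1 : ε ≤ 1) (hj : j ≤ m)
    (hm : m ≤ n + 4 * lg thp ε) : ((2 : ℝ) ^ (j - n)) ^ 2 ≤ 256 * ε ^ (-(8 * thp)) := by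
  have h1 : (2 : ℝ) ^ (j - n) ≤ (2 ^ lg thp ε) ^ 4 := by
    rw [← pow_mul]
    exact pow_le_pow_right₀ one_le_two (by omega)
  have h2 : ((2 : ℝ) ^ (j - n)) ^ 2 ≤ (2 ^ lg thp ε) ^ 8 := by
    calc ((2 : ℝ) ^ (j - n)) ^ 2 ≤ ((2 ^ lg thp ε) ^ 4) ^ 2 := pow_le_pow_left₀ (by positivity) h1 2
      _ = (2 ^ lg thp ε) ^ 8 := by ring
  refine h2.trans ?_
  calc ((2 : ℝ) ^ lg thp ε) ^ 8 ≤ (2 * ε ^ (-thp)) ^ 8 :=
        pow_le_pow_left₀ (by positivity) (two_lg_le ht hε hε1) 8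
    _ = 256 * ε ^ (-(8 * thp)) := by
      rw [pow_base hε]
      congr 1
      · norm_num
      · congr 1
        push_cast
        ring

/-- the number of blocks -/
lemma nb_num {th thp x1 ε : ℝ} {n r q Q : ℕ} (hth : 0 < th) (ht : 0 < thp) (hx : 0 < x1)
    (hε : 0 < ε) (hε1 : ε ≤ 1) (hq : (q : ℝ) * thp ≤ x1 + (Q + 3) * thp)
    (hr : r ≤ n + lg th ε + q * (4 * lg thp ε)) :
    (2 : ℝ) ^ (r - n) ≤ 2 * (2 : ℝ) ^ (4 * ((x1 + (Q + 3) * thp) / thp)) *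
      ε ^ (-(th + 4 * (x1 + (Q + 3) * thp))) := by
  obtain ⟨z, hz⟩ : ∃ z : ℝ, z = x1 + (Q + 3) * thp := ⟨_, rfl⟩
  rw [← hz] at hq ⊢
  have hz0 : 0 < z := by rw [hz]; positivity
  have h1 : (2 : ℝ) ^ (r - n) ≤ 2 ^ lg th ε * (2 ^ lg thp ε) ^ (4 * q) := by
    rw [← pow_mul, ← pow_add]
    refine pow_le_pow_right₀ one_le_two ?_
    have : lg thp ε * (4 * q) = q * (4 * lg thp ε) := by ring
    omega
  have h2 : ((2 : ℝ) ^ lg thp ε) ^ (4 * q) ≤ 2 ^ (4 * (z / thp)) * ε ^ (-(4 * z)) := by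
    calc ((2 : ℝ) ^ lg thp ε) ^ (4 * q) ≤ (2 * ε ^ (-thp)) ^ (4 * q) :=
          pow_le_pow_left₀ (by positivity) (two_lg_le ht.le hε hε1) _
      _ = 2 ^ (4 * q) * ε ^ (-thp * ((4 * q : ℕ) : ℝ)) := pow_base hε 2 _
      _ ≤ _ := by
        refine mul_le_mul ?_ ?_ (by positivity) (by positivity)
        · rw [← Real.rpow_natCast]
          refine Real.rpow_le_rpow_of_exponent_le one_le_two ?_
          push_cast
          have : (q : ℝ) ≤ z / thp := (le_div_iff₀ ht).2 hq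
          linarith
        · refine rpow_anti hε hε1 ?_
          push_cast
          nlinarith
  calc (2 : ℝ) ^ (r - n) ≤ 2 ^ lg th ε * (2 ^ lg thp ε) ^ (4 * q) := h1
    _ ≤ (2 * ε ^ (-th)) * (2 ^ (4 * (z / thp)) * ε ^ (-(4 * z))) := by
        gcongr
        exact two_lg_le hth.le hε hε1
    _ = 2 * (2 : ℝ) ^ (4 * (z / thp)) * (ε ^ (-th) * ε ^ (-(4 * z))) := by ring
    _ = _ := by
      rw [← Real.rpow_add hε]
      congr 2
      ring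

/-- the cells -/
lemma g_num {C0 ε T : ℝ} {n : ℕ} (hε : 0 < ε) (hn : lg C0 ε ≤ n)
    (hT : T ≤ 4 * tn n) : T * (((2 ^ (n - lg C0 ε) : ℕ) : ℝ)) ^ 2 ≤ 4 * ε ^ (2 * C0) := by
  have h1 : tn n * (((2 ^ (n - lg C0 ε) : ℕ) : ℝ)) ^ 2 = ((2 ^ lg C0 ε : ℝ)⁻¹) ^ 2 := by
    push_cast
    rw [tn_eq', ← mul_pow]
    congr 1
    have : (2 : ℝ) ^ n = 2 ^ (n - lg C0 ε) * 2 ^ lg C0 ε := by
      rw [← pow_add, Nat.sub_add_cancel hn]
    rw [this, mul_inv]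
    field_simp
  have h2 : ((2 ^ lg C0 ε : ℝ)⁻¹) ≤ ε ^ C0 := by
    have h1 := inv_anti₀ (by positivity) (two_lg_ge (c := C0) hε)
    rwa [Real.rpow_neg hε.le, inv_inv] at h1
  calc T * (((2 ^ (n - lg C0 ε) : ℕ) : ℝ)) ^ 2
      ≤ 4 * tn n * (((2 ^ (n - lg C0 ε) : ℕ) : ℝ)) ^ 2 :=
        mul_le_mul_of_nonneg_right hT (by positivity)
    _ = 4 * ((2 ^ lg C0 ε : ℝ)⁻¹) ^ 2 := by rw [mul_assoc, h1]
    _ ≤ 4 * (ε ^ C0) ^ 2 := by gcongr
    _ = 4 * ε ^ (2 * C0) := by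
      rw [← Real.rpow_natCast (ε ^ C0), ← Real.rpow_mul hε.le]
      congr 2
      push_cast
      ring

/-- sharp typical sources, from `DN <= ε` and a large amplitude -/
lemma typ_x {b τ ε lam Y p : ℝ} {n r s j J : ℕ} [NeZero (2 ^ r / 2 ^ s)] (hb : 0 < b)
    (hn : n ≤ r) (hs : s ≤ r) (hnj : n ≤ j) (h1 : tn n ≤ τ) (h2 : τ ≤ 4 * tn n) (hε : 0 < ε)
    (hD : DN b n r s τ ≤ ε) (h : TypE (2 ^ r) (2 ^ s) b τ (tn j / 2) Y 1 p)
    (hY : (2 : ℝ) ^ (J + 1) ≤ Y) (hp : p ≤ 1 / 2) (hlam : 0 ≤ lam) :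
    TypE (2 ^ r) (2 ^ s) b τ (tn j / 2) 1
      (cl J (8 * (lam * (128 * ((2 ^ (j - n)) ^ 2) ^ 2 * (2 ^ (r - n)) ^ 2 * ε))))
      (18 * p + 17 * Real.exp (-(√lam / 10))) := by
  have hl : 2 ^ s ∣ 2 ^ r := Nat.pow_dvd_pow 2 hs
  have htj : 0 < tn j := H972.tn_pos j
  have htn : 0 < tn n := H972.tn_pos n
  have hτ : 0 < τ := htn.trans_le h1
  have hr := H145.tn_ratio hnj
  obtain ⟨M, hM⟩ : ∃ M : ℝ, M = ((2 : ℝ) ^ (j - n)) ^ 2 := ⟨_, rfl⟩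
  have hM1 : 1 ≤ M := by rw [hM]; exact one_le_pow₀ (one_le_pow₀ one_le_two)
  rw [← hM] at hr ⊢
  have hjn : tn j ≤ tn n := by
    rw [hr]
    exact le_mul_of_one_le_left htj.le hM1
  have hst : tn j / 2 < τ := by linarith
  obtain ⟨nb, hnb⟩ : ∃ nb : ℝ, nb = (2 : ℝ) ^ (r - n) := ⟨_, rfl⟩
  have hnb0 : 0 < nb := by rw [hnb]; positivity
  have hK := K4_le hn hD
  rw [← hnb] at hK ⊢
  have hY1 : 1 ≤ Y := (one_le_pow₀ one_le_two).trans hY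
  refine TypE.exact h hb hl (by positivity) hst zero_le_one (by rw [mul_one]; exact hY) hY1 le_rfl
    hp (by positivity) ?_ hlam
  obtain ⟨K, hKe⟩ : ∃ K : ℝ, K = K4S (nwt (2 ^ r) b τ 0) (SN (2 ^ r) (2 ^ s)) (SN (2 ^ r) (2 ^ s))
    := ⟨_, rfl⟩
  rw [← hKe] at hK ⊢
  have h4 : (τ ^ 2 / (tn j / 2)) ^ 2 * K = (τ / (tn j / 2)) ^ 2 * (τ ^ 2 * K) := by
    field_simp
  have h5 : τ / (tn j / 2) ≤ 8 * M := by
    rw [div_le_iff₀ (by positivity)]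
    calc τ ≤ 4 * tn n := h2
      _ = 8 * M * (tn j / 2) := by rw [hr]; ring
  have h6 : (τ / (tn j / 2)) ^ 2 ≤ (8 * M) ^ 2 := pow_le_pow_left₀ (by positivity) h5 2
  have h7 : 0 ≤ 2 * nb ^ 2 * ε := by positivity
  rw [one_pow, one_mul, h4]
  calc (τ / (tn j / 2)) ^ 2 * (τ ^ 2 * K) ≤ (τ / (tn j / 2)) ^ 2 * (2 * nb ^ 2 * ε) := by gcongr
    _ ≤ (8 * M) ^ 2 * (2 * nb ^ 2 * ε) := by gcongr
    _ = 128 * M ^ 2 * nb ^ 2 * ε := by ring

/-! ### the families -/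

/-- **typical sources at the real mass of the state** (output (A) of helper730), every prior -/
def TypA (P : Par) (b : ℝ) (N0 : ℕ) : Prop :=
  ∀ n e τ a, N0 ≤ n → 0 < e → e ≤ P.es → tn n ≤ τ → τ ≤ 4 * tn n → GP P b a n e τ →
    ∀ r, P.TT n e r → ∀ s, 0 < s → s < τ → ∀ [NeZero (2 ^ r / 2 ^ P.sE n e)],
      TypE (2 ^ r) (2 ^ P.sE n e) b τ s (e ^ (-(P.th / 16))) 1
        (Real.exp (-(e ^ (-(P.th / 16)))))

/-- numbers of the drop: small entropy and small cells, absorbed constants -/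
def DrN (P : Par) (b C c q : ℝ) (N0 : ℕ) : Prop :=
  ∀ n m ε Y, SI P b N0 n m ε Y → ∃ τ a, tn n ≤ τ ∧ τ ≤ 4 * tn n ∧
    (∀ e, ε ≤ e → e ≤ P.es → GP P b a n e τ) ∧ ∀ r, P.TT n ε r → ∀ j, n ≤ j → j ≤ m →
      ∀ [NeZero (2 ^ r / 2 ^ P.sE n ε)], ∃ ρ p, 0 ≤ p ∧ p ≤ 1 / 2 ∧ 0 ≤ ρ ∧
        TypE (2 ^ r) (2 ^ P.sE n ε) b τ (tn j / 2) 1 ρ p ∧
        C * ((2 : ℝ) ^ (r - n)) ^ 4 * (ρ + 2 * p +
          ((τ * ((2 ^ P.sE n ε : ℕ) : ℝ) ^ 2) ^ c + τ * ((2 ^ P.sE n ε : ℕ) : ℝ) ^ 2)) ≤ ε ^ q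

variable {b1 b2 pf : ℝ}

theorem fam_DrN {b C c q : ℝ} (hb : 0 < b) (hC : 1 ≤ C) (hc : 0 < c) (hq0 : 0 < q) (hq : q < 1)
    (hT : Fam b1 b2 pf fun P N0 => TypA P b N0) : Fam b1 b2 pf fun P N0 => DrN P b C c q N0 := by
  have hμ : 0 < 1 - q := by linarith
  obtain ⟨J, hJ⟩ := exists_pow_lt_of_lt_one (show 0 < (1 - q) / 8 by linarith)
    (show (1 / 2 : ℝ) < 1 by norm_num)
  refine (hT.and (S' := fun P N0 => TypA P b N0 → DrN P b C c q N0) ?_).imp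
    fun P N0 _ _ _ _ h => h.2 h.1
  refine ⟨0, fun W _ => ⟨1, one_pos, fun ys hy _ => ⟨0, fun X0 _ => ?_⟩⟩⟩
  refine ⟨(1 - q) / 512, by positivity, fun x1 hx1 hx1' => ⟨0, fun Q _ => ?_⟩⟩
  refine ⟨(1 - q) / 512 / (Q + 3), by positivity, fun thp ht1 ht2 => ?_⟩
  refine ⟨(1 - q) / 128, by positivity, fun th ht3 ht4 => ⟨max 2 (2 / c), fun C0 hC1 hC2 => ?_⟩⟩
  have hQ3 : (0 : ℝ) < (Q : ℝ) + 3 := by positivity
  have ht5 : (Q + 3) * thp ≤ (1 - q) / 512 := by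
    rw [le_div_iff₀ hQ3] at ht2
    linarith
  have ht6 : thp ≤ (1 - q) / 512 := by
    have : (1 : ℝ) ≤ Q + 3 := by
      have : (0 : ℝ) ≤ Q := Nat.cast_nonneg Q
      linarith
    have := le_mul_of_one_le_left ht1.le this
    linarith
  have hCc : 2 ≤ C0 * c := by
    have := (le_max_right 2 (2 / c)).trans hC2
    rwa [div_le_iff₀ hc] at this
  have hC02 : 2 ≤ C0 := (le_max_left 2 (2 / c)).trans hC2
  obtain ⟨B, hB⟩ : ∃ B : ℝ, B = 2 * (2 : ℝ) ^ (4 * ((x1 + (Q + 3) * thp) / thp)) := ⟨_, rfl⟩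
  have hB0 : 0 ≤ B := by rw [hB]; positivity
  obtain ⟨E1, hE1, h1⟩ := drop_num (C := C) (q := q) (c := c) (th := th) (thp := thp)
    (α := th + 4 * (x1 + (Q + 3) * thp)) (B := B) (C0 := C0) (u := (1 - q) / 8) (J := J)
    (by linarith) hq0 hq hc ht3 ht1 hB0 (by positivity) (by linarith) (by linarith)
    (by positivity) le_rfl hJ.le hCc hC02
  -- amplitude
  obtain ⟨E2, hE2, h2⟩ := absorb (A := (2 : ℝ) ^ (J + 1)) (a := th / 16) (κ := 1) (by positivity)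
    (by positivity) one_pos
  -- small probabilities
  obtain ⟨E3, hE3, h3⟩ := exp_absorb (c := 1) (a := th / 16) 1 one_pos (by linarith)
  obtain ⟨E4, hE4, h4⟩ := exp_absorb (c := 1 / 10) (a := (1 - q) / 16) 1 (by norm_num)
    (by linarith)
  refine ⟨min (min E1 E2) (min (min E3 E4) (1 / 100)), by positivity, fun P hP hes => ⟨0, ?_⟩⟩
  intro N0 _ hTy n m ε Y hS
  have hε : 0 < ε := (pow_pos hS.yb.1 2).trans_le hS.yε
  have hεE := hS.εes.trans hes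
  have k0 : ε ≤ 1 / 100 := hεE.trans ((min_le_right _ _).trans (min_le_right _ _))
  have hε1 : ε ≤ 1 := by linarith
  have k1 := h1 ε hε (hεE.trans ((min_le_left _ _).trans (min_le_left _ _)))
  have k2 := h2 ε hε (hεE.trans ((min_le_left _ _).trans (min_le_right _ _)))
  have k3 := h3 ε hε (hεE.trans ((min_le_right _ _).trans ((min_le_left _ _).trans
    (min_le_left _ _))))
  have k4 := h4 ε hε (hεE.trans ((min_le_right _ _).trans ((min_le_left _ _).trans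
    (min_le_right _ _))))
  obtain ⟨τ, a, hτ1, hτ2, hG⟩ := hS.good
  refine ⟨τ, a, hτ1, hτ2, hG, fun r hr j hnj hjm => ?_⟩
  intro inst
  have hGP := hG ε le_rfl hS.εes
  have hsr : P.sE n ε ≤ r := by
    have h5 : P.sE n ε ≤ n := Nat.sub_le _ _
    have := hr.1
    omega
  have hnr : n ≤ r := by have := hr.1; omega
  have htj : 0 < tn j := H972.tn_pos j
  have htn : 0 < tn n := H972.tn_pos n
  have htjn : tn j ≤ tn n := by
    rw [H145.tn_ratio hnj]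
    exact le_mul_of_one_le_left htj.le (one_le_pow₀ (one_le_pow₀ one_le_two))
  have hY := hTy n ε τ a hS.n0 hε hS.εes hτ1 hτ2 hGP r hr (tn j / 2) (by positivity)
    (by linarith)
  rw [hP.hth] at hY
  have hamp : (2 : ℝ) ^ (J + 1) ≤ ε ^ (-(th / 16)) := by
    have h5 : ε ^ (th / 16) * ε ^ (-(th / 16)) = 1 := by
      rw [← Real.rpow_add hε, add_neg_cancel, Real.rpow_zero]
    have h6 : 0 < ε ^ (-(th / 16)) := Real.rpow_pos_of_pos hε _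
    calc (2 : ℝ) ^ (J + 1) = (2 : ℝ) ^ (J + 1) * ε ^ (th / 16) * ε ^ (-(th / 16)) := by
          rw [mul_assoc, h5, mul_one]
      _ ≤ 1 * ε ^ (-(th / 16)) := mul_le_mul_of_nonneg_right k2 h6.le
      _ = _ := one_mul _
  rw [one_mul, Real.rpow_one] at k3
  have hp1 : Real.exp (-(ε ^ (-(th / 16)))) ≤ 1 / 2 := by linarith
  have hlam : 0 ≤ ε ^ (-((1 - q) / 8)) := Real.rpow_nonneg hε.le _
  have hX := typ_x (J := J) (lam := ε ^ (-((1 - q) / 8))) hb hnr hsr hnj hτ1 hτ2 hε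
    (hGP.D r hr) hY hamp hp1 hlam
  have hsq : √(ε ^ (-((1 - q) / 8))) / 10 = 1 / 10 * ε ^ (-((1 - q) / 16)) := by
    rw [Real.sqrt_eq_rpow, ← Real.rpow_mul hε.le]
    have : -((1 - q) / 8) * (1 / 2) = -((1 - q) / 16) := by ring
    rw [this]
    ring
  rw [Real.rpow_one] at k4
  have hp2 : Real.exp (-(√(ε ^ (-((1 - q) / 8))) / 10)) ≤ ε := by rw [hsq]; exact k4
  have hpos1 := Real.exp_pos (-(ε ^ (-(th / 16))))
  have hpos2 := Real.exp_pos (-(√(ε ^ (-((1 - q) / 8))) / 10))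
  refine ⟨_, _, by positivity, by linarith, cl_nonneg _ _, hX, ?_⟩
  have hM := m_num (n := n) (j := j) (m := m) ht1.le hε hε1 hjm (by
    have := hS.up
    rw [show P.w ε = lg thp ε by rw [← hP.hthp]; rfl] at this
    exact this)
  have hnb := nb_num (n := n) (r := r) (q := P.q0) (Q := Q) ht3 ht1 hx1 hε hε1 (by
    have := hP.hq
    rwa [hP.hthp] at this) (by
    have := hr.2
    rw [show P.w ε = lg thp ε by rw [← hP.hthp]; rfl,
      show P.kE ε = lg th ε by rw [← hP.hth]; rfl] at this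
    exact this)
  rw [← hB] at hnb
  have hlg : lg C0 ε ≤ n := by
    have := hS.nE
    rw [hP.hC0] at this
    omega
  have hg := g_num (C0 := C0) hε hlg hτ2
  have hsE : P.sE n ε = n - lg C0 ε := by rw [← hP.hC0]; rfl
  rw [← hsE] at hg
  have hτ0 : 0 < τ := htn.trans_le hτ1
  exact k1 (((2 : ℝ) ^ (j - n)) ^ 2) ((2 : ℝ) ^ (r - n)) (τ * ((2 ^ P.sE n ε : ℕ) : ℝ) ^ 2)
    (by positivity) hM (by positivity) hnb (by positivity) hg

/-- `t_n` is small for late levels -/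
lemma tn_small {t1 : ℝ} (ht : 0 < t1) : ∃ N1 : ℕ, ∀ n, N1 ≤ n → 4 * tn n ≤ t1 := by
  obtain ⟨N1, h⟩ := exists_pow_lt_of_lt_one (show 0 < t1 / 4 by linarith)
    (show (1 / 4 : ℝ) < 1 by norm_num)
  refine ⟨N1, fun n hn => ?_⟩
  have h1 : tn n ≤ (1 / 4 : ℝ) ^ N1 := by
    unfold tn
    rw [← inv_pow, show (4 : ℝ)⁻¹ = 1 / 4 by norm_num]
    exact pow_le_pow_of_le_one (by norm_num) (by norm_num) hn
  linarith

/-- **the entropy loss**, every exponent below one -/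
def ThS (P : Par) (b q : ℝ) (N0 : ℕ) : Prop :=
  ∀ n m ε Y, SI P b N0 n m ε Y → ∃ τ a, tn n ≤ τ ∧ τ ≤ 4 * tn n ∧
    (∀ e, ε ≤ e → e ≤ P.es → GP P b a n e τ) ∧ ∀ r, P.TT n ε r → ∀ j, n ≤ j → j ≤ m →
      ∀ [NeZero (2 ^ r / 2 ^ P.sE n ε)],
        ThN (2 ^ r) (2 ^ P.sE n ε) b τ (tn j / 2) τ ≤ (2 ^ (4 * (r - n)))⁻¹ * ε ^ q

theorem fam_ThS {b q : ℝ} (hb : 0 < b) (hq0 : 0 < q) (hq : q < 1)
    (hT : Fam b1 b2 pf fun P N0 => TypA P b N0) : Fam b1 b2 pf fun P N0 => ThS P b q N0 := by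
  refine (fam_DrN hb le_rfl one_pos hq0 hq hT).imp fun P N0 _ _ _ _ h => ?_
  intro n m ε Y hS
  obtain ⟨τ, a, h1, h2, hG, h3⟩ := h n m ε Y hS
  refine ⟨τ, a, h1, h2, hG, fun r hr j hnj hjm => ?_⟩
  intro inst
  obtain ⟨ρ, p, hp0, hp, hρ, hty, h4⟩ := h3 r hr j hnj hjm
  have htj : 0 < tn j := H972.tn_pos j
  have htn : 0 < tn n := H972.tn_pos n
  have hτ0 : 0 < τ := htn.trans_le h1
  have htjn : tn j ≤ tn n := by
    rw [H145.tn_ratio hnj]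
    exact le_mul_of_one_le_left htj.le (one_le_pow₀ (one_le_pow₀ one_le_two))
  have hsr : P.sE n ε ≤ r := by
    have h5 : P.sE n ε ≤ n := Nat.sub_le _ _
    have := hr.1
    omega
  have h5 := ThN_typ hb (Nat.pow_dvd_pow 2 hsr) (by positivity : 0 < tn j / 2) (by linarith) hty hp
  refine h5.trans ?_
  rw [Real.rpow_one] at h4
  have h6 : 0 ≤ τ * ((2 ^ P.sE n ε : ℕ) : ℝ) ^ 2 := by positivity
  have h7 : ((2 : ℝ) ^ (r - n)) ^ 4 = 2 ^ (4 * (r - n)) := by rw [← pow_mul, mul_comm]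
  have h8 : (0 : ℝ) < 2 ^ (4 * (r - n)) := by positivity
  rw [one_mul, h7] at h4
  rw [inv_mul_eq_div, le_div_iff₀ h8, mul_comm]
  refine le_trans (mul_le_mul_of_nonneg_left ?_ h8.le) h4
  linarith

/-- **the drop at all momenta** (`DropS` of helper846), every exponent below one -/
theorem fam_dropS {b q : ℝ} (hb : 0 < b) (hh : 0 < helicity b) (hs : 1 / helicity b < 5 / 2)
    (hq : q < 1) (hT : Fam b1 b2 pf fun P N0 => TypA P b N0) :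
    Fam b1 b2 pf fun P N0 => ∀ n m ε Y, SI P b N0 n m ε Y → ∀ r, P.TT n ε r →
      m + P.kE P.es ≤ r → ∀ j, j ≤ m → m ≤ j + 1 → H846.DrS b r (tn n) (tn j) (ε ^ q) := by
  obtain ⟨C, c, t1, hC, hc, ht1, hd⟩ := drop_all hb hh hs
  obtain ⟨N1, hN1⟩ := tn_small ht1
  obtain ⟨q', hq'⟩ : ∃ q' : ℝ, q' = max q (1 / 2) := ⟨_, rfl⟩
  have hq0 : 0 < q' := by rw [hq']; exact lt_max_of_lt_right (by norm_num)
  have hq1 : q' < 1 := by rw [hq']; exact max_lt hq (by norm_num)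
  have hqq : q ≤ q' := by rw [hq']; exact le_max_left _ _
  refine (fam_DrN hb hC hc hq0 hq1 hT).bind fun P hA _ _ _ ⟨N00, h⟩ => ⟨max N00 N1, fun N0 hN0 => ?_⟩
  intro n m ε Y hS r hr _ j hjm hmj
  have hε : 0 < ε := (pow_pos hS.yb.1 2).trans_le hS.yε
  have hε1 : ε ≤ 1 := hS.εes.trans (P.es1.trans (by norm_num))
  have hS' : SI P b N00 n m ε Y :=
    ⟨((le_max_left _ _).trans hN0).trans hS.n0, hS.good, hS.yb, hS.yε, hS.εes, hS.lo, hS.up⟩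
  have hw : 1 ≤ P.w ε := w1 hε hS.εes
  have hnj : n ≤ j := by have := hS.lo; omega
  have hsr : P.sE n ε ≤ r := by
    have h5 : P.sE n ε ≤ n := Nat.sub_le _ _
    have := hr.1
    omega
  haveI : NeZero (2 ^ r / 2 ^ P.sE n ε) := nz_cell hsr
  obtain ⟨τ, a, h1, h2, -, h3⟩ := h N00 le_rfl n m ε Y hS'
  obtain ⟨ρ, p, hp0, hp, hρ, hty, h4⟩ := h3 r hr j hnj hjm
  have htj : 0 < tn j := H972.tn_pos j
  have htn : 0 < tn n := H972.tn_pos n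
  have hτ0 : 0 < τ := htn.trans_le h1
  have htjn : tn j ≤ tn n := by
    rw [H145.tn_ratio hnj]
    exact le_mul_of_one_le_left htj.le (one_le_pow₀ (one_le_pow₀ one_le_two))
  have hn1 : N1 ≤ n := ((le_max_right _ _).trans hN0).trans hS.n0
  obtain ⟨g, hg⟩ : ∃ g : ℝ, g = τ * ((2 ^ P.sE n ε : ℕ) : ℝ) ^ 2 := ⟨_, rfl⟩
  have hg0 : 0 ≤ g := by rw [hg]; positivity
  have hgc : 0 ≤ g ^ c := Real.rpow_nonneg hg0 c
  obtain ⟨nb, hnb⟩ : ∃ nb : ℝ, nb = (2 : ℝ) ^ (r - n) := ⟨_, rfl⟩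
  have hnb1 : 1 ≤ nb := by rw [hnb]; exact one_le_pow₀ one_le_two
  rw [← hg, ← hnb] at h4
  have hεq1 : ε ^ q' ≤ 1 := Real.rpow_le_one hε.le hε1 hq0.le
  have hnb2 : nb ^ 2 ≤ nb ^ 4 := pow_le_pow_right₀ hnb1 (by norm_num)
  have hnb21 : 1 ≤ nb ^ 2 := one_le_pow₀ hnb1
  have h5 : C * nb ^ 4 * (g ^ c + g) ≤ 1 := by
    refine le_trans (mul_le_mul_of_nonneg_left ?_ (by positivity)) (h4.trans hεq1)
    linarith
  have h6 : C * nb ^ 2 * (g ^ c + g) ≤ 1 := by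
    refine le_trans (mul_le_mul_of_nonneg_right ?_ (by positivity)) h5
    gcongr
  have h7 : g ≤ 1 := by
    have h8 : 1 * (g ^ c + g) ≤ C * nb ^ 2 * (g ^ c + g) := by
      refine mul_le_mul_of_nonneg_right ?_ (by positivity)
      nlinarith
    linarith
  -- the torus in units of `2 ^ n`
  have hTN : tn n * ((2 ^ r : ℕ) : ℝ) ^ 2 = nb ^ 2 := by
    rw [hnb, H972.tn]
    push_cast
    have hnr : n ≤ r := by have := hr.1; omega
    have : (2 : ℝ) ^ r = 2 ^ (r - n) * 2 ^ n := by rw [← pow_add, Nat.sub_add_cancel hnr]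
    rw [this]
    have h8 : (4 : ℝ) ^ n = (2 ^ n) ^ 2 := by
      rw [← pow_mul, mul_comm, pow_mul]
      norm_num
    rw [h8]
    field_simp
  have hlow : 9 ≤ τ * ((2 ^ r : ℕ) : ℝ) ^ 2 := by
    have h8 : (2 : ℝ) ^ 2 ≤ nb := by
      rw [hnb]
      refine pow_le_pow_right₀ one_le_two ?_
      have h9 : P.kE P.es ≤ P.kE ε := lg_anti P.th0.le hε hS.εes
      have := hA.hk
      have := hr.1
      omega
    calc (9 : ℝ) ≤ nb ^ 2 := by nlinarith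
      _ = tn n * ((2 ^ r : ℕ) : ℝ) ^ 2 := hTN.symm
      _ ≤ _ := mul_le_mul_of_nonneg_right h1 (by positivity)
  have hup : τ * ((2 ^ r : ℕ) : ℝ) ^ 2 ≤ 16 * nb ^ 2 := by
    calc τ * ((2 ^ r : ℕ) : ℝ) ^ 2 ≤ 4 * tn n * ((2 ^ r : ℕ) : ℝ) ^ 2 :=
          mul_le_mul_of_nonneg_right h2 (by positivity)
      _ = 4 * nb ^ 2 := by rw [mul_assoc, hTN]
      _ ≤ 16 * nb ^ 2 := by linarith
  intro k hk
  have h8 := hd (2 ^ r) (2 ^ P.sE n ε) τ (tn n) (tn j) ρ p (nb ^ 2) htj htjn h1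
    (h2.trans (hN1 n hn1)) (Nat.pow_dvd_pow 2 hsr) (by rw [← hg]; exact h7) hlow hnb21 hup hty hp
    (by rw [← hg]; exact h6) k hk
  rw [← hg] at h8
  refine h8.trans ?_
  have hE : 0 ≤ EE k := TM.H764.EE_nonneg k
  have h9 : C * (nb ^ 2) ^ 2 * (ρ + 2 * p + (g ^ c + g)) ≤ ε ^ q := by
    refine le_trans (le_of_eq ?_) (h4.trans (rpow_anti hε hε1 hqq))
    ring
  calc C * (nb ^ 2) ^ 2 * (ρ + 2 * p + (g ^ c + g)) * (EE k * (1 + EE k / tn j))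
      ≤ ε ^ q * (EE k * (1 + EE k / tn j)) := mul_le_mul_of_nonneg_right h9 (by positivity)
    _ = ε ^ q * (1 + EE k / tn j) * EE k := by ring

/-- **the drop at low momenta** (`Drop'` of helper972), every exponent below one -/
theorem fam_drop' {b q : ℝ} (hb : 0 < b) (hh : 0 < helicity b) (hs : 1 / helicity b < 5 / 2)
    (hq : q < 1) (hT : Fam b1 b2 pf fun P N0 => TypA P b N0) :
    Fam b1 b2 pf fun P N0 => Drop' P b q N0 := by
  obtain ⟨q', hq'⟩ : ∃ q' : ℝ, q' = (q + 1) / 2 := ⟨_, rfl⟩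
  have hq1 : q' < 1 := by rw [hq']; linarith
  have hqq : 0 < q' - q := by rw [hq']; linarith
  obtain ⟨E, hE, hE2⟩ := absorb (A := 2) (a := q' - q) (κ := 1) zero_le_two hqq one_pos
  have h0 : Fam b1 b2 pf fun P _ => P.es ≤ E := by
    refine ⟨0, fun W _ => ⟨1, one_pos, fun ys hy _ => ⟨0, fun X0 _ => ?_⟩⟩⟩
    refine ⟨1, one_pos, fun x1 hx1 _ => ⟨0, fun Q _ => ?_⟩⟩
    refine ⟨1, one_pos, fun thp ht _ => ⟨1, one_pos, fun th hth _ => ⟨0, fun C0 hC _ => ?_⟩⟩⟩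
    exact ⟨E, hE, fun P hP hes => ⟨0, fun _ _ => hes⟩⟩
  refine ((fam_dropS (q := q') hb hh hs hq1 hT).and h0).imp fun P N0 hA _ _ _ h => ?_
  intro n m ε Y hS r hr hmr k hk hkm
  have hε : 0 < ε := (pow_pos hS.yb.1 2).trans_le hS.yε
  have h1 := h.1 n m ε Y hS r hr hmr m le_rfl (Nat.le_succ m) k hk
  refine h1.trans ?_
  have htm : 0 < tn m := H972.tn_pos m
  have hEk : 0 ≤ EE k := TM.H764.EE_nonneg k
  have h2 : EE k / tn m ≤ 1 := (div_le_one htm).2 hkm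
  have h3 : ε ^ q' * (1 + EE k / tn m) ≤ ε ^ q := by
    have h4 := hE2 ε hε (hS.εes.trans h.2)
    have h5 : 0 < ε ^ q := Real.rpow_pos_of_pos hε _
    calc ε ^ q' * (1 + EE k / tn m) ≤ ε ^ q' * 2 :=
          mul_le_mul_of_nonneg_left (by linarith) (Real.rpow_nonneg hε.le _)
      _ = 2 * ε ^ (q' - q) * ε ^ q := by
        rw [mul_assoc, ← Real.rpow_add hε, sub_add_cancel, mul_comm]
      _ ≤ 1 * ε ^ q := mul_le_mul_of_nonneg_right h4 h5.le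
      _ = _ := one_mul _
  exact mul_le_mul_of_nonneg_right h3 hEk

end

end Vale.Agent.P159.H159
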