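import Vale.Agent.P159.H159.Drp2
import Vale.Agent.P159.H640.D0b

/-!
P159 (helper159): `fam_dropS`, `fam_drop'`, `fam_ThS` from helper640's form of the input (A).
-/

set_option linter.unusedSectionVars false

namespace Vale.Agent.P159.H159

open Vale.Agent.P159.H972
open Vale.Agent.P159.TM.Spec (V)
open Vale.Agent.P159.H239 (Fam)

noncomputable section

variable {b b1 b2 pf q : ℝ}

lemma TypA.of640 {P : Par} {N0 : ℕ} (h : H640.TypA P b) : TypA P b N0 :=
  fun n e τ a _ h1 h2 h3 h4 hG r hr s hs hs' inst => h n e τ a h1 h2 hG h3 h4 r hr s hs hs' inst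

lemma fam_typA (h : Fam b1 b2 pf fun P _ => H640.TypA P b) :
    Fam b1 b2 pf fun P N0 => TypA P b N0 :=
  h.imp fun _ _ _ _ _ _ h1 => TypA.of640 h1

/-- **the drop at all momenta** from (A) in the form of helper640 -/
theorem fam_dropS' (hb : 0 < b) (hh : 0 < helicity b) (hs : 1 / helicity b < 5 / 2) (hq : q < 1)
    (hT : Fam b1 b2 pf fun P _ => H640.TypA P b) :
    Fam b1 b2 pf fun P N0 => ∀ n m ε Y, SI P b N0 n m ε Y → ∀ r, P.TT n ε r →
      m + P.kE P.es ≤ r → ∀ j, j ≤ m → m ≤ j + 1 → H846.DrS b r (tn n) (tn j) (ε ^ q) :=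
  fam_dropS hb hh hs hq (fam_typA hT)

/-- **the drop at low momenta** from (A) in the form of helper640 -/
theorem fam_drop'' (hb : 0 < b) (hh : 0 < helicity b) (hs : 1 / helicity b < 5 / 2) (hq : q < 1)
    (hT : Fam b1 b2 pf fun P _ => H640.TypA P b) : Fam b1 b2 pf fun P N0 => Drop' P b q N0 :=
  fam_drop' hb hh hs hq (fam_typA hT)

/-- **the entropy loss** from (A) in the form of helper640 -/
theorem fam_ThS' (hb : 0 < b) (hq0 : 0 < q) (hq : q < 1)
    (hT : Fam b1 b2 pf fun P _ => H640.TypA P b) : Fam b1 b2 pf fun P N0 => ThS P b q N0 :=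
  fam_ThS hb hq0 hq (fam_typA hT)

end

end Vale.Agent.P159.H159
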