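import Vale.Agent.P159.H159.Grow

/-!
P159, module ASSOC (helper159), part 5: Gaussian averages of functions of exponential growth;
Harris' inequality for the standard Gaussian measure of `I → ℝ`.
-/

namespace Vale.Agent.P159.H159

open MeasureTheory Finset Matrix
open Vale.Agent.P159.H37

variable {V : Type*} [Fintype V]

theorem egr_integrable {Φ : (V → ℝ) → ℝ} (hΦ : EGr Φ) : Integrable Φ (gau V) := by
  classical
  have h := integrable_obs hΦ 0 (1 : Matrix V V ℝ) 0
  refine h.congr (Filter.Eventually.of_forall fun g => ?_)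
  simp

theorem int_exp_pos (C : ℝ) : 0 < ∫ g : V → ℝ, Real.exp (C * ∑ i, |g i|) ∂(gau V) :=
  integral_exp_pos (integrable_exp_norm C)

section sum

variable {α β : Type*} [Fintype α] [Fintype β]

theorem egr_elim {Φ : (α ⊕ β → ℝ) → ℝ} (hΦ : EGr Φ) (x : α → ℝ) :
    EGr fun y : β → ℝ => Φ (Sum.elim x y) := by
  obtain ⟨C, hC, h⟩ := hΦ.bdd
  refine EGr.mk' (hΦ.meas.comp (measurable_pi_lambda _ fun i => ?_))
    (A := C * Real.exp (C * ∑ i, |x i|)) (B := C) fun y => ?_
  · rcases i with i | i
    · exact measurable_const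
    · exact measurable_pi_apply i
  · refine (h _).trans (le_of_eq ?_)
    rw [Fintype.sum_sum_type]
    simp only [Sum.elim_inl, Sum.elim_inr]
    rw [mul_add, Real.exp_add]
    ring

theorem measurable_elim : Measurable fun p : (α → ℝ) × (β → ℝ) => (Sum.elim p.1 p.2 : α ⊕ β → ℝ) := by
  refine measurable_pi_lambda _ fun i => ?_
  rcases i with i | i
  · exact (measurable_pi_apply i).comp measurable_fst
  · exact (measurable_pi_apply i).comp measurable_snd

/-- fibre averages of functions of exponential growth -/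
theorem egr_gint {Φ : (α ⊕ β → ℝ) → ℝ} (hΦ : EGr Φ) :
    EGr fun x : α → ℝ => ∫ y, Φ (Sum.elim x y) ∂(gau β) := by
  obtain ⟨C, hC, h⟩ := hΦ.bdd
  have hm : Measurable fun x : α → ℝ => ∫ y, Φ (Sum.elim x y) ∂(gau β) := by
    have h1 : StronglyMeasurable (Function.uncurry fun (x : α → ℝ) (y : β → ℝ) =>
        Φ (Sum.elim x y)) := (hΦ.meas.comp measurable_elim).stronglyMeasurable
    exact h1.integral_prod_right.measurable
  refine EGr.mk' hm (A := C * ∫ y : β → ℝ, Real.exp (C * ∑ i, |y i|) ∂(gau β)) (B := C)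
    fun x => ?_
  have h1 : |∫ y, Φ (Sum.elim x y) ∂(gau β)| ≤
      ∫ y : β → ℝ, C * Real.exp (C * ∑ i, |x i|) * Real.exp (C * ∑ i, |y i|) ∂(gau β) := by
    refine (abs_integral_le_integral_abs).trans ?_
    refine integral_mono (egr_integrable (egr_elim hΦ x)).abs
      ((integrable_exp_norm C).const_mul _) fun y => ?_
    refine (h _).trans (le_of_eq ?_)
    rw [Fintype.sum_sum_type]
    simp only [Sum.elim_inl, Sum.elim_inr]
    rw [mul_add, Real.exp_add]
    ring
  refine h1.trans (le_of_eq ?_)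
  rw [integral_const_mul]
  ring

theorem int_sum {Φ : (α ⊕ β → ℝ) → ℝ} (hΦ : EGr Φ) :
    ∫ z, Φ z ∂(gau (α ⊕ β)) = ∫ x, ∫ y, Φ (Sum.elim x y) ∂(gau β) ∂(gau α) := by
  have hmp := (gau_sum (I₁ := α) (I₂ := β)).symm
  have e : ∀ p : (α → ℝ) × (β → ℝ),
      (MeasurableEquiv.sumPiEquivProdPi fun _ : α ⊕ β => ℝ).symm p = Sum.elim p.1 p.2 := by
    intro p
    funext i
    cases i <;> rfl
  rw [← hmp.integral_comp' Φ, integral_prod]
  · simp only [e]
  · exact (hmp.integrable_comp_emb (MeasurableEquiv.measurableEmbedding _)).2 (egr_integrable hΦ)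

end sum

/-- Harris' inequality -/
def HA (I : Type*) [Fintype I] : Prop :=
  ∀ f g : (I → ℝ) → ℝ, EGr f → EGr g → Monotone f → Monotone g →
    (∫ x, f x ∂(gau I)) * ∫ x, g x ∂(gau I) ≤ ∫ x, f x * g x ∂(gau I)

theorem int_four {I : Type*} [Fintype I] {a b c d : (I → ℝ) → ℝ} (ha : Integrable a (gau I))
    (hb : Integrable b (gau I)) (hc : Integrable c (gau I)) (hd : Integrable d (gau I)) :
    ∫ x, (a x - b x - c x + d x) ∂(gau I) =
      (∫ x, a x ∂(gau I)) - (∫ x, b x ∂(gau I)) - (∫ x, c x ∂(gau I)) + ∫ x, d x ∂(gau I) := by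
  have h1 : Integrable (fun x => a x - b x) (gau I) := ha.sub hb
  have h2 : Integrable (fun x => a x - b x - c x) (gau I) := h1.sub hc
  rw [integral_add h2 hd, integral_sub h1 hc, integral_sub ha hb]

/-- Chebyshev's argument on a totally ordered space -/
theorem ha_of_total {I : Type*} [Fintype I] (hT : ∀ x y : I → ℝ, x ≤ y ∨ y ≤ x) : HA I := by
  intro f g hf hg mf mg
  have i1 := egr_integrable hf
  have i2 := egr_integrable hg
  have i3 := egr_integrable (hf.mul hg)
  have h1 : ∀ x : I → ℝ, ∫ y, (f x - f y) * (g x - g y) ∂(gau I) =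
      f x * g x - f x * (∫ y, g y ∂(gau I)) - g x * (∫ y, f y ∂(gau I)) +
        ∫ y, f y * g y ∂(gau I) := by
    intro x
    have e : (fun y => (f x - f y) * (g x - g y)) = fun y =>
        f x * g x - f x * g y - g x * f y + f y * g y := by
      funext y; ring
    rw [e, int_four (integrable_const _) (i2.const_mul _) (i1.const_mul _) i3]
    have e1 : ∫ y, f x * g y ∂(gau I) = f x * ∫ y, g y ∂(gau I) := integral_const_mul _ _
    have e2 : ∫ y, g x * f y ∂(gau I) = g x * ∫ y, f y ∂(gau I) := integral_const_mul _ _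
    rw [e1, e2, integral_const, probReal_univ, one_smul]
  have h2 : 0 ≤ ∫ x, ∫ y, (f x - f y) * (g x - g y) ∂(gau I) ∂(gau I) := by
    refine integral_nonneg fun x => integral_nonneg fun y => ?_
    rcases hT x y with hxy | hxy
    · exact mul_nonneg_of_nonpos_of_nonpos (sub_nonpos.2 (mf hxy)) (sub_nonpos.2 (mg hxy))
    · exact mul_nonneg (sub_nonneg.2 (mf hxy)) (sub_nonneg.2 (mg hxy))
  simp_rw [h1] at h2
  rw [int_four i3 (i1.mul_const _) (i2.mul_const _) (integrable_const _),
    integral_mul_const, integral_mul_const, integral_const, probReal_univ, one_smul] at h2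
  nlinarith

theorem ha_sum {α β : Type*} [Fintype α] [Fintype β] (hα : HA α) (hβ : HA β) : HA (α ⊕ β) := by
  intro f g hf hg mf mg
  rw [int_sum hf, int_sum hg, int_sum (hf.mul hg)]
  have m1 : ∀ {f : (α ⊕ β → ℝ) → ℝ}, Monotone f → ∀ x : α → ℝ, Monotone fun y : β → ℝ =>
      f (Sum.elim x y) := by
    intro f mf x y y' h
    refine mf fun i => ?_
    rcases i with i | i
    · exact le_rfl
    · exact h i
  have m2 : ∀ {f : (α ⊕ β → ℝ) → ℝ}, EGr f → Monotone f → Monotone fun x : α → ℝ =>
      ∫ y, f (Sum.elim x y) ∂(gau β) := by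
    intro f hf mf x x' h
    refine integral_mono (egr_integrable (egr_elim hf x)) (egr_integrable (egr_elim hf x'))
      fun y => mf fun i => ?_
    rcases i with i | i
    · exact h i
    · exact le_rfl
  refine (hα _ _ (egr_gint hf) (egr_gint hg) (m2 hf mf) (m2 hg mg)).trans ?_
  refine integral_mono (egr_integrable ((egr_gint hf).mul (egr_gint hg)))
    (egr_integrable (egr_gint (hf.mul hg))) fun x => ?_
  exact hβ _ _ (egr_elim hf x) (egr_elim hg x) (m1 mf x) (m1 mg x)

theorem ha_equiv {α β : Type*} [Fintype α] [Fintype β] (e : α ≃ β) (hα : HA α) : HA β := by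
  have hmp : MeasurePreserving (MeasurableEquiv.piCongrLeft (fun _ : β => ℝ) e) (gau α) (gau β) :=
    measurePreserving_piCongrLeft (μ := fun _ : β => ProbabilityTheory.gaussianReal 0 1) e
  have e1 : ∀ x : α → ℝ, MeasurableEquiv.piCongrLeft (fun _ : β => ℝ) e x =
      fun b => x (e.symm b) := by
    intro x
    funext b
    obtain ⟨a, rfl⟩ := e.surjective b
    rw [Equiv.symm_apply_apply]
    exact Equiv.piCongrLeft_apply_apply (P := fun _ : β => ℝ) (e := e) x a
  have h1 : ∀ {f : (β → ℝ) → ℝ}, EGr f → EGr fun x : α → ℝ => f fun b => x (e.symm b) := by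
    intro f hf
    obtain ⟨C, hC, h⟩ := hf.bdd
    refine EGr.mk' (hf.meas.comp (measurable_pi_lambda _ fun b => measurable_pi_apply _))
      (A := C) (B := C) fun x => ?_
    refine (h _).trans (le_of_eq ?_)
    rw [Equiv.sum_comp e.symm fun a => |x a|]
  have h2 : ∀ f : (β → ℝ) → ℝ, ∫ x, f (fun b => x (e.symm b)) ∂(gau α) = ∫ x, f x ∂(gau β) := by
    intro f
    rw [← hmp.integral_comp' f]
    simp only [e1]
  intro f g hf hg mf mg
  rw [← h2 f, ← h2 g, ← h2 fun x => f x * g x]
  exact hα _ _ (h1 hf) (h1 hg) (fun x y h => mf fun b => h _) fun x y h => mg fun b => h _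

/-- **Harris' inequality for the standard Gaussian measure** -/
theorem harris (I : Type*) [Fintype I] : HA I := by
  classical
  have hfin : ∀ n : ℕ, HA (Fin n) := by
    intro n
    induction n with
    | zero => exact ha_of_total fun x y => Or.inl fun i => i.elim0
    | succ n ih =>
      refine ha_equiv (α := Fin n ⊕ Fin 1) finSumFinEquiv (ha_sum ih ?_)
      refine ha_of_total fun x y => ?_
      rcases le_total (x 0) (y 0) with h | h
      · exact Or.inl fun i => by rw [Subsingleton.elim i 0]; exact h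
      · exact Or.inr fun i => by rw [Subsingleton.elim i 0]; exact h
  exact ha_equiv (Fintype.equivFin I).symm (hfin _)

end Vale.Agent.P159.H159
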