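import Vale.Agent.P159.H663.Prop
import Vale.Agent.P159.H730.Tor
import Vale.Agent.P159.H692.FB
import Vale.Agent.P159.H159.Grow

/-!
P159 (helper159), module LIN: both halves of (*) from the TOP mass only, abstract part.

`gR μ J` is the gradient of `R = Rs μ`. For the channel with observation matrix `√p C`, posterior
`μ`, prior `μ'`, both even, `J` distributed according to the exact law with zero source:

* `var_eq`: `E (C gR(J)) (C gR(J))ᵀ = (1 - p Γ) Γ' (1 - p Γ)ᵀ + p Γ Γᵀ - C Cbar Cᵀ`,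
  `Γ = C Gm(μ) Cᵀ`, `Γ' = C Gm(μ') Cᵀ`;
* `grad_point`, `grad_gau`: `|C gR(J)|² ≤ (R(2J)² + ∫ R(2 Cᵀ g)² dgau) / 2` (convexity of `R`).
-/

set_option linter.unusedSectionVars false

namespace Vale.Agent.P159.H159

open Finset Matrix MeasureTheory
open Vale.Agent.P159.TM.H104 (EM Ex Cv K3 Lg li nh Gr)
open Vale.Agent.P159.H37
open Vale.Agent.P159.H663 (sc ChI tot_lin Ech_sc Ech_mono' Ech_add')
open Vale.Agent.P159.H692 (gR gR_dot Rs_tangent Rs_add_le_two)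

noncomputable section

variable {V : Type*} [Fintype V] {I W : Type*} [Fintype I] [Fintype W] {μ μ' : (V → ℤ) → ℝ}

lemma sc_gR (hμ : EM μ) (J w : V → ℝ) : sc μ w (Gm μ *ᵥ w) J = gR μ J ⬝ᵥ w := by
  rw [gR_dot hμ, bf_comm (H663.Gm_symm μ), bf_eq, dotProduct_comm J]
  rfl

/-- **pointwise gradient bound** -/
theorem grad_point (hμ : EM μ) (he : Ev μ) (hK : PK μ) (J z : V → ℝ) :
    (gR μ J ⬝ᵥ z) ^ 2 ≤ (Rs μ ((2 : ℝ) • J) ^ 2 + Rs μ ((2 : ℝ) • z) ^ 2) / 2 := by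
  have h0 := H789.Rs_nonneg hμ he hK J
  have h1 := Rs_tangent hμ he hK J z
  have h2 := Rs_tangent hμ he hK J (-z)
  have h3 := Rs_add_le_two hμ he hK J z
  have h4 := Rs_add_le_two hμ he hK J (-z)
  have e1 : gR μ J ⬝ᵥ (-z) = -(gR μ J ⬝ᵥ z) := dotProduct_neg _ _
  have e2 : Rs μ ((2 : ℝ) • (-z)) = Rs μ ((2 : ℝ) • z) := by
    rw [smul_neg, H789.Rs_neg he]
  rw [e1] at h2
  rw [e2] at h4
  set x := Rs μ ((2 : ℝ) • J)
  set y := Rs μ ((2 : ℝ) • z)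
  set a := gR μ J ⬝ᵥ z
  have h5 : |a| ≤ (x + y) / 2 := abs_le.2 ⟨by linarith, by linarith⟩
  have h6 : a ^ 2 ≤ ((x + y) / 2) ^ 2 := by
    rw [← sq_abs a]
    exact pow_le_pow_left₀ (abs_nonneg a) h5 2
  nlinarith [sq_nonneg (x - y)]

lemma egr_Rs_sq (hμ : EM μ) (hG : GT μ) : EGr fun J => Rs μ J ^ 2 := by
  simp only [pow_two]
  exact (egr_Rs hμ hG).mul (egr_Rs hμ hG)

lemma egr_Rs2 (hμ : EM μ) (hG : GT μ) : EGr fun J : V → ℝ => Rs μ ((2 : ℝ) • J) ^ 2 := by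
  classical
  have h := egr_lin (egr_Rs_sq hμ hG) 0 ((2 : ℝ) • (1 : Matrix V V ℝ))
  simpa only [zero_add, smul_mulVec, one_mulVec] using h

lemma int_Rs2 (hμ : EM μ) (hG : GT μ) (C : Matrix W V ℝ) :
    Integrable (fun g : W → ℝ => Rs μ ((2 : ℝ) • (Cᵀ *ᵥ g)) ^ 2) (gau W) := by
  have h := integrable_obs (egr_Rs2 hμ hG) (0 : V → ℝ) C 0
  simpa using h

/-- **the gradient of `R` against white noise** -/
theorem grad_gau (hμ : EM μ) (he : Ev μ) (hK : PK μ) (hG : GT μ) (C : Matrix W V ℝ) (J : V → ℝ) :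
    ∑ c, (gR μ J ⬝ᵥ C c) ^ 2 ≤
      (Rs μ ((2 : ℝ) • J) ^ 2 + ∫ g, Rs μ ((2 : ℝ) • (Cᵀ *ᵥ g)) ^ 2 ∂(gau W)) / 2 := by
  have e : ∀ g : W → ℝ, gR μ J ⬝ᵥ (Cᵀ *ᵥ g) = ∑ c, (gR μ J ⬝ᵥ C c) * g c := by
    intro g
    rw [dotProduct_mulVec, vecMul_transpose]
    unfold dotProduct Matrix.mulVec dotProduct
    refine Finset.sum_congr rfl fun c _ => ?_
    congr 1
    exact Finset.sum_congr rfl fun x _ => mul_comm _ _
  have h1 : ∫ g, (∑ c, (gR μ J ⬝ᵥ C c) * g c) * (∑ c, (gR μ J ⬝ᵥ C c) * g c) ∂(gau W) =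
      ∑ c, (gR μ J ⬝ᵥ C c) * (gR μ J ⬝ᵥ C c) := H663.gau_lin_mul _ _
  have i1 : Integrable (fun g : W → ℝ => (∑ c, (gR μ J ⬝ᵥ C c) * g c) *
      (∑ c, (gR μ J ⬝ᵥ C c) * g c)) (gau W) := H663.int_lin_mul _ _
  have i2 := int_Rs2 hμ hG C
  have i3 : Integrable (fun g : W → ℝ => (Rs μ ((2 : ℝ) • J) ^ 2 +
      Rs μ ((2 : ℝ) • (Cᵀ *ᵥ g)) ^ 2) / 2) (gau W) :=
    ((integrable_const _).add i2).div_const 2
  calc ∑ c, (gR μ J ⬝ᵥ C c) ^ 2 = ∫ g, (∑ c, (gR μ J ⬝ᵥ C c) * g c) *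
        (∑ c, (gR μ J ⬝ᵥ C c) * g c) ∂(gau W) := by
        rw [h1]
        exact Finset.sum_congr rfl fun c _ => pow_two _
    _ ≤ ∫ g, (Rs μ ((2 : ℝ) • J) ^ 2 + Rs μ ((2 : ℝ) • (Cᵀ *ᵥ g)) ^ 2) / 2 ∂(gau W) := by
        refine integral_mono i1 i3 fun g => ?_
        simp only
        rw [← e g, ← pow_two]
        exact grad_point hμ he hK J _
    _ = _ := by
        rw [integral_div, integral_add (integrable_const _) i2]
        simp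

section channel

variable {C : Matrix W V ℝ} {P : Matrix I V ℝ} {p : ℝ}

/-- mean square of the gradient of `R`, seen through `C` -/
def Vr (μ' : (V → ℤ) → ℝ) (P : Matrix I V ℝ) (C : Matrix W V ℝ) : Matrix W W ℝ :=
  Matrix.of fun c c' => Ech μ' 0 P fun J => (gR (post μ' P) J ⬝ᵥ C c) * (gR (post μ' P) J ⬝ᵥ C c')

lemma ex_li0 (he : Ev μ') (u : V → ℝ) : Ex μ' 0 (li u) = 0 := H663.Ex_li_zero he u

lemma row_eq (A : Matrix W W ℝ) (C : Matrix W V ℝ) (c : W) : (A * C) c = Cᵀ *ᵥ A c := by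
  rw [Matrix.mul_apply_eq_vecMul, mulVec_transpose]

/-- **the matrix identity** -/
theorem Vr_apply (hμ : EM μ') (he : Ev μ') (hQ : Pᵀ * P = p • (Cᵀ * C)) (c c' : W) :
    Vr μ' P C c c' = bf (Gm μ') ((C - p • (C * Gm (post μ' P) * Cᵀ * C)) c)
        ((C - p • (C * Gm (post μ' P) * Cᵀ * C)) c') +
      p * ((C * Gm (post μ' P) * Cᵀ) * (C * Gm (post μ' P) * Cᵀ)) c c' -
      (C * Cbar μ' 0 P * Cᵀ) c c' := by
  set μ := post μ' P with hμd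
  have hp : EM μ := em_post hμ P
  set G := Gm μ with hGd
  have hG : Gᵀ = G := H663.Gm_symm μ
  have h1 := tot_lin hμ 0 P (C c) (G *ᵥ C c) (C c') (G *ᵥ C c')
  have hz : ∀ a b : V → ℝ, Ech μ' 0 P (sc (post μ' P) a b) = 0 := by
    intro a b
    rw [Ech_sc hμ, ex_li0 he]
    simp
  rw [hz, hz, mul_zero, sub_zero] at h1
  have hM : (C * G * Cᵀ)ᵀ = C * G * Cᵀ := by
    rw [transpose_mul, transpose_mul, transpose_transpose, hG, Matrix.mul_assoc]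
  have e0 : ∀ c : W, (C * G * Cᵀ) c = C *ᵥ (G *ᵥ C c) := by
    intro c
    funext d
    have : (C * G * Cᵀ) c d = (C * G * Cᵀ) d c := by
      conv_lhs => rw [← hM, transpose_apply]
    rw [this, mulVec_mulVec, Matrix.mul_apply_eq_vecMul (C * G)]
    rfl
  have e1 : ∀ c : W, C c - Pᵀ *ᵥ (P *ᵥ (G *ᵥ C c)) = (C - p • (C * G * Cᵀ * C)) c := by
    intro c
    have h2 : Pᵀ *ᵥ (P *ᵥ (G *ᵥ C c)) = p • (Cᵀ *ᵥ (C *ᵥ (G *ᵥ C c))) := by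
      rw [mulVec_mulVec, hQ, smul_mulVec, ← mulVec_mulVec]
    rw [h2, ← e0]
    have h3 : (C - p • (C * G * Cᵀ * C)) c = C c - p • ((C * G * Cᵀ * C) c) := rfl
    rw [h3, row_eq]
  have e2 : bf (Pᵀ * P) (G *ᵥ C c) (G *ᵥ C c') = p * ((C * G * Cᵀ) * (C * G * Cᵀ)) c c' := by
    rw [hQ]
    have h2 : ((C * G * Cᵀ) * (C * G * Cᵀ)) c c' = (C * G * Cᵀ) c ⬝ᵥ (C * G * Cᵀ) c' := by
      rw [Matrix.mul_apply]
      unfold dotProduct
      refine Finset.sum_congr rfl fun d _ => ?_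
      congr 1
      conv_lhs => rw [← hM, transpose_apply]
    rw [h2, e0, e0, bf_eq, smul_mulVec, dotProduct_smul, smul_eq_mul, ← mulVec_mulVec]
    congr 1
    rw [dotProduct_mulVec, ← mulVec_transpose, transpose_transpose]
  rw [e1, e1, e2, ← H114.bf_Cm hμ] at h1
  have e3 : Ech μ' 0 P (fun J => Cv μ J (li (C c)) (li (C c'))) =
      (C * Cbar μ' 0 P * Cᵀ) c c' := by
    rw [H730.QAQ_apply, H730.bf_Cbar hμ]
  have e4 : Vr μ' P C c c' = Ech μ' 0 P fun J =>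
      sc μ (C c) (G *ᵥ C c) J * sc μ (C c') (G *ᵥ C c') J := by
    unfold Vr
    rw [Matrix.of_apply]
    congr 1
    funext J
    rw [sc_gR hp, sc_gR hp]
  rw [e3] at h1
  rw [e4]
  have h5 : bf (Gm μ') ((C - p • (C * G * Cᵀ * C)) c) ((C - p • (C * G * Cᵀ * C)) c') =
      bf (Cm μ' 0) ((C - p • (C * G * Cᵀ * C)) c) ((C - p • (C * G * Cᵀ * C)) c') := rfl
  rw [h5]
  linarith

/-- **the matrix identity**, closed form -/
theorem Vr_eq (hμ : EM μ') (he : Ev μ') (hQ : Pᵀ * P = p • (Cᵀ * C)) :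
    Vr μ' P C = (C * Gm μ' * Cᵀ) - p • ((C * Gm (post μ' P) * Cᵀ) * (C * Gm μ' * Cᵀ)) -
        p • ((C * Gm μ' * Cᵀ) * (C * Gm (post μ' P) * Cᵀ)) +
        p ^ 2 • ((C * Gm (post μ' P) * Cᵀ) * (C * Gm μ' * Cᵀ) * (C * Gm (post μ' P) * Cᵀ)) +
      p • ((C * Gm (post μ' P) * Cᵀ) * (C * Gm (post μ' P) * Cᵀ)) -
      C * Cbar μ' 0 P * Cᵀ := by
  ext c c'
  rw [Vr_apply hμ he hQ, ← H730.QAQ_apply]
  set G := Gm (post μ' P)
  have hG : Gᵀ = G := H663.Gm_symm _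
  set G' := Gm μ'
  have e : (C - p • (C * G * Cᵀ * C)) * G' * (C - p • (C * G * Cᵀ * C))ᵀ =
      (C * G' * Cᵀ) - p • ((C * G * Cᵀ) * (C * G' * Cᵀ)) -
        p • ((C * G' * Cᵀ) * (C * G * Cᵀ)) +
        p ^ 2 • ((C * G * Cᵀ) * (C * G' * Cᵀ) * (C * G * Cᵀ)) := by
    have h1 : (C - p • (C * G * Cᵀ * C))ᵀ = Cᵀ - p • (Cᵀ * (C * G * Cᵀ)) := by
      rw [transpose_sub, transpose_smul, transpose_mul, transpose_mul, transpose_mul,
        transpose_transpose, hG, Matrix.mul_assoc C G Cᵀ]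
    rw [h1]
    simp only [Matrix.sub_mul, Matrix.mul_sub, Matrix.smul_mul, Matrix.mul_smul, smul_sub,
      smul_smul, Matrix.mul_assoc, pow_two]
    abel
  rw [e]
  simp only [Matrix.sub_apply, Matrix.add_apply, Matrix.smul_apply, smul_eq_mul]

/-- the trace -/
theorem Vr_trace_le (hμ : EM μ') (he : Ev μ') (hK : PK (post μ' P)) (hG : GT (post μ' P)) {κ : ℝ}
    (hκ : 0 < κ) :
    ∑ c, Vr μ' P C c c ≤ (2 * κ)⁻¹ * (Ech μ' 0 P (fun J => Rs (post μ' P) ((2 : ℝ) • J) ^ 2) +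
      ∫ g, Rs (post μ' P) ((2 : ℝ) • ((Real.sqrt κ • C)ᵀ *ᵥ g)) ^ 2 ∂(gau W)) := by
  have hp := em_post hμ P
  have hep := ev_post he P
  set μ := post μ' P with hμd
  have hc : ∀ a b : V → ℝ, ChI μ' 0 P fun J => (gR μ J ⬝ᵥ a) * (gR μ J ⬝ᵥ b) := by
    intro a b
    have h1 := ChI.of_sc_mul hμ 0 P a (Gm μ *ᵥ a) b (Gm μ *ᵥ b)
    have e : (fun J => (gR μ J ⬝ᵥ a) * (gR μ J ⬝ᵥ b)) =
        fun J => sc μ a (Gm μ *ᵥ a) J * sc μ b (Gm μ *ᵥ b) J := by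
      funext J
      rw [sc_gR hp, sc_gR hp]
    rw [e]
    exact h1
  have h1 : ∑ c, Vr μ' P C c c = Ech μ' 0 P fun J => ∑ c, (gR μ J ⬝ᵥ C c) * (gR μ J ⬝ᵥ C c) := by
    have h := H730.Ech_sum (μ := μ') (P := P) (J₁ := 0) Finset.univ
      (Φ := fun c J => (gR μ J ⬝ᵥ C c) * (gR μ J ⬝ᵥ C c)) fun c => hc _ _
    exact h.symm
  set X := ∫ g, Rs μ ((2 : ℝ) • ((Real.sqrt κ • C)ᵀ *ᵥ g)) ^ 2 ∂(gau W) with hX
  have h2 : ∀ J, ∑ c, (gR μ J ⬝ᵥ C c) * (gR μ J ⬝ᵥ C c) ≤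
      (2 * κ)⁻¹ * (Rs μ ((2 : ℝ) • J) ^ 2 + X) := by
    intro J
    have h3 := grad_gau hp hep hK hG (Real.sqrt κ • C) J
    have e : ∑ c, (gR μ J ⬝ᵥ (Real.sqrt κ • C) c) ^ 2 =
        κ * ∑ c, (gR μ J ⬝ᵥ C c) * (gR μ J ⬝ᵥ C c) := by
      rw [Finset.mul_sum]
      refine Finset.sum_congr rfl fun c _ => ?_
      have : (Real.sqrt κ • C) c = Real.sqrt κ • C c := rfl
      rw [this, dotProduct_smul, smul_eq_mul, mul_pow, Real.sq_sqrt hκ.le, pow_two]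
    rw [e] at h3
    have h4 : κ * ∑ c, (gR μ J ⬝ᵥ C c) * (gR μ J ⬝ᵥ C c) ≤ (Rs μ ((2 : ℝ) • J) ^ 2 + X) / 2 := h3
    have h5 : ∑ c, (gR μ J ⬝ᵥ C c) * (gR μ J ⬝ᵥ C c) ≤ (Rs μ ((2 : ℝ) • J) ^ 2 + X) / 2 / κ := by
      rw [le_div_iff₀ hκ, mul_comm]
      exact h4
    refine h5.trans (le_of_eq ?_)
    field_simp
  rw [h1]
  have i2 : ChI μ' 0 P fun J => Rs μ ((2 : ℝ) • J) ^ 2 := ChI.of_EGr hμ 0 P (egr_Rs2 hp hG)
  have i3 : ChI μ' 0 P fun J => (2 * κ)⁻¹ * (Rs μ ((2 : ℝ) • J) ^ 2 + X) :=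
    (i2.add (ChI.of_EGr hμ 0 P (EGr.const X))).cmul _
  refine (Ech_mono' hμ (H730.chi_sum _ fun c => hc _ _) i3 h2).trans (le_of_eq ?_)
  rw [Ech_cmul, Ech_add' i2 (ChI.of_EGr hμ 0 P (EGr.const X)), Ech_const hμ]

/-- the diagonal is nonnegative -/
lemma Vr_qf_nonneg (hμ : EM μ') (u : W → ℝ) : 0 ≤ qf (Vr μ' P C) u := by
  have hp := em_post hμ P
  set μ := post μ' P with hμd
  have hc : ∀ a b : V → ℝ, ChI μ' 0 P fun J => (gR μ J ⬝ᵥ a) * (gR μ J ⬝ᵥ b) := by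
    intro a b
    have h1 := ChI.of_sc_mul hμ 0 P a (Gm μ *ᵥ a) b (Gm μ *ᵥ b)
    have e : (fun J => (gR μ J ⬝ᵥ a) * (gR μ J ⬝ᵥ b)) =
        fun J => sc μ a (Gm μ *ᵥ a) J * sc μ b (Gm μ *ᵥ b) J := by
      funext J
      rw [sc_gR hp, sc_gR hp]
    rw [e]
    exact h1
  have h1 : qf (Vr μ' P C) u = Ech μ' 0 P fun J => (∑ c, u c * (gR μ J ⬝ᵥ C c)) ^ 2 := by
    have e : (fun J => (∑ c, u c * (gR μ J ⬝ᵥ C c)) ^ 2) = fun J => ∑ c, ∑ c',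
        u c * u c' * ((gR μ J ⬝ᵥ C c) * (gR μ J ⬝ᵥ C c')) := by
      funext J
      rw [pow_two, Finset.sum_mul_sum]
      exact Finset.sum_congr rfl fun c _ => Finset.sum_congr rfl fun c' _ => by ring
    have h := H730.Ech_sum (μ := μ') (P := P) (J₁ := 0) Finset.univ
      (Φ := fun c J => ∑ c', u c * u c' * ((gR μ J ⬝ᵥ C c) * (gR μ J ⬝ᵥ C c')))
      fun c => H730.chi_sum _ fun c' => (hc _ _).cmul _
    rw [e, h]
    unfold qf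
    refine Finset.sum_congr rfl fun c _ => ?_
    have h2 := H730.Ech_sum (μ := μ') (P := P) (J₁ := 0) Finset.univ
      (Φ := fun c' J => u c * u c' * ((gR μ J ⬝ᵥ C c) * (gR μ J ⬝ᵥ C c')))
      fun c' => (hc _ _).cmul _
    rw [h2]
    refine Finset.sum_congr rfl fun c' _ => ?_
    rw [Ech_cmul]
    unfold Vr
    rw [Matrix.of_apply]
    ring
  rw [h1]
  exact Ech_nonneg hμ 0 P fun J => sq_nonneg _

end channel

end

end Vale.Agent.P159.H159
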