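import Vale.Agent.P159.H159.Lin
import Vale.Agent.P159.H730.NTor
import Vale.Agent.P159.H447.Cg6

/-!
P159 (helper159), module LIN on the cell torus, neutral model. Prior `τ' ≤ τ` posterior (cell
masses, fine mass `t`), `g = gN τ`, `c = CbNk τ' τ` (exact mean posterior covariance),
`V = Vk τ' τ` = symbol of `E (CN gR(J)) (CN gR(J))ᵀ`, exact law of the prior, zero source:

* `cb_ge`: `g ≤ c`;
* `lmk_right`: `1/g - 1/c ≤ Π_τ - Π_τ'`;
* `lmk_left`: `Π_τ - Π_τ' ≤ 1/g - 1/c + V/g²`;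
* `sum_Vk_le`: `Σ V ≤ (2κ)⁻¹ (E R(2J)² + ∫ R(2 √κ CNᵀ g)² dgau)` for every `κ > 0`.

No good set, no intermediate mass.
-/

set_option linter.unusedSectionVars false

namespace Vale.Agent.P159.H159

open Finset Matrix MeasureTheory
open Vale.Agent.P159.TM.H104 (EM Ex Cv Lg li Gr)
open Vale.Agent.P159.TM.H764 (EE cN sN dt)
open Vale.Agent.P159.TM.Spec (V)
open Vale.Agent.P159.TM.SpecC (wT)
open Vale.Agent.P159.H37
open Vale.Agent.P159.H864 (TI sym MC cobV)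
open Vale.Agent.P159.H447 (K4S SN CN)
open Vale.Agent.P159.H963 (Neu Gnc PinC nwt nMC obsN Pn)
open Vale.Agent.P159.H730 (wN CbNk gN wv wv_pos mode_wvN ps_wN ti_CbarN)
open Vale.Agent.P159.H692 (gR)

noncomputable section

variable {N l : ℕ} [NeZero N] [NeZero (N / l)] {b t τ τ' : ℝ}

/-- mean square of the observed gradient of `R` -/
def VrN (N l : ℕ) [NeZero N] [NeZero (N / l)] (b t τ' τ : ℝ) :
    Matrix (V (N / l)) (V (N / l)) ℝ := Vr (wN N l b t τ') (obsN N l (τ - τ')) (CN N l)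

/-- its symbol -/
def Vk (N l : ℕ) [NeZero N] [NeZero (N / l)] (b t τ' τ : ℝ) (k : V (N / l)) : ℝ :=
  sym (VrN N l b t τ' τ) k

lemma gram_obs {p : ℝ} (hp : 0 ≤ p) :
    (obsN N l p)ᵀ * obsN N l p = p • ((CN N l)ᵀ * CN N l) := by
  have e : obsN N l p = Real.sqrt p • CN N l := rfl
  rw [e, transpose_smul, Matrix.smul_mul, Matrix.mul_smul, smul_smul, Real.mul_self_sqrt hp]

theorem VrN_eq (hb : 0 ≤ b) (hl : l ∣ N) (hτ' : 0 < τ') (h : τ' ≤ τ) (ht : τ ≤ t) :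
    VrN N l b t τ' τ = Gnc N l b t τ' - (τ - τ') • (Gnc N l b t τ * Gnc N l b t τ') -
        (τ - τ') • (Gnc N l b t τ' * Gnc N l b t τ) +
        (τ - τ') ^ 2 • (Gnc N l b t τ * Gnc N l b t τ' * Gnc N l b t τ) +
      (τ - τ') • (Gnc N l b t τ * Gnc N l b t τ) -
      CN N l * Cbar (wN N l b t τ') 0 (obsN N l (τ - τ')) * (CN N l)ᵀ := by
  have h1 := Vr_eq (μ' := wN N l b t τ') (P := obsN N l (τ - τ')) (C := CN N l) (p := τ - τ')
    (H963.em_nMC hb hl hτ' (h.trans ht) 0) (H963.ev_nMC hb t τ' 0) (gram_obs (sub_nonneg.2 h))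
  have h2 : post (wN N l b t τ') (obsN N l (τ - τ')) = wN N l b t τ := H963.post_nMC hl b h 0
  rw [h2] at h1
  have h3 : ∀ s, CN N l * Gm (wN N l b t s) * (CN N l)ᵀ = Gnc N l b t s :=
    fun s => H447.Gc_CN hl b t s
  rw [h3, h3] at h1
  exact h1

theorem ti_VrN (hb : 0 ≤ b) (hl : l ∣ N) (hτ' : 0 < τ') (h : τ' ≤ τ) (ht : τ ≤ t) :
    TI (VrN N l b t τ' τ) := by
  rw [VrN_eq hb hl hτ' h ht]
  have g1 : TI (Gnc N l b t τ) := H963.ti_Gnc hb hl (hτ'.trans_le h) ht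
  have g2 : TI (Gnc N l b t τ') := H963.ti_Gnc hb hl hτ' (h.trans ht)
  have g3 : TI (CN N l * Cbar (wN N l b t τ') 0 (obsN N l (τ - τ')) * (CN N l)ᵀ) :=
    ti_CbarN hb hl hτ' (h.trans ht) (Real.sqrt (τ - τ'))
  exact (((((g2.sub ((g1.mul g2).smul _)).sub ((g2.mul g1).smul _)).add
    (((g1.mul g2).mul g1).smul _))).add ((g1.mul g1).smul _)).sub g3

/-- **the symbol** -/
theorem Vk_eq (hb : 0 ≤ b) (hl : l ∣ N) (hτ' : 0 < τ') (h : τ' ≤ τ) (ht : τ ≤ t)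
    (k : V (N / l)) : Vk N l b t τ' τ k =
      gN N l b t τ' k * (1 - (τ - τ') * gN N l b t τ k) ^ 2 + (τ - τ') * gN N l b t τ k ^ 2 -
        CbNk N l b t τ' τ k := by
  have g1 : TI (Gnc N l b t τ) := H963.ti_Gnc hb hl (hτ'.trans_le h) ht
  have g2 : TI (Gnc N l b t τ') := H963.ti_Gnc hb hl hτ' (h.trans ht)
  unfold Vk
  rw [VrN_eq hb hl hτ' h ht, H864.sym_sub, H864.sym_add, H864.sym_add, H864.sym_sub, H864.sym_sub,
    H864.sym_smul, H864.sym_smul, H864.sym_smul, H864.sym_smul, H864.sym_mul g1 g2,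
    H864.sym_mul g2 g1, H864.sym_mul (g1.mul g2) g1, H864.sym_mul g1 g2, H864.sym_mul g1 g1]
  unfold gN CbNk
  ring

theorem Vk_nonneg (hb : 0 ≤ b) (hl : l ∣ N) (hτ' : 0 < τ') (h : τ' ≤ τ) (ht : τ ≤ t)
    (k : V (N / l)) : 0 ≤ Vk N l b t τ' τ k :=
  (H864.psd_iff (ti_VrN hb hl hτ' h ht)).1
    (fun u => Vr_qf_nonneg (H963.em_nMC hb hl hτ' (h.trans ht) 0) u) k

/-- **the mean covariance is above the covariance at source zero** -/
theorem cb_ge (hb : 0 < b) (hl : l ∣ N) (hτ' : 0 < τ') (h : τ' ≤ τ) (ht : τ ≤ t) {k : V (N / l)}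
    (hk : k ≠ 0) : gN N l b t τ k ≤ CbNk N l b t τ' τ k := by
  obtain ⟨_, h2, h3⟩ := mode_wvN hb hl hτ' h ht hk
  have i : τ - τ' ∈ Set.Icc 0 (τ - τ') := ⟨sub_nonneg.2 h, le_rfl⟩
  have hK : PK (H730.ps (wN N l b t τ') (CN N l) (τ - τ')) := by
    rw [ps_wN hl b t i.1]
    exact H963.pk_nMC hb.le hl (by linarith) (by linarith) 0
  have h4 := H730.gz_le_cz (H963.em_nMC hb.le hl hτ' (h.trans ht) 0) (H963.ev_nMC hb.le t τ' 0) hK
    ((CN N l)ᵀ *ᵥ wv k)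
  rw [h2 _ i, h3 _ i, add_sub_cancel] at h4
  exact le_of_mul_le_mul_right h4 (wv_pos k)

lemma CN_CNt {u : V (N / l) → ℝ} (hl : l ∣ N) (hu : Neu u) : CN N l *ᵥ ((CN N l)ᵀ *ᵥ u) = u := by
  have e1 : CN N l * (CN N l)ᵀ = (Pn : Matrix (V (N / l)) (V (N / l)) ℝ) := by
    unfold CN
    rw [transpose_mul, H963.Pn_transpose, Matrix.mul_assoc, ← Matrix.mul_assoc (cobV N l),
      H864.cobV_mul_tr hl, Matrix.one_mul, H963.Pn_mul_Pn]
  rw [mulVec_mulVec, e1]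
  exact H963.Pn_of_neu hu

/-- **linear estimators** -/
theorem cb_le_lin (hb : 0 < b) (hl : l ∣ N) (hτ' : 0 < τ') (h : τ' ≤ τ) (ht : τ ≤ t)
    {k : V (N / l)} (hk : k ≠ 0) (lam : ℝ) : CbNk N l b t τ' τ k ≤
      gN N l b t τ' k * (1 - (τ - τ') * lam) ^ 2 + (τ - τ') * lam ^ 2 := by
  obtain ⟨_, h2, h3⟩ := mode_wvN hb hl hτ' h ht hk
  have hμ := H963.em_nMC (N := N) (l := l) (t := t) hb.le hl hτ' (h.trans ht) 0
  have he : Ev (wN N l b t τ') := H963.ev_nMC hb.le t τ' 0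
  have i : τ - τ' ∈ Set.Icc 0 (τ - τ') := ⟨sub_nonneg.2 h, le_rfl⟩
  have i0 : (0 : ℝ) ∈ Set.Icc 0 (τ - τ') := ⟨le_rfl, sub_nonneg.2 h⟩
  have c1 := h3 _ i
  have g0 := h2 _ i0
  rw [add_sub_cancel] at c1
  rw [add_zero] at g0
  set u : V (N / l) → ℝ := wv k with hu
  set w : V N → ℝ := (CN N l)ᵀ *ᵥ u with hw
  set n := ∑ x, u x ^ 2 with hn
  have hun : Neu u := H963.neu_cN hk
  set P := obsN N l (τ - τ') with hP
  have hPe : P = Real.sqrt (τ - τ') • CN N l := rfl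
  have hPP : Pᵀ * P = (τ - τ') • ((CN N l)ᵀ * CN N l) := gram_obs (sub_nonneg.2 h)
  have h5 := H663.tot_lin hμ 0 P w (lam • w) w (lam • w)
  have hz : ∀ a b' : V N → ℝ, Ech (wN N l b t τ') 0 P (H663.sc (post (wN N l b t τ') P) a b') =
      0 := by
    intro a b'
    rw [H663.Ech_sc hμ, ex_li0 he]
    simp
  rw [hz, mul_zero, sub_zero] at h5
  have e1 : Pᵀ *ᵥ (P *ᵥ (lam • w)) = ((τ - τ') * lam) • w := by
    rw [mulVec_mulVec, hPP, smul_mulVec, mulVec_smul, ← mulVec_mulVec, hw, CN_CNt hl hun, smul_smul]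
  have e2 : w - ((τ - τ') * lam) • w = (1 - (τ - τ') * lam) • w := by
    rw [sub_smul, one_smul]
  rw [e1, e2, ← H114.bf_Cm hμ] at h5
  have e3 : bf (Cm (wN N l b t τ') 0) ((1 - (τ - τ') * lam) • w) ((1 - (τ - τ') * lam) • w) =
      (1 - (τ - τ') * lam) ^ 2 * (gN N l b t τ' k * n) := by
    rw [bf_smul_left, bf_smul_right, H114.bf_Cm hμ]
    have h6 : Cv (wN N l b t τ') 0 (li w) (li w) = gN N l b t τ' k * n := by
      rw [← g0]
      unfold H730.gz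
      rw [ps_wN hl b t le_rfl, add_zero]
    rw [h6]
    ring
  have e4 : bf (Pᵀ * P) (lam • w) (lam • w) = (τ - τ') * lam ^ 2 * n := by
    rw [bf_smul_left, bf_smul_right, hPP, bf_eq, smul_mulVec, dotProduct_smul, ← mulVec_mulVec]
    have h6 : w ⬝ᵥ (CN N l)ᵀ *ᵥ (CN N l *ᵥ w) = n := by
      rw [dotProduct_mulVec, vecMul_transpose, hw, CN_CNt hl hun, hn]
      unfold dotProduct
      exact Finset.sum_congr rfl fun x _ => by ring
    rw [h6, smul_eq_mul]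
    ring
  rw [e3, e4] at h5
  have h7 : Ech (wN N l b t τ') 0 P (fun J => Cv (post (wN N l b t τ') P) J (li w) (li w)) =
      CbNk N l b t τ' τ k * n := c1
  rw [h7] at h5
  have h8 : 0 ≤ Ech (wN N l b t τ') 0 P fun J =>
      H663.sc (post (wN N l b t τ') P) w (lam • w) J *
        H663.sc (post (wN N l b t τ') P) w (lam • w) J :=
    Ech_nonneg hμ 0 P fun J => mul_self_nonneg _
  have hn0 : 0 < n := wv_pos k
  have h9 : CbNk N l b t τ' τ k * n ≤ (gN N l b t τ' k * (1 - (τ - τ') * lam) ^ 2 +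
      (τ - τ') * lam ^ 2) * n := by nlinarith
  exact le_of_mul_le_mul_right h9 hn0

lemma PinC_def' (k : V (N / l)) : PinC N l b t τ k = (gN N l b t τ k)⁻¹ - τ := rfl

/-- the optimal linear estimator -/
lemma lin_opt {ga p : ℝ} (hga : 0 < ga) (hp : 0 ≤ p) :
    ga * (1 - p * (ga / (1 + p * ga))) ^ 2 + p * (ga / (1 + p * ga)) ^ 2 = (p + ga⁻¹)⁻¹ := by
  have h1 : 0 < 1 + p * ga := by positivity
  have h2 : p + ga⁻¹ = (1 + p * ga) / ga := by field_simp; ring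
  rw [h2, inv_div]
  have h3 : 1 - p * (ga / (1 + p * ga)) = 1 / (1 + p * ga) := by field_simp; ring
  rw [h3]
  field_simp

lemma lin_min {ga p g : ℝ} (hga : 0 < ga) (hp : 0 ≤ p) :
    (p + ga⁻¹)⁻¹ ≤ ga * (1 - p * g) ^ 2 + p * g ^ 2 := by
  have h1 : 0 < 1 + p * ga := by positivity
  have h2 : p + ga⁻¹ = (1 + p * ga) / ga := by field_simp; ring
  rw [h2, inv_div, div_le_iff₀ h1]
  nlinarith [sq_nonneg (ga * (1 - p * g) - g), mul_nonneg hp (sq_nonneg (ga * (1 - p * g) - g))]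

/-- **right half of (*)** -/
theorem lmk_right (hb : 0 < b) (hl : l ∣ N) (hτ' : 0 < τ') (h : τ' ≤ τ) (ht : τ ≤ t)
    {k : V (N / l)} (hk : k ≠ 0) :
    (gN N l b t τ k)⁻¹ - (CbNk N l b t τ' τ k)⁻¹ ≤ PinC N l b t τ k - PinC N l b t τ' k := by
  have hga : 0 < gN N l b t τ' k := H963.sym_Gnc_pos hb hl hτ' (h.trans ht) hk
  have hg : 0 < gN N l b t τ k := H963.sym_Gnc_pos hb hl (hτ'.trans_le h) ht hk
  have hc := hg.trans_le (cb_ge hb hl hτ' h ht hk)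
  have hp : 0 ≤ τ - τ' := sub_nonneg.2 h
  have h1 := cb_le_lin hb hl hτ' h ht hk (gN N l b t τ' k / (1 + (τ - τ') * gN N l b t τ' k))
  rw [lin_opt hga hp] at h1
  have h2 : (0 : ℝ) < (τ - τ') + (gN N l b t τ' k)⁻¹ := by positivity
  have h3 : (τ - τ') + (gN N l b t τ' k)⁻¹ ≤ (CbNk N l b t τ' τ k)⁻¹ := by
    rw [← inv_inv ((τ - τ') + (gN N l b t τ' k)⁻¹)]
    exact inv_anti₀ hc h1
  rw [PinC_def', PinC_def']
  linarith

lemma left_real {ga g c W p : ℝ} (hga : 0 < ga) (hg : 0 < g) (hcg : g ≤ c) (hp : 0 ≤ p)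
    (hV : 0 ≤ W) (h2 : (p + ga⁻¹)⁻¹ ≤ c + W) : g⁻¹ - (p + ga⁻¹) ≤ g⁻¹ - c⁻¹ + W / g ^ 2 := by
  have hc : 0 < c := hg.trans_le hcg
  have h3 : (0 : ℝ) < p + ga⁻¹ := by positivity
  have h4 : (c + W)⁻¹ ≤ p + ga⁻¹ := by
    rw [← inv_inv (p + ga⁻¹)]
    exact inv_anti₀ (inv_pos.2 h3) h2
  have h5 : c⁻¹ - (c + W)⁻¹ ≤ W / g ^ 2 := by
    rw [inv_sub_inv hc.ne' (by linarith : c + W ≠ 0), add_sub_cancel_left]
    refine div_le_div_of_nonneg_left hV (by positivity) ?_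
    have h6 : g * g ≤ c * (c + W) := mul_le_mul hcg (by linarith) hg.le hc.le
    rw [pow_two]
    exact h6
  linarith

/-- **left half of (*)** -/
theorem lmk_left (hb : 0 < b) (hl : l ∣ N) (hτ' : 0 < τ') (h : τ' ≤ τ) (ht : τ ≤ t)
    {k : V (N / l)} (hk : k ≠ 0) :
    PinC N l b t τ k - PinC N l b t τ' k ≤
      (gN N l b t τ k)⁻¹ - (CbNk N l b t τ' τ k)⁻¹ + Vk N l b t τ' τ k / gN N l b t τ k ^ 2 := by
  have hga : 0 < gN N l b t τ' k := H963.sym_Gnc_pos hb hl hτ' (h.trans ht) hk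
  have hg : 0 < gN N l b t τ k := H963.sym_Gnc_pos hb hl (hτ'.trans_le h) ht hk
  have hcg := cb_ge hb hl hτ' h ht hk
  have hc := hg.trans_le hcg
  have hp : 0 ≤ τ - τ' := sub_nonneg.2 h
  have hV := Vk_nonneg (N := N) (l := l) hb.le hl hτ' h ht k
  have hVe := Vk_eq (N := N) (l := l) hb.le hl hτ' h ht k
  have h1 := lin_min (g := gN N l b t τ k) hga hp
  have h2 := left_real hga hg hcg hp hV (by linarith)
  rw [PinC_def', PinC_def']
  linarith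

/-- **sum of the errors** -/
theorem sum_Vk_le (hb : 0 < b) (hl : l ∣ N) (hτ' : 0 < τ') (h : τ' ≤ τ) (ht : τ ≤ t) {κ : ℝ}
    (hκ : 0 < κ) (S : Finset (V (N / l))) :
    ∑ k ∈ S, Vk N l b t τ' τ k ≤ (2 * κ)⁻¹ *
      (Ech (wN N l b t τ') 0 (obsN N l (τ - τ')) (fun J => Rs (wN N l b t τ) ((2 : ℝ) • J) ^ 2) +
        ∫ g, Rs (wN N l b t τ) ((2 : ℝ) • ((Real.sqrt κ • CN N l)ᵀ *ᵥ g)) ^ 2
          ∂(gau (V (N / l)))) := by
  have h2 : post (wN N l b t τ') (obsN N l (τ - τ')) = wN N l b t τ := H963.post_nMC hl b h 0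
  have hτ := hτ'.trans_le h
  have h1 := Vr_trace_le (μ' := wN N l b t τ') (P := obsN N l (τ - τ')) (C := CN N l)
    (H963.em_nMC hb.le hl hτ' (h.trans ht) 0) (H963.ev_nMC hb.le t τ' 0)
    (by rw [h2]; exact H963.pk_nMC hb.le hl hτ ht 0)
    (by rw [h2]; exact H447.gt_nM (H963.gw_wT hb.le) (H963.mf_MC hl hτ ht) 0) hκ
  rw [h2] at h1
  refine le_trans ?_ h1
  have h3 := (ti_VrN (N := N) (l := l) hb.le hl hτ' h ht).trace_eq
  have h4 : ∑ c, Vr (wN N l b t τ') (obsN N l (τ - τ')) (CN N l) c c =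
      ∑ k, Vk N l b t τ' τ k := h3
  rw [h4]
  exact Finset.sum_le_sum_of_subset_of_nonneg (Finset.subset_univ S)
    fun k _ _ => Vk_nonneg hb.le hl hτ' h ht k

end

end Vale.Agent.P159.H159
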