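import Vale.Agent.P159.H462.Q2b
import Vale.Agent.P159.H159.Inst
import Vale.Agent.P159.H239.Ray1

/-!
P159 / (P#) (helper159): **the kernel `qK` is nonpositive off the origin** (FKG), so its absolute
moments are controlled by `qK 0 ≤ T l²`: (H2), (H3) of helper813's EXT0 up to the tail of the
kernel.
-/

set_option linter.unusedSectionVars false
set_option linter.unusedVariables false

namespace Vale.Agent.P159.H159

open Finset MeasureTheory Matrix
open Vale.Agent.P159.TM.H104 (EM Ex Cv Lg li Gr)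
open Vale.Agent.P159.H37
open Vale.Agent.P159.H896 (WM pinK)
open Vale.Agent.P159.H43 (dL)
open Vale.Agent.P159.H145 (cs)
open Vale.Agent.P159.H363 (lf acl ti_acl pin ti_pin sym_pin wm_MC Nf)
open Vale.Agent.P159.H552 (idc)
open Vale.Agent.P159.TM.Spec (V)
open Vale.Agent.P159.TM.SpecC (Tor wT)
open Vale.Agent.P159.H864 (TI sym MC)
open Vale.Agent.P159.H963 (Pn)
open Vale.Agent.P159.T1.H897 (Hol)
open Vale.Agent.P159.H462 (Mx Wbl dWb Wb qK qz aq egr_mv egr_lin' egr_Mx)

noncomputable section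

/-! ### Gaussian functions with a one sided derivative -/

section gauss

variable {I : Type*} [Fintype I]

/-- the reflection along `a` -/
lemma gau_refl (a : I → ℝ) (ha : 0 < ∑ i, a i ^ 2) {φ : (I → ℝ) → ℝ} (hφ : Measurable φ) :
    ∫ g, φ (g - (2 * (∑ i, a i * g i) / ∑ i, a i ^ 2) • a) ∂(gau I) = ∫ g, φ g ∂(gau I) := by
  classical
  obtain ⟨S, hS⟩ : ∃ S, S = ∑ i, a i ^ 2 := ⟨_, rfl⟩
  rw [← hS] at ha ⊢
  have hSd : a ⬝ᵥ a = S := by
    rw [hS]
    exact Finset.sum_congr rfl fun i _ => (pow_two _).symm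
  set R : Matrix I I ℝ := 1 - (2 / S) • vecMulVec a a with hR
  have hRt : Rᵀ = R := by
    rw [hR, transpose_sub, transpose_one, transpose_smul, transpose_vecMulVec]
  have hRR : R * Rᵀ = 1 := by
    rw [hRt, hR]
    have h1 : vecMulVec a a * vecMulVec a a = S • vecMulVec a a := by
      rw [vecMulVec_mul_vecMulVec, hSd]
      ext i j
      simp only [vecMulVec_apply, Matrix.smul_apply, Pi.smul_apply, smul_eq_mul]
      ring
    rw [Matrix.sub_mul, Matrix.mul_sub, Matrix.mul_sub, Matrix.one_mul, Matrix.one_mul,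
      Matrix.mul_one, Matrix.smul_mul, Matrix.mul_smul, h1, smul_smul, smul_smul]
    ext i j
    simp only [Matrix.sub_apply, Matrix.smul_apply, smul_eq_mul]
    field_simp
    ring
  have h1 := H239.gau_map_congr (A := R) (B := (1 : Matrix I I ℝ))
    (by rw [hRR, transpose_one, Matrix.one_mul])
  have m1 : Measurable fun g : I → ℝ => R *ᵥ g := by fun_prop
  have m2 : Measurable fun g : I → ℝ => (1 : Matrix I I ℝ) *ᵥ g := by fun_prop
  have e1 : ∫ g, φ (R *ᵥ g) ∂(gau I) = ∫ g, φ ((1 : Matrix I I ℝ) *ᵥ g) ∂(gau I) := by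
    rw [← integral_map m1.aemeasurable hφ.aestronglyMeasurable,
      ← integral_map m2.aemeasurable hφ.aestronglyMeasurable, h1]
  simp only [one_mulVec] at e1
  rw [← e1]
  refine integral_congr_ae (Filter.Eventually.of_forall fun g => ?_)
  simp only
  congr 1
  rw [hR, sub_mulVec, one_mulVec, smul_mulVec]
  funext i
  simp only [Pi.sub_apply, Pi.smul_apply, smul_eq_mul, mulVec, dotProduct, vecMulVec_apply]
  have e2 : ∑ j, a i * a j * g j = a i * ∑ j, a j * g j := by
    rw [Finset.mul_sum]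
    exact Finset.sum_congr rfl fun j _ => by ring
  rw [e2]
  ring

lemma egr_ln (a : I → ℝ) : EGr fun g : I → ℝ => ∑ i, a i * g i :=
  egr_sum _ fun i _ => (egr_coord i).cmul _

lemma int_ln_sq (a : I → ℝ) : ∫ g, (∑ i, a i * g i) ^ 2 ∂(gau I) = ∑ i, a i ^ 2 := by
  have h := H708.stein (egr_ln a) (EGr.const (∑ i, a i ^ 2)) a fun g => by
    have e : (fun s : ℝ => ∑ i, a i * (g + s • a) i) =
        fun s => (∑ i, a i * g i) + s * ∑ i, a i ^ 2 := by
      funext s
      rw [Finset.mul_sum, ← Finset.sum_add_distrib]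
      refine Finset.sum_congr rfl fun i _ => ?_
      simp only [Pi.add_apply, Pi.smul_apply, smul_eq_mul]
      ring
    rw [e]
    simpa using ((hasDerivAt_id (0 : ℝ)).mul_const (∑ i, a i ^ 2)).const_add (∑ i, a i * g i)
  simp only [integral_const, probReal_univ, smul_eq_mul, one_mul] at h
  rw [← h]
  exact integral_congr_ae (Filter.Eventually.of_forall fun g => pow_two _)

/-- **a function which decreases at most at the rate `κ` along `a`** -/
theorem gau_mono (a : I → ℝ) {φ : (I → ℝ) → ℝ} (hφ : EGr φ) {κ : ℝ} (hκ : 0 ≤ κ)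
    (h : ∀ g s, 0 ≤ s → φ g - s * κ ≤ φ (g + s • a)) :
    -κ ≤ ∫ g, φ g * (∑ i, a i * g i) ∂(gau I) := by
  classical
  have hS0 : 0 ≤ ∑ i, a i ^ 2 := Finset.sum_nonneg fun i _ => sq_nonneg _
  rcases hS0.lt_or_eq with hS | hS
  · obtain ⟨S, hSd⟩ : ∃ S, S = ∑ i, a i ^ 2 := ⟨_, rfl⟩
    have hSp : 0 < S := by rw [hSd]; exact hS
    have eL := egr_ln a
    have eP : EGr fun g => φ g * (∑ i, a i * g i) := hφ.mul eL
    have e1 := gau_refl a hS eP.meas
    rw [← hSd] at e1
    -- the linear functional changes sign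
    have e2 : ∀ g : I → ℝ, ∑ i, a i * (g - (2 * (∑ i, a i * g i) / S) • a) i =
        -∑ i, a i * g i := by
      intro g
      have k1 : ∑ i, a i * (g - (2 * (∑ i, a i * g i) / S) • a) i =
          (∑ i, a i * g i) - (2 * (∑ i, a i * g i) / S) * ∑ i, a i ^ 2 := by
        obtain ⟨u, hu⟩ : ∃ u, u = 2 * (∑ i, a i * g i) / S := ⟨_, rfl⟩
        rw [← hu, Finset.mul_sum, ← Finset.sum_sub_distrib]
        refine Finset.sum_congr rfl fun i _ => ?_
        simp only [Pi.sub_apply, Pi.smul_apply, smul_eq_mul]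
        ring
      rw [k1, ← hSd]
      field_simp
      ring
    simp only [e2] at e1
    have eR : EGr fun g : I → ℝ => φ (g - (2 * (∑ i, a i * g i) / S) • a) := by
      have k1 := egr_lin hφ (0 : I → ℝ) (1 - (2 / S) • vecMulVec a a)
      have k2 : (fun g : I → ℝ => φ (0 + (1 - (2 / S) • vecMulVec a a) *ᵥ g)) =
          fun g : I → ℝ => φ (g - (2 * (∑ i, a i * g i) / S) • a) := by
        funext g
        congr 1
        rw [zero_add, sub_mulVec, one_mulVec, smul_mulVec]
        funext i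
        simp only [Pi.sub_apply, Pi.smul_apply, smul_eq_mul, mulVec, dotProduct,
          vecMulVec_apply]
        have e3 : ∑ j, a i * a j * g j = a i * ∑ j, a j * g j := by
          rw [Finset.mul_sum]
          exact Finset.sum_congr rfl fun j _ => by ring
        rw [e3]
        ring
      rwa [k2] at k1
    have i1 : Integrable (fun g => φ g * (∑ i, a i * g i)) (gau I) := H708.egr_integrable eP
    have i2 : Integrable (fun g : I → ℝ => φ (g - (2 * (∑ i, a i * g i) / S) • a) *
        -(∑ i, a i * g i)) (gau I) := H708.egr_integrable (eR.mul eL.neg)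
    have i3 : Integrable (fun g : I → ℝ => -(2 * κ / S) * (∑ i, a i * g i) ^ 2) (gau I) := by
      have : EGr fun g : I → ℝ => -(2 * κ / S) * ((∑ i, a i * g i) * (∑ i, a i * g i)) :=
        (eL.mul eL).cmul _
      refine (H708.egr_integrable this).congr (Filter.Eventually.of_forall fun g => ?_)
      simp only
      ring
    have key : ∫ g : I → ℝ, -(2 * κ / S) * (∑ i, a i * g i) ^ 2 ∂(gau I) ≤
        ∫ g, (φ g * (∑ i, a i * g i) + φ (g - (2 * (∑ i, a i * g i) / S) • a) *
          -(∑ i, a i * g i)) ∂(gau I) := by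
      refine integral_mono i3 (i1.add i2) fun g => ?_
      simp only
      obtain ⟨u, hu⟩ : ∃ u, u = ∑ i, a i * g i := ⟨_, rfl⟩
      rw [← hu]
      have hdiv : 2 * u / S = 2 / S * u := by ring
      rcases le_or_gt 0 u with h0 | h0
      · have hs : 0 ≤ 2 * u / S := by positivity
        have k1 := h (g - (2 * u / S) • a) (2 * u / S) hs
        rw [sub_add_cancel] at k1
        have k2 : 0 ≤ (φ g - (φ (g - (2 * u / S) • a) - 2 * u / S * κ)) * u :=
          mul_nonneg (by linarith) h0
        have k3 : -(2 * κ / S) * u ^ 2 = -(2 * u / S * κ * u) := by ring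
        rw [k3]
        linarith
      · have hs : 0 ≤ -(2 * u / S) := by
          rw [neg_nonneg]
          exact div_nonpos_of_nonpos_of_nonneg (by linarith) hSp.le
        have k1 := h g (-(2 * u / S)) hs
        rw [neg_smul, ← sub_eq_add_neg] at k1
        have k2 : 0 ≤ (φ (g - (2 * u / S) • a) - (φ g - -(2 * u / S) * κ)) * (-u) :=
          mul_nonneg (by linarith) (by linarith)
        have k3 : -(2 * κ / S) * u ^ 2 = -(2 * u / S * κ * u) := by ring
        rw [k3]
        linarith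
    rw [integral_add i1 i2, e1, integral_const_mul, int_ln_sq, ← hSd] at key
    have k4 : -(2 * κ / S) * S = -(2 * κ) := by field_simp
    rw [k4] at key
    linarith
  · have ha : ∀ i, a i = 0 := fun i => by
      have := (Finset.sum_eq_zero_iff_of_nonneg fun i _ => sq_nonneg (a i)).1 hS.symm i
        (Finset.mem_univ i)
      exact pow_eq_zero_iff (two_ne_zero) |>.1 this
    have e1 : ∫ g, φ g * (∑ i, a i * g i) ∂(gau I) = 0 := by
      rw [integral_eq_zero_of_ae]
      refine Filter.Eventually.of_forall fun g => ?_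
      simp [ha]
    rw [e1]
    linarith

end gauss

/-! ### monotonicity of the gradient -/

section mono

variable {N l : ℕ} [NeZero N] [NeZero (N / l)] {b T : ℝ}

/-- **association**: the derivative of `log Z` increases with the field, up to the diagonal term -/
lemma dL_mono (hb : 0 ≤ b) (hl : l ∣ N) (hT : 0 < T) {F F' g : V N → ℝ} (hF : F ≤ F')
    (hg : 0 ≤ g) : dL (wT b N) (MC N l T T) F g + T * ∑ v, F v * g v ≤
      dL (wT b N) (MC N l T T) F' g + T * ∑ v, F' v * g v := by
  have hw := wm_MC (b := b) hb hl hT (le_refl T)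
  have hbf : ∀ G : V N → ℝ, bf (MC N l T T) G g = T * ∑ v, G v * g v := by
    intro G
    rw [H37.bf_eq, H864.MC_self, smul_mulVec, one_mulVec, dotProduct_smul, smul_eq_mul]
    rfl
  have hmv : ∀ G : V N → ℝ, MC N l T T *ᵥ G = T • G := by
    intro G
    rw [H864.MC_self, smul_mulVec, one_mulVec]
  have hol : Hol (wM (wT b N) (MC N l T T)) (wM (wT b N) (MC N l T T)) := by
    rw [H864.MC_self]
    exact hol_wM_wT hb N (fer_smul_one T)
  have hmono : Monotone (li (MC N l T T *ᵥ g) : (V N → ℤ) → ℝ) := by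
    intro h h' hh
    unfold TM.H104.li
    refine Finset.sum_le_sum fun v _ => ?_
    have h1 : (0 : ℝ) ≤ (MC N l T T *ᵥ g) v := by
      rw [hmv]
      exact mul_nonneg hT.le (hg v)
    have h2 : ((h v : ℤ) : ℝ) ≤ (h' v : ℤ) := by exact_mod_cast hh v
    exact mul_le_mul_of_nonneg_left h2 h1
  have hJ : MC N l T T *ᵥ F ≤ MC N l T T *ᵥ F' := by
    rw [hmv, hmv]
    intro v
    exact mul_le_mul_of_nonneg_left (hF v) hT.le
  have h1 := Ex_mono_source hw.em hol (Gr.li (MC N l T T *ᵥ g)) hmono hJ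
  unfold H43.dL
  rw [hbf, hbf]
  linarith

lemma dWb_mono (hb : 0 ≤ b) (hl : l ∣ N) (hT : 0 < T) {F F' g : V N → ℝ} (hF : F ≤ F')
    (hg : 0 ≤ g) : dWb (wT b N) (MC N l T T) F g + T * ∑ v, F v * g v ≤
      dWb (wT b N) (MC N l T T) F' g + T * ∑ v, F' v * g v := by
  have hw := wm_MC (b := b) hb hl hT (le_refl T)
  have hc : ∀ G : V N → ℝ, Continuous fun c : ℝ => dL (wT b N) (MC N l T T) (cs G c) g :=
    fun G => (H43.continuous_dL hw.em g).comp (H145.continuous_cs G)
  have hi : ∀ G : V N → ℝ, IntervalIntegrable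
      (fun c : ℝ => dL (wT b N) (MC N l T T) (cs G c) g) volume 0 1 :=
    fun G => (hc G).intervalIntegrable _ _
  have h1 : ∀ c : ℝ, dL (wT b N) (MC N l T T) (cs F c) g ≤
      dL (wT b N) (MC N l T T) (cs F' c) g + (T * ∑ v, F' v * g v - T * ∑ v, F v * g v) := by
    intro c
    have h2 := dL_mono (b := b) hb hl hT (F := cs F c) (F' := cs F' c) (g := g)
      (fun v => by unfold H145.cs; linarith [hF v]) hg
    have h3 : ∀ G : V N → ℝ, ∑ v, cs G c v * g v = ∑ v, G v * g v + c * ∑ v, g v := by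
      intro G
      rw [Finset.mul_sum, ← Finset.sum_add_distrib]
      refine Finset.sum_congr rfl fun v _ => ?_
      unfold H145.cs
      ring
    rw [h3, h3] at h2
    linarith
  unfold H462.dWb
  have h4 := intervalIntegral.integral_mono_on zero_le_one (hi F)
    ((hi F').add (intervalIntegrable_const (c := T * ∑ v, F' v * g v - T * ∑ v, F v * g v)))
    fun c _ => h1 c
  rw [intervalIntegral.integral_add (hi F') intervalIntegrable_const,
    intervalIntegral.integral_const, sub_zero, one_smul] at h4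
  linarith

lemma idc_nn (x : V (N / l)) : (0 : V N → ℝ) ≤ idc (H864.cl : V N → V (N / l)) x := by
  intro v
  unfold H552.idc
  split_ifs <;> simp

/-- **monotonicity of the cell gradient** -/
theorem Mx_mono (hb : 0 ≤ b) (hl : l ∣ N) (hT : 0 < T) (x z : V (N / l)) (F : V (N / l) → ℝ)
    {s : ℝ} (hs : 0 ≤ s) : Mx N l b T x F - s * (if z = x then T * (l : ℝ) ^ 2 else 0) ≤
      Mx N l b T x (F + s • Pi.single z 1) := by
  have h1 := dWb_mono (b := b) hb hl hT (F := lf N l F)
    (F' := lf N l (F + s • Pi.single z 1)) (g := idc (H864.cl : V N → V (N / l)) x)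
    (fun v => by
      show F (H864.cl v) ≤ (F + s • (Pi.single z 1 : V (N / l) → ℝ)) (H864.cl v)
      rw [Pi.add_apply, Pi.smul_apply, smul_eq_mul, Pi.single_apply]
      split_ifs
      · linarith
      · linarith) (idc_nn x)
  have h2 : ∑ v, lf N l (F + s • Pi.single z 1) v * idc (H864.cl : V N → V (N / l)) x v =
      ∑ v, lf N l F v * idc (H864.cl : V N → V (N / l)) x v +
        s * (if z = x then (l : ℝ) ^ 2 else 0) := by
    have h3 : ∀ v : V N, lf N l (F + s • Pi.single z 1) v * idc (H864.cl : V N → V (N / l)) x v =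
        lf N l F v * idc (H864.cl : V N → V (N / l)) x v +
          s * (if z = x then (if H864.cl v = x then 1 else 0) else 0) := by
      intro v
      show (F + s • (Pi.single z 1 : V (N / l) → ℝ)) (H864.cl v) * _ = F (H864.cl v) * _ + _
      rw [Pi.add_apply, Pi.smul_apply, smul_eq_mul, Pi.single_apply]
      unfold H552.idc
      by_cases hv : (H864.cl v : V (N / l)) = x
      · by_cases hz : z = x
        · rw [if_pos hv, if_pos hz, if_pos (show (H864.cl v : V (N / l)) = z by rw [hv, hz])]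
          ring
        · rw [if_pos hv, if_neg hz,
            if_neg (show ¬ (H864.cl v : V (N / l)) = z from fun h => hz (h.symm.trans hv))]
          ring
      · rw [if_neg hv]
        by_cases hz : z = x
        · rw [if_pos hz]
          ring
        · rw [if_neg hz]
          ring
    rw [Finset.sum_congr rfl fun v _ => h3 v, Finset.sum_add_distrib, ← Finset.mul_sum]
    congr 2
    by_cases hz : z = x
    · simp only [if_pos hz]
      rw [← Finset.sum_filter, Finset.sum_const, nsmul_eq_mul, mul_one, H864.card_cell hl]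
    · simp only [if_neg hz, Finset.sum_const_zero]
  rw [h2] at h1
  unfold H462.Mx
  have h4 : s * (if z = x then T * (l : ℝ) ^ 2 else 0) =
      T * (s * (if z = x then (l : ℝ) ^ 2 else 0)) := by
    split_ifs
    · ring
    · ring
  rw [h4]
  linarith

/-- the cell gradient does not see constants -/
lemma Mx_cs (hb : 0 ≤ b) (hl : l ∣ N) (hT : 0 < T) (x : V (N / l)) (F : V (N / l) → ℝ) (c : ℝ) :
    Mx N l b T x (fun y => F y + c) = Mx N l b T x F := by
  have h1 := H462.hasDerivAt_Wbl (b := b) hb hl hT x F 0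
  have h2 := H462.hasDerivAt_Wbl (b := b) hb hl hT x (fun y => F y + c) 0
  have e : (fun r : ℝ => Wbl N l b T ((fun y => F y + c) + r • Pi.single x 1)) =
      fun r : ℝ => Wbl N l b T (F + r • Pi.single x 1) := by
    funext r
    rw [← H462.Wbl_const hb hl hT (F + r • Pi.single x 1) c]
    congr 1
    funext y
    simp only [Pi.add_apply, Pi.smul_apply, smul_eq_mul]
    ring
  rw [e] at h2
  have h3 := h2.unique h1
  rwa [zero_smul, add_zero, add_zero] at h3

end mono

/-! ### the sign of the kernel -/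

section kernel

variable {N l : ℕ} [NeZero N] [NeZero (N / l)] {b T κ : ℝ}

/-- `pin A pin A A = Pn` -/
lemma pin_pin_A {n : ℕ} [NeZero n] {A : Matrix (V n) (V n) ℝ} (hA : Nf A) :
    pin A * (A * pin A)ᵀ = (Pn : Matrix (V n) (V n) ℝ) := by
  have hAt := hA.ti
  have hCt : TI (pin A) := ti_pin A
  have h1 : (A * pin A)ᵀ = pin A * A := by rw [transpose_mul, hCt.transpose, hAt.transpose]
  rw [h1]
  refine H864.sym_inj (hCt.mul (hCt.mul hAt)) H963.ti_Pn fun k => ?_
  rw [H864.sym_mul hCt (hCt.mul hAt), H864.sym_mul hCt hAt, sym_pin, H963.sym_Pn]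
  by_cases hk : k = 0
  · rw [if_pos hk, hk, hA.zero, mul_zero, mul_zero]
  · rw [if_neg hk]
    have h2 : √((sym A k)⁻¹) * √((sym A k)⁻¹) = (sym A k)⁻¹ :=
      Real.mul_self_sqrt (inv_nonneg.2 (hA.nn k))
    rw [← mul_assoc, h2, inv_mul_cancel₀ (hA.pos k hk).ne']

/-- the test of the kernel: the direction of `(A' C g)_z` is `e_z` up to constants -/
theorem qK_low (hb : 0 ≤ b) (hl : l ∣ N) (hT : 0 < T) (hN : Nf (acl N l b T T)) (hκ : 0 ≤ κ)
    (z : V (N / l)) : qK N l b T κ z ≤ if z = 0 then T * (l : ℝ) ^ 2 else 0 := by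
  classical
  set A' : Matrix (V (N / l)) (V (N / l)) ℝ :=
    acl N l b T T + κ • (Pn : Matrix (V (N / l)) (V (N / l)) ℝ) with hA'
  set C : Matrix (V (N / l)) (V (N / l)) ℝ := pinK (acl N l b T T) κ with hC
  have hCd : C = pin A' := rfl
  have hN' : Nf A' := H896.nf_add hN hκ
  obtain ⟨a, ha⟩ : ∃ a : V (N / l) → ℝ, a = fun i => (A' * C) z i := ⟨_, rfl⟩
  -- the direction
  have hCa : C *ᵥ a = fun y => (Pi.single z 1 : V (N / l) → ℝ) y -
      1 / (Fintype.card (V (N / l)) : ℝ) := by
    have h1 : C *ᵥ a = fun y => (C * (A' * C)ᵀ) y z := by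
      funext y
      rw [Matrix.mul_apply, ha]
      rfl
    rw [h1, hCd, pin_pin_A hN']
    funext y
    have h2 := congrFun (H963.Pn_mulVec (Pi.single z 1 : V (N / l) → ℝ)) y
    rw [mulVec_single_one] at h2
    have h3 : ∑ y, (Pi.single z (1 : ℝ) : V (N / l) → ℝ) y = 1 := by simp
    rw [h3] at h2
    exact h2
  have hκ0 : 0 ≤ (if z = 0 then T * (l : ℝ) ^ 2 else 0) := by
    split_ifs
    · positivity
    · exact le_rfl
  have h := gau_mono a (φ := fun g => Mx N l b T 0 (C *ᵥ g)) (egr_mv (egr_Mx hb hl hT 0) C) hκ0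
    (fun g s hs => by
      have h1 : C *ᵥ (g + s • a) = fun y =>
          (C *ᵥ g + s • (Pi.single z 1 : V (N / l) → ℝ)) y +
            -(s / (Fintype.card (V (N / l)) : ℝ)) := by
        rw [mulVec_add, mulVec_smul, hCa]
        funext y
        simp only [Pi.add_apply, Pi.smul_apply, smul_eq_mul]
        ring
      rw [h1, Mx_cs hb hl hT]
      exact Mx_mono hb hl hT 0 z (C *ᵥ g) hs)
  have e : qK N l b T κ z = -∫ g, Mx N l b T 0 (C *ᵥ g) * (∑ i, a i * g i)
      ∂(gau (V (N / l))) := by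
    unfold H462.qK
    congr 1
    refine integral_congr_ae (Filter.Eventually.of_forall fun g => ?_)
    simp only
    congr 1
    rw [mulVec_mulVec, ha]
    rfl
  rw [e]
  linarith

/-- **the kernel is nonpositive off the origin** -/
theorem qK_nonpos (hb : 0 ≤ b) (hl : l ∣ N) (hT : 0 < T) (hN : Nf (acl N l b T T)) (hκ : 0 ≤ κ)
    {z : V (N / l)} (hz : z ≠ 0) : qK N l b T κ z ≤ 0 := by
  have h := qK_low (b := b) hb hl hT hN hκ z
  rwa [if_neg hz] at h

theorem qK_zero_le (hb : 0 ≤ b) (hl : l ∣ N) (hT : 0 < T) (hN : Nf (acl N l b T T))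
    (hκ : 0 ≤ κ) : qK N l b T κ 0 ≤ T * (l : ℝ) ^ 2 := by
  have h := qK_low (b := b) hb hl hT hN hκ 0
  rwa [if_pos rfl] at h

/-- **`Σ |qK| ≤ 2 T l²`** -/
theorem sum_abs_qK (hb : 0 ≤ b) (hl : l ∣ N) (hT : 0 < T) (hN : Nf (acl N l b T T))
    (hκ : 0 ≤ κ) : ∑ z, |qK N l b T κ z| ≤ 2 * (T * (l : ℝ) ^ 2) := by
  classical
  have h1 := H462.sum_qK (N := N) (l := l) (b := b) (T := T) (κ := κ) hb hl hT
  have h2 : ∀ z, z ≠ 0 → |qK N l b T κ z| = -qK N l b T κ z := fun z hz =>
    abs_of_nonpos (qK_nonpos hb hl hT hN hκ hz)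
  rw [← Finset.add_sum_erase _ _ (Finset.mem_univ (0 : V (N / l)))] at h1 ⊢
  have h3 : ∑ z ∈ Finset.univ.erase (0 : V (N / l)), |qK N l b T κ z| =
      -∑ z ∈ Finset.univ.erase (0 : V (N / l)), qK N l b T κ z := by
    rw [← Finset.sum_neg_distrib]
    exact Finset.sum_congr rfl fun z hz => h2 z (Finset.ne_of_mem_erase hz)
  have h4 : ∑ z ∈ Finset.univ.erase (0 : V (N / l)), qK N l b T κ z ≤ 0 :=
    Finset.sum_nonpos fun z hz => qK_nonpos hb hl hT hN hκ (Finset.ne_of_mem_erase hz)
  have h5 : 0 ≤ qK N l b T κ 0 := by linarith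
  rw [h3, abs_of_nonneg h5]
  have h6 := qK_zero_le (b := b) hb hl hT hN hκ
  linarith

/-- weighted sums of the kernel: inside a window and outside -/
theorem sum_wt_qK (hb : 0 ≤ b) (hl : l ∣ N) (hT : 0 < T) (hN : Nf (acl N l b T T))
    (hκ : 0 ≤ κ) {f : V (N / l) → ℝ} {W E : ℝ} (S : Finset (V (N / l)))
    (hf : ∀ z ∈ S, |f z| ≤ W) (hW : 0 ≤ W)
    (hE : ∑ z ∈ Sᶜ, |f z| * |qK N l b T κ z| ≤ E) :
    ∑ z, |f z| * |qK N l b T κ z| ≤ 2 * (T * (l : ℝ) ^ 2) * W + E := by
  classical
  have h1 := sum_abs_qK (b := b) hb hl hT hN hκ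
  rw [← Finset.sum_add_sum_compl S]
  have h2 : ∑ z ∈ S, |f z| * |qK N l b T κ z| ≤ W * ∑ z, |qK N l b T κ z| := by
    rw [Finset.mul_sum]
    refine (Finset.sum_le_sum fun z hz =>
      mul_le_mul_of_nonneg_right (hf z hz) (abs_nonneg _)).trans ?_
    exact Finset.sum_le_sum_of_subset_of_nonneg (Finset.subset_univ S)
      fun z _ _ => mul_nonneg hW (abs_nonneg _)
  have h3 := mul_le_mul_of_nonneg_left h1 hW
  linarith

end kernel

end

end Vale.Agent.P159.H159
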