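import Vale.Agent.P159.H159.Mz1
import Vale.Agent.P159.H552.In5a
import Vale.Agent.P159.H462.L1e
import Vale.Agent.P159.H358.Um1

/-!
P159 / (P#) (helper159): **the moments of the kernel `qK`** ((H2), (H3) of helper813's EXT0) from the
locality of the cell gradient at ONE cell: outside the window the kernel is bounded by the distance
of the gradient to its local approximant, inside by the sign (`Mz1`).
-/

set_option linter.unusedSectionVars false
set_option linter.unusedVariables false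

namespace Vale.Agent.P159.H159

open Finset MeasureTheory Matrix
open Vale.Agent.P159.TM.H104 (EM Ex Cv Lg li Gr)
open Vale.Agent.P159.H37
open Vale.Agent.P159.H896 (WM pinK)
open Vale.Agent.P159.H43 (dL)
open Vale.Agent.P159.H145 (cs)
open Vale.Agent.P159.H363 (lf acl ti_acl pin ti_pin sym_pin wm_MC Nf)
open Vale.Agent.P159.H552 (idc)
open Vale.Agent.P159.TM.Spec (V)
open Vale.Agent.P159.TM.SpecC (Tor wT)
open Vale.Agent.P159.H864 (TI sym MC)
open Vale.Agent.P159.H963 (Pn)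
open Vale.Agent.P159.H462 (Mx Wbl dWb Wb qK qz aq egr_mv egr_lin' egr_Mx)
open Vale.Agent.P159.H358 (cutm)

noncomputable section

/-! ### a crude bound of the gradient, all fields -/

section crude

variable {N l : ℕ} [NeZero N] [NeZero (N / l)] {b T : ℝ}

lemma dL_int (hb : 0 ≤ b) (hl : l ∣ N) (hT : 0 < T) (g : V N → ℝ) (n : ℤ) :
    dL (wT b N) (MC N l T T) (fun _ => (n : ℝ)) g = 0 := by
  have hw := wm_MC (b := b) hb hl hT (le_refl T)
  have hp := H552.dL_periodic (M := MC N l T T) H145.per_wT hw.sym hw.em (0 : V N → ℝ) g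
  have h1 := hp.int_mul n 0
  simp only [mul_one, zero_add] at h1
  have e1 : cs (0 : V N → ℝ) (n : ℝ) = fun _ => (n : ℝ) := by
    funext v
    unfold H145.cs
    simp
  have e2 : cs (0 : V N → ℝ) (0 : ℝ) = 0 := by
    funext v
    unfold H145.cs
    simp
  rw [e1, e2] at h1
  rw [h1]
  unfold H43.dL
  rw [Matrix.mulVec_zero, H789.Ex_zero_li (ev_wM hw.ev _)]
  unfold bf
  simp

lemma dL_crude (hb : 0 ≤ b) (hl : l ∣ N) (hT : 0 < T) {F g : V N → ℝ} {a R : ℝ}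
    (hF : ∀ v, |F v - a| ≤ R) (hg : 0 ≤ g) :
    |dL (wT b N) (MC N l T T) F g| ≤ T * (2 * R + 1) * ∑ v, g v := by
  have h1 : ∀ v, F v ≤ (⌈a + R⌉ : ℤ) := fun v => by
    have h2 := (abs_le.1 (hF v)).2
    have h3 := Int.le_ceil (a + R)
    linarith
  have h1' : ∀ v, ((⌊a - R⌋ : ℤ) : ℝ) ≤ F v := fun v => by
    have h2 := (abs_le.1 (hF v)).1
    have h3 := Int.floor_le (a - R)
    linarith
  have h2 := dL_mono (b := b) hb hl hT (F := F) (F' := fun _ => ((⌈a + R⌉ : ℤ) : ℝ)) (g := g)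
    h1 hg
  have h3 := dL_mono (b := b) hb hl hT (F := fun _ => ((⌊a - R⌋ : ℤ) : ℝ)) (F' := F) (g := g)
    h1' hg
  rw [dL_int hb hl hT] at h2 h3
  have hs : ∀ u w : V N → ℝ, (∀ v, u v ≤ w v) → ∑ v, u v * g v ≤ ∑ v, w v * g v :=
    fun u w h => Finset.sum_le_sum fun v _ => mul_le_mul_of_nonneg_right (h v) (hg v)
  have h4 := hs (fun _ => ((⌈a + R⌉ : ℤ) : ℝ)) (fun v => F v + (2 * R + 1)) fun v => by
    have h5 := (abs_le.1 (hF v)).1
    have h6 := (Int.ceil_lt_add_one (a + R)).le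
    linarith
  have h5 := hs (fun v => F v - (2 * R + 1)) (fun _ => ((⌊a - R⌋ : ℤ) : ℝ)) fun v => by
    have h5 := (abs_le.1 (hF v)).2
    have h6 := (Int.lt_floor_add_one (a - R)).le
    linarith
  have e4 : ∑ v, (F v + (2 * R + 1)) * g v = ∑ v, F v * g v + (2 * R + 1) * ∑ v, g v := by
    rw [Finset.mul_sum, ← Finset.sum_add_distrib]
    exact Finset.sum_congr rfl fun v _ => by ring
  have e5 : ∑ v, (F v - (2 * R + 1)) * g v = ∑ v, F v * g v - (2 * R + 1) * ∑ v, g v := by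
    rw [Finset.mul_sum, ← Finset.sum_sub_distrib]
    exact Finset.sum_congr rfl fun v _ => by ring
  rw [e4] at h4
  rw [e5] at h5
  have h6 := mul_le_mul_of_nonneg_left h4 hT.le
  have h7 := mul_le_mul_of_nonneg_left h5 hT.le
  rw [mul_add] at h6
  rw [mul_sub] at h7
  have e6 : T * (2 * R + 1) * ∑ v, g v = T * ((2 * R + 1) * ∑ v, g v) := by ring
  rw [e6, abs_le]
  constructor <;> linarith

lemma sum_idc (hl : l ∣ N) (x : V (N / l)) :
    ∑ v, idc (H864.cl : V N → V (N / l)) x v = (l : ℝ) ^ 2 := by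
  unfold H552.idc
  rw [← Finset.sum_filter, Finset.sum_const, nsmul_eq_mul, mul_one, H864.card_cell hl]

/-- **crude bound of the cell gradient** -/
theorem Mx_crude (hb : 0 ≤ b) (hl : l ∣ N) (hT : 0 < T) (x : V (N / l)) {F : V (N / l) → ℝ}
    {a R : ℝ} (hF : ∀ y, |F y - a| ≤ R) : |Mx N l b T x F| ≤ T * (l : ℝ) ^ 2 * (2 * R + 1) := by
  unfold H462.Mx H462.dWb
  have h1 : ∀ c : ℝ, ‖dL (wT b N) (MC N l T T) (cs (lf N l F) c)
      (idc (H864.cl : V N → V (N / l)) x)‖ ≤ T * (l : ℝ) ^ 2 * (2 * R + 1) := by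
    intro c
    have h2 := dL_crude (b := b) hb hl hT (F := cs (lf N l F) c)
      (g := idc (H864.cl : V N → V (N / l)) x) (a := a + c) (R := R) (fun v => by
        have e : cs (lf N l F) c v - (a + c) = F (H864.cl v) - a := by
          unfold H145.cs
          show F (H864.cl v) + c - (a + c) = _
          ring
        rw [e]
        exact hF _) (idc_nn x)
    rw [sum_idc hl] at h2
    rw [Real.norm_eq_abs]
    refine h2.trans (le_of_eq ?_)
    ring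
  have h3 := intervalIntegral.norm_integral_le_of_norm_le_const (a := 0) (b := 1)
    (f := fun c : ℝ => dL (wT b N) (MC N l T T) (cs (lf N l F) c)
      (idc (H864.cl : V N → V (N / l)) x)) fun c _ => h1 c
  rwa [sub_zero, abs_one, mul_one, Real.norm_eq_abs] at h3

end crude

/-! ### gaussian facts -/

section gau

variable {I : Type*} [Fintype I]

lemma int_ln_four (a : I → ℝ) :
    ∫ g, (∑ i, a i * g i) ^ 4 ∂(gau I) = 3 * (∑ i, a i ^ 2) ^ 2 := by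
  classical
  obtain ⟨S, hS⟩ : ∃ S, S = ∑ i, a i ^ 2 := ⟨_, rfl⟩
  have e2 : EGr fun g : I → ℝ => (∑ i, a i * g i) ^ 2 :=
    H462.EGr.pow (egr_ln a) 2
  have e3 : EGr fun g : I → ℝ => (∑ i, a i * g i) ^ 3 :=
    H462.EGr.pow (egr_ln a) 3
  have h := H708.stein e3 (e2.cmul (3 * S)) a fun g => by
    have e : (fun s : ℝ => (∑ i, a i * (g + s • a) i) ^ 3) =
        fun s => ((∑ i, a i * g i) + s * S) ^ 3 := by
      funext s
      rw [hS, Finset.mul_sum, ← Finset.sum_add_distrib]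
      congr 1
      refine Finset.sum_congr rfl fun i _ => ?_
      simp only [Pi.add_apply, Pi.smul_apply, smul_eq_mul]
      ring
    rw [e]
    have h1 := (((hasDerivAt_id (0 : ℝ)).mul_const S).const_add (∑ i, a i * g i)).pow 3
    refine h1.congr_deriv ?_
    simp
    ring
  rw [integral_const_mul, int_ln_sq, ← hS] at h
  rw [← hS]
  calc ∫ g, (∑ i, a i * g i) ^ 4 ∂(gau I) = ∫ g, (∑ i, a i * g i) * (∑ i, a i * g i) ^ 3
        ∂(gau I) := integral_congr_ae (Filter.Eventually.of_forall fun g => by ring)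
    _ = 3 * S ^ 2 := by rw [h]; ring

/-- a good set and a crude bound off it -/
lemma sq_split {u Q : (I → ℝ) → ℝ} (hu : EGr u) (hQ : EGr Q) (hQ0 : ∀ g, 0 ≤ Q g)
    (huQ : ∀ g, u g ^ 2 ≤ Q g) {S : Set (I → ℝ)} (hS : MeasurableSet S) {e p q : ℝ}
    (hue : ∀ g ∈ S, |u g| ≤ e) (hp : (gau I).real Sᶜ ≤ p) (hq : 0 ≤ q)
    (hQ2 : ∫ g, Q g ^ 2 ∂(gau I) ≤ q ^ 2) : ∫ g, u g ^ 2 ∂(gau I) ≤ e ^ 2 + q * √p := by
  classical
  have iu : Integrable (fun g => u g ^ 2) (gau I) :=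
    H708.egr_integrable (H462.EGr.pow hu 2)
  have eI : EGr (Sᶜ.indicator fun _ : I → ℝ => (1 : ℝ)) :=
    H462.EGr.ind (EGr.const 1) hS.compl
  have iIQ : Integrable (fun g => Sᶜ.indicator (fun _ => (1 : ℝ)) g * Q g) (gau I) :=
    H708.egr_integrable (eI.mul hQ)
  have h1 : ∫ g, u g ^ 2 ∂(gau I) ≤
      ∫ g, (e ^ 2 + Sᶜ.indicator (fun _ => (1 : ℝ)) g * Q g) ∂(gau I) := by
    refine integral_mono iu ((integrable_const _).add iIQ) fun g => ?_
    simp only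
    by_cases hg : g ∈ S
    · have hg' : g ∉ Sᶜ := fun h => h hg
      rw [Set.indicator_of_notMem hg', zero_mul, add_zero, ← sq_abs]
      exact pow_le_pow_left₀ (abs_nonneg _) (hue g hg) 2
    · rw [Set.indicator_of_mem (show g ∈ Sᶜ from hg), one_mul]
      have := huQ g
      have := sq_nonneg e
      linarith
  rw [integral_add (integrable_const _) iIQ, integral_const, probReal_univ, one_smul] at h1
  have iI2 : Integrable (fun g => (Sᶜ.indicator (fun _ => (1 : ℝ)) g) ^ 2) (gau I) :=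
    H708.egr_integrable (H462.EGr.pow eI 2)
  have iQ2 : Integrable (fun g => Q g ^ 2) (gau I) :=
    H708.egr_integrable (H462.EGr.pow hQ 2)
  have h2 := H552.int_cs iI2 iQ2 iIQ
  have h3 : ∫ g, (Sᶜ.indicator (fun _ => (1 : ℝ)) g) ^ 2 ∂(gau I) = (gau I).real Sᶜ := by
    have e1 : ∀ g : I → ℝ, (Sᶜ.indicator (fun _ => (1 : ℝ)) g) ^ 2 =
        Sᶜ.indicator (fun _ => (1 : ℝ)) g := by
      intro g
      by_cases hg : g ∈ Sᶜ
      · rw [Set.indicator_of_mem hg, one_pow]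
      · rw [Set.indicator_of_notMem hg]
        norm_num
    rw [integral_congr_ae (Filter.Eventually.of_forall e1)]
    exact integral_indicator_one hS.compl
  rw [h3] at h2
  have hp0 : 0 ≤ p := measureReal_nonneg.trans hp
  have h4 : ∫ g, Sᶜ.indicator (fun _ => (1 : ℝ)) g * Q g ∂(gau I) ≤ q * √p := by
    refine abs_le_of_sq_le_sq' ?_ (by positivity) |>.2
    rw [mul_pow, Real.sq_sqrt hp0, mul_comm (q ^ 2)]
    refine h2.trans (mul_le_mul hp hQ2 (integral_nonneg fun g => sq_nonneg _) hp0)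
  linarith

end gau

/-! ### the kernel outside the window -/

section tail

variable {N l : ℕ} [NeZero N] [NeZero (N / l)] {b T κ : ℝ}

lemma cutm_zero {K : ℕ} [NeZero K] (D : ℕ) (x : V K) : cutm D x (0 : V K → ℝ) = 0 := by
  funext v
  unfold H358.cutm H358.av
  simp

lemma cutm_le {K : ℕ} [NeZero K] (D : ℕ) (x : V K) {F : V K → ℝ} {R : ℝ}
    (h : ∀ v, |F v| ≤ R) (v : V K) : |cutm D x F v| ≤ R := by
  have h1 := H358.cutm_sub_le (D := D) (x := x) (F := F) (F' := 0) (r := R)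
    (fun v _ => by simpa using h v) v
  rwa [cutm_zero, Pi.zero_apply, sub_zero] at h1

lemma abs_le_sqrt_sum {K : ℕ} [NeZero K] (F : V K → ℝ) (v : V K) : |F v| ≤ √(∑ w, F w ^ 2) := by
  refine Real.abs_le_sqrt ?_
  exact Finset.single_le_sum (f := fun w => F w ^ 2) (fun _ _ => sq_nonneg _) (Finset.mem_univ v)

/-- gradient of the cut field -/
lemma egr_cut (hb : 0 ≤ b) (hl : l ∣ N) (hT : 0 < T) (D : ℕ) (x : V (N / l)) :
    EGr fun F : V (N / l) → ℝ => Mx N l b T x (cutm D x F) := by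
  have hν : 0 ≤ T * (l : ℝ) ^ 2 := by positivity
  refine EGr.mk' (((H462.continuous_Mx hb hl hT x).comp (H358.continuous_cutm D x)).measurable)
    (A := T * (l : ℝ) ^ 2) (B := 2) fun F => ?_
  have h1 : ∀ v, |F v| ≤ ∑ w, |F w| := fun v =>
    Finset.single_le_sum (f := fun w => |F w|) (fun _ _ => abs_nonneg _) (Finset.mem_univ v)
  have h2 := Mx_crude (b := b) hb hl hT x (F := cutm D x F) (a := 0) (R := ∑ w, |F w|)
    fun y => by
      rw [sub_zero]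
      exact cutm_le D x h1 y
  refine h2.trans (mul_le_mul_of_nonneg_left ?_ hν)
  have := Real.add_one_le_exp (2 * ∑ w, |F w|)
  linarith

lemma nu_add {x y : ℝ} : (x - y) ^ 2 ≤ 2 * x ^ 2 + 2 * y ^ 2 := by
  have := sq_nonneg (x + y)
  have e : 2 * x ^ 2 + 2 * y ^ 2 - (x - y) ^ 2 = (x + y) ^ 2 := by ring
  linarith

/-- crude bound of the difference, all fields -/
lemma Mx_cut_crude (hb : 0 ≤ b) (hl : l ∣ N) (hT : 0 < T) (D : ℕ) (x : V (N / l))
    (F : V (N / l) → ℝ) : (Mx N l b T x F - Mx N l b T x (cutm D x F)) ^ 2 ≤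
      (T * (l : ℝ) ^ 2) ^ 2 * (32 * ∑ w, F w ^ 2 + 8) := by
  obtain ⟨R, hR⟩ : ∃ R, R = √(∑ w, F w ^ 2) := ⟨_, rfl⟩
  have hR0 : 0 ≤ R := by rw [hR]; exact Real.sqrt_nonneg _
  have hR2 : R ^ 2 = ∑ w, F w ^ 2 := by
    rw [hR, Real.sq_sqrt (Finset.sum_nonneg fun _ _ => sq_nonneg _)]
  have h0 : ∀ v, |F v| ≤ R := fun v => by rw [hR]; exact abs_le_sqrt_sum F v
  have h1 := Mx_crude (b := b) hb hl hT x (F := F) (a := 0) (R := R)
    fun y => by rw [sub_zero]; exact h0 y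
  have h2 := Mx_crude (b := b) hb hl hT x (F := cutm D x F) (a := 0) (R := R)
    fun y => by rw [sub_zero]; exact cutm_le D x h0 y
  obtain ⟨ν, hν⟩ : ∃ ν, ν = T * (l : ℝ) ^ 2 := ⟨_, rfl⟩
  rw [← hν] at h1 h2 ⊢
  have q1 := pow_le_pow_left₀ (abs_nonneg _) h1 2
  have q2 := pow_le_pow_left₀ (abs_nonneg _) h2 2
  rw [sq_abs] at q1 q2
  refine nu_add.trans ?_
  rw [← hR2]
  have e1 : ν ^ 2 * (32 * R ^ 2 + 8) = 2 * (ν * (2 * R + 1)) ^ 2 + 2 * (ν * (2 * R + 1)) ^ 2 +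
      4 * (ν * (2 * R - 1)) ^ 2 := by ring
  rw [e1]
  have := sq_nonneg (ν * (2 * R - 1))
  linarith

/-- no correlation with the linear field outside the window -/
theorem win_zero {n : ℕ} [NeZero n] {A' : Matrix (V n) (V n) ℝ} (hA : Nf A')
    {f : (V n → ℝ) → ℝ} (hf : EGr f) (hc : ∀ F c, f (fun y => F y + c) = f F) {z : V n}
    (hz : ∀ F (s : ℝ), f (F + s • Pi.single z 1) = f F) :
    ∫ g, f (pin A' *ᵥ g) * (A' *ᵥ (pin A' *ᵥ g)) z ∂(gau (V n)) = 0 := by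
  classical
  set C := pin A' with hC
  obtain ⟨a, ha⟩ : ∃ a : V n → ℝ, a = fun i => (A' * C) z i := ⟨_, rfl⟩
  have hCa : C *ᵥ a = fun y => (Pi.single z 1 : V n → ℝ) y -
      1 / (Fintype.card (V n) : ℝ) := by
    have h1 : C *ᵥ a = fun y => (C * (A' * C)ᵀ) y z := by
      funext y
      rw [Matrix.mul_apply, ha]
      rfl
    rw [h1, hC, pin_pin_A hA]
    funext y
    have h2 := congrFun (H963.Pn_mulVec (Pi.single z 1 : V n → ℝ)) y
    rw [mulVec_single_one] at h2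
    have h3 : ∑ y, (Pi.single z (1 : ℝ) : V n → ℝ) y = 1 := by simp
    rw [h3] at h2
    exact h2
  have hinv : ∀ (g : V n → ℝ) (s : ℝ), f (C *ᵥ (g + s • a)) = f (C *ᵥ g) := by
    intro g s
    have h1 : C *ᵥ (g + s • a) = fun y =>
        (C *ᵥ g + s • (Pi.single z 1 : V n → ℝ)) y + -(s / (Fintype.card (V n) : ℝ)) := by
      rw [mulVec_add, mulVec_smul, hCa]
      funext y
      simp only [Pi.add_apply, Pi.smul_apply, smul_eq_mul]
      ring
    rw [h1, hc, hz]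
  have eg : EGr fun g : V n → ℝ => f (C *ᵥ g) := egr_mv hf C
  have h1 := gau_mono a eg le_rfl fun g s _ => by
    rw [hinv, mul_zero, sub_zero]
  have h2 := gau_mono a eg.neg le_rfl fun g s _ => by
    rw [hinv, mul_zero, sub_zero]
  have e : ∀ g : V n → ℝ, (A' *ᵥ (C *ᵥ g)) z = ∑ i, a i * g i := by
    intro g
    rw [mulVec_mulVec, ha]
    rfl
  simp only [e]
  simp only [neg_mul, integral_neg] at h2
  linarith

/-- the variance of the linear field -/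
lemma var_lin {n : ℕ} [NeZero n] {A' : Matrix (V n) (V n) ℝ} (hA : Nf A') {B : ℝ}
    (hB : ∀ k, sym A' k ≤ B) (z : V n) :
    ∫ g, ((A' *ᵥ (pin A' *ᵥ g)) z) ^ 2 ∂(gau (V n)) ≤ B := by
  classical
  have hAt := hA.ti
  have hCt : TI (pin A') := ti_pin A'
  obtain ⟨a, ha⟩ : ∃ a : V n → ℝ, a = fun i => (A' * pin A') z i := ⟨_, rfl⟩
  have e : ∀ g : V n → ℝ, (A' *ᵥ (pin A' *ᵥ g)) z = ∑ i, a i * g i := by
    intro g
    rw [mulVec_mulVec, ha]
    rfl
  simp only [e]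
  rw [int_ln_sq]
  have h1 : ∑ i, a i ^ 2 = ((A' * pin A') * (A' * pin A')ᵀ) z z := by
    rw [Matrix.mul_apply, ha]
    exact Finset.sum_congr rfl fun i _ => pow_two _
  have h2 : (A' * pin A') * (A' * pin A')ᵀ = A' * (pin A' * (A' * pin A')ᵀ) := by
    rw [Matrix.mul_assoc]
  have h3 : TI (A' * (Pn : Matrix (V n) (V n) ℝ)) := hAt.mul H963.ti_Pn
  rw [h1, h2, pin_pin_A hA, h3.inversion]
  have hn : (0 : ℝ) < (n : ℝ) ^ 2 := H864.N_pos
  have h4 : ∑ k : V n, sym (A' * (Pn : Matrix (V n) (V n) ℝ)) k * TM.H764.cN (TM.H764.dt k (z - z)) ≤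
      ∑ k : V n, B := by
    refine Finset.sum_le_sum fun k _ => ?_
    rw [sub_self, H864.sym_mul hAt H963.ti_Pn, H963.sym_Pn]
    have h5 : TM.H764.cN (TM.H764.dt k (0 : V n)) = 1 := by
      have : TM.H764.dt k (0 : V n) = 0 := by
        unfold TM.H764.dt
        simp
      rw [this, TM.H764.cN_zero]
    rw [h5, mul_one]
    by_cases hk : k = 0
    · rw [if_pos hk, mul_zero]
      exact (hA.nn 0).trans (hB 0)
    · rw [if_neg hk, mul_one]
      exact hB k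
  have h6 : ∑ k : V n, B = (n : ℝ) ^ 2 * B := by
    rw [Finset.sum_const, Finset.card_univ, nsmul_eq_mul, H462.cardVr]
  rw [h6] at h4
  rw [inv_mul_le_iff₀ hn]
  exact h4

/-- the second moment of the crude bound -/
lemma crude_sq {n : ℕ} [NeZero n] {C : Matrix (V n) (V n) ℝ} {U : ℝ} (hU : 0 ≤ U)
    (hC : ∀ v, ∑ i, C v i ^ 2 ≤ U) (ν : ℝ) :
    ∫ g, (ν ^ 2 * (32 * ∑ w, (C *ᵥ g) w ^ 2 + 8)) ^ 2 ∂(gau (V n)) ≤
      (ν ^ 2 * (79 * (n : ℝ) ^ 2 * U + 12)) ^ 2 := by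
  have e4 : ∀ w, EGr fun g : V n → ℝ => ((C *ᵥ g) w) ^ 4 := fun w =>
    H462.EGr.pow (egr_ln (fun i => C w i)) 4
  have h1 : ∀ g : V n → ℝ, (ν ^ 2 * (32 * ∑ w, (C *ᵥ g) w ^ 2 + 8)) ^ 2 ≤
      ν ^ 4 * (2048 * (n : ℝ) ^ 2 * ∑ w, (C *ᵥ g) w ^ 4 + 128) := by
    intro g
    have h2 : (∑ w, (C *ᵥ g) w ^ 2) ^ 2 ≤ (n : ℝ) ^ 2 * ∑ w, (C *ᵥ g) w ^ 4 := by
      have h3 := sq_sum_le_card_mul_sum_sq (s := (Finset.univ : Finset (V n)))
        (f := fun w => (C *ᵥ g) w ^ 2)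
      rw [Finset.card_univ, H462.cardVr] at h3
      refine h3.trans (le_of_eq ?_)
      congr 1
      exact Finset.sum_congr rfl fun w _ => by ring
    obtain ⟨x, hx⟩ : ∃ x, x = ∑ w, (C *ᵥ g) w ^ 2 := ⟨_, rfl⟩
    obtain ⟨y, hy⟩ : ∃ y, y = (n : ℝ) ^ 2 * ∑ w, (C *ᵥ g) w ^ 4 := ⟨_, rfl⟩
    rw [← hx, ← hy] at h2
    rw [← hx, mul_assoc 2048, ← hy]
    have h5 : (32 * x + 8) ^ 2 ≤ 2048 * x ^ 2 + 128 := by
      have := sq_nonneg (32 * x - 8)
      have e : 2048 * x ^ 2 + 128 - (32 * x + 8) ^ 2 = (32 * x - 8) ^ 2 := by ring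
      linarith
    have h6 : (32 * x + 8) ^ 2 ≤ 2048 * y + 128 := by linarith
    have h7 := mul_le_mul_of_nonneg_left h6 (by positivity : (0 : ℝ) ≤ ν ^ 4)
    refine (le_of_eq ?_).trans h7
    ring
  have eS : EGr fun g : V n → ℝ => ∑ w, (C *ᵥ g) w ^ 4 := egr_sum _ fun w _ => e4 w
  have eL : EGr fun g : V n → ℝ => ν ^ 4 * (2048 * (n : ℝ) ^ 2 * ∑ w, (C *ᵥ g) w ^ 4 + 128) :=
    ((eS.cmul (2048 * (n : ℝ) ^ 2)).add (EGr.const 128)).cmul (ν ^ 4)
  have e2 : EGr fun g : V n → ℝ => (ν ^ 2 * (32 * ∑ w, (C *ᵥ g) w ^ 2 + 8)) ^ 2 := by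
    have k1 : EGr fun g : V n → ℝ => ∑ w, (C *ᵥ g) w ^ 2 := egr_sum _ fun w _ =>
      H462.EGr.pow (egr_ln (fun i => C w i)) 2
    exact H462.EGr.pow (((k1.cmul 32).add (EGr.const 8)).cmul (ν ^ 2)) 2
  refine (integral_mono (H708.egr_integrable e2) (H708.egr_integrable eL) h1).trans ?_
  have i4 : Integrable (fun g : V n → ℝ => 2048 * (n : ℝ) ^ 2 * ∑ w, (C *ᵥ g) w ^ 4)
      (gau (V n)) := H708.egr_integrable (eS.cmul _)
  rw [integral_const_mul, integral_add i4 (integrable_const _), integral_const, probReal_univ,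
    one_smul, integral_const_mul, integral_finsetSum _ fun w _ => H708.egr_integrable (e4 w)]
  have h8 : ∀ w, ∫ g, ((C *ᵥ g) w) ^ 4 ∂(gau (V n)) ≤ 3 * U ^ 2 := by
    intro w
    have h9 := int_ln_four (fun i => C w i)
    have h10 : (∑ i, C w i ^ 2) ^ 2 ≤ U ^ 2 :=
      pow_le_pow_left₀ (Finset.sum_nonneg fun _ _ => sq_nonneg _) (hC w) 2
    have h11 : ∫ g, ((C *ᵥ g) w) ^ 4 ∂(gau (V n)) = 3 * (∑ i, C w i ^ 2) ^ 2 := h9
    rw [h11]
    linarith
  have h12 : ∑ w, ∫ g, ((C *ᵥ g) w) ^ 4 ∂(gau (V n)) ≤ (n : ℝ) ^ 2 * (3 * U ^ 2) := by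
    refine (Finset.sum_le_sum fun w _ => h8 w).trans (le_of_eq ?_)
    rw [Finset.sum_const, Finset.card_univ, nsmul_eq_mul, H462.cardVr]
  have h13 := mul_le_mul_of_nonneg_left h12 (by positivity : (0 : ℝ) ≤ 2048 * (n : ℝ) ^ 2)
  have h14 : 2048 * (n : ℝ) ^ 2 * ((n : ℝ) ^ 2 * (3 * U ^ 2)) + 128 ≤
      (79 * (n : ℝ) ^ 2 * U + 12) ^ 2 := by
    obtain ⟨m, hm⟩ : ∃ m : ℝ, m = (n : ℝ) ^ 2 * U := ⟨_, rfl⟩
    have hm0 : 0 ≤ m := by rw [hm]; positivity
    have e1 : 2048 * (n : ℝ) ^ 2 * ((n : ℝ) ^ 2 * (3 * U ^ 2)) + 128 = 6144 * m ^ 2 + 128 := by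
      rw [hm]
      ring
    have e2 : 79 * (n : ℝ) ^ 2 * U + 12 = 79 * m + 12 := by rw [hm]; ring
    rw [e1, e2]
    have e3 : (79 * m + 12) ^ 2 = 6144 * m ^ 2 + 128 + (97 * m ^ 2 + 1896 * m + 16) := by ring
    rw [e3]
    have : 0 ≤ 97 * m ^ 2 + 1896 * m + 16 := by positivity
    linarith
  rw [mul_pow]
  have e5 : (ν ^ 2) ^ 2 = ν ^ 4 := by ring
  rw [e5]
  refine mul_le_mul_of_nonneg_left ?_ (by positivity)
  linarith

/-- **the kernel outside the window** -/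
theorem qK_far (hb : 0 ≤ b) (hl : l ∣ N) (hT : 0 < T) (hN : Nf (acl N l b T T)) (hκ : 0 ≤ κ)
    {D : ℕ} {z : V (N / l)} (hz : z ∉ H462.box (0 : V (N / l)) D) :
    qK N l b T κ z = -∫ g, (Mx N l b T 0 (pinK (acl N l b T T) κ *ᵥ g) -
      Mx N l b T 0 (cutm D 0 (pinK (acl N l b T T) κ *ᵥ g))) *
        ((acl N l b T T + κ • (Pn : Matrix (V (N / l)) (V (N / l)) ℝ)) *ᵥ
          (pinK (acl N l b T T) κ *ᵥ g)) z ∂(gau (V (N / l))) := by
  set A' : Matrix (V (N / l)) (V (N / l)) ℝ :=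
    acl N l b T T + κ • (Pn : Matrix (V (N / l)) (V (N / l)) ℝ) with hA'
  have hCd : pinK (acl N l b T T) κ = pin A' := rfl
  have hN' : Nf A' := H896.nf_add hN hκ
  have h1 := win_zero hN' (f := fun F => Mx N l b T 0 (cutm D 0 F)) (egr_cut hb hl hT D 0)
    (fun F c => by
      rw [H358.cutm_add, Mx_cs hb hl hT]) (z := z) fun F s => by
      congr 1
      refine H358.cutm_congr fun v hv => ?_
      have hvz : v ≠ z := fun h => hz (h ▸ hv)
      rw [Pi.add_apply, Pi.smul_apply, Pi.single_eq_of_ne hvz, smul_zero, add_zero]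
  have i1 : Integrable (fun g : V (N / l) → ℝ => Mx N l b T 0 (pin A' *ᵥ g) *
      (A' *ᵥ (pin A' *ᵥ g)) z) (gau (V (N / l))) := H708.egr_integrable
    ((egr_mv (egr_Mx hb hl hT 0) (pin A')).mul (egr_mv (egr_lin' A' z) (pin A')))
  have i2 : Integrable (fun g : V (N / l) → ℝ => Mx N l b T 0 (cutm D 0 (pin A' *ᵥ g)) *
      (A' *ᵥ (pin A' *ᵥ g)) z) (gau (V (N / l))) := H708.egr_integrable
    ((egr_mv (egr_cut hb hl hT D 0) (pin A')).mul (egr_mv (egr_lin' A' z) (pin A')))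
  unfold H462.qK
  rw [hCd, ← hA']
  congr 1
  have e : ∀ g : V (N / l) → ℝ, (Mx N l b T 0 (pin A' *ᵥ g) -
      Mx N l b T 0 (cutm D 0 (pin A' *ᵥ g))) * (A' *ᵥ (pin A' *ᵥ g)) z =
      Mx N l b T 0 (pin A' *ᵥ g) * (A' *ᵥ (pin A' *ᵥ g)) z -
        Mx N l b T 0 (cutm D 0 (pin A' *ᵥ g)) * (A' *ᵥ (pin A' *ᵥ g)) z := fun g => by ring
  simp only [e]
  rw [integral_sub i1 i2, h1, sub_zero]

/-- **size of the kernel outside the window**, from the locality of the gradient of ONE cell -/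
theorem qK_far_le (hb : 0 ≤ b) (hl : l ∣ N) (hT : 0 < T) (hN : Nf (acl N l b T T)) (hκ : 0 ≤ κ)
    {D : ℕ} {G : Set (V (N / l) → ℝ)} (hGm : MeasurableSet G) {e p U : ℝ}
    (hG : ∀ F ∈ G, |Mx N l b T 0 F - Mx N l b T 0 (cutm D 0 F)| ≤ e)
    (hp : (gau (V (N / l))).real {g | pinK (acl N l b T T) κ *ᵥ g ∉ G} ≤ p) (hU : 0 ≤ U)
    (hC : ∀ v, ∑ i, pinK (acl N l b T T) κ v i ^ 2 ≤ U) {z : V (N / l)}
    (hz : z ∉ H462.box (0 : V (N / l)) D) :
    |qK N l b T κ z| ≤ √((T * (l : ℝ) ^ 2 + κ) * (e ^ 2 + (T * (l : ℝ) ^ 2) ^ 2 *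
      (79 * ((N / l : ℕ) : ℝ) ^ 2 * U + 12) * √p)) := by
  rw [qK_far hb hl hT hN hκ hz, abs_neg]
  set A' : Matrix (V (N / l)) (V (N / l)) ℝ :=
    acl N l b T T + κ • (Pn : Matrix (V (N / l)) (V (N / l)) ℝ) with hA'
  have hCd : pinK (acl N l b T T) κ = pin A' := rfl
  have hN' : Nf A' := H896.nf_add hN hκ
  rw [hCd] at hC hp ⊢
  set C := pin A' with hCC
  have eu : EGr fun g : V (N / l) → ℝ => Mx N l b T 0 (C *ᵥ g) -
      Mx N l b T 0 (cutm D 0 (C *ᵥ g)) :=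
    (egr_mv (egr_Mx hb hl hT 0) C).sub (egr_mv (egr_cut hb hl hT D 0) C)
  have ev : EGr fun g : V (N / l) → ℝ => (A' *ᵥ (C *ᵥ g)) z := egr_mv (egr_lin' A' z) C
  have eQ : EGr fun g : V (N / l) → ℝ =>
      (T * (l : ℝ) ^ 2) ^ 2 * (32 * ∑ w, (C *ᵥ g) w ^ 2 + 8) := by
    have k1 : EGr fun g : V (N / l) → ℝ => ∑ w, (C *ᵥ g) w ^ 2 := egr_sum _ fun w _ =>
      H462.EGr.pow (egr_ln (fun i => C w i)) 2
    exact ((k1.cmul 32).add (EGr.const 8)).cmul _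
  have hSm : MeasurableSet {g : V (N / l) → ℝ | C *ᵥ g ∈ G} :=
    (H363.measurable_mulVec C) hGm
  have h1 := sq_split eu eQ (fun g => by positivity)
    (fun g => Mx_cut_crude hb hl hT D 0 (C *ᵥ g)) hSm (e := e) (p := p)
    (q := (T * (l : ℝ) ^ 2) ^ 2 * (79 * ((N / l : ℕ) : ℝ) ^ 2 * U + 12))
    (fun g hg => hG _ hg) hp (by positivity) (crude_sq hU hC _)
  have hB : ∀ k, sym A' k ≤ T * (l : ℝ) ^ 2 + κ := by
    intro k
    rw [hA', H864.sym_add, H864.sym_smul, H963.sym_Pn]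
    have h2 := H363.sym_acl_le (b := b) hb hl hT (le_refl T) k
    have h3 : κ * (if k = 0 then (0 : ℝ) else 1) ≤ κ := by
      split_ifs
      · rw [mul_zero]
        exact hκ
      · rw [mul_one]
    linarith
  have h2 := var_lin hN' hB z
  have h3 := H552.int_cs (H708.egr_integrable (H462.EGr.pow eu 2))
    (H708.egr_integrable (H462.EGr.pow ev 2)) (H708.egr_integrable (eu.mul ev))
  refine Real.abs_le_sqrt (h3.trans ?_)
  rw [mul_comm (T * (l : ℝ) ^ 2 + κ)]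
  refine mul_le_mul h1 h2 (integral_nonneg fun g => sq_nonneg _) ?_
  exact (integral_nonneg fun g => sq_nonneg _).trans h1

/-- **the moments of the kernel** -/
theorem mom_qK (hb : 0 ≤ b) (hl : l ∣ N) (hT : 0 < T) (hN : Nf (acl N l b T T)) (hκ : 0 ≤ κ)
    {D : ℕ} {G : Set (V (N / l) → ℝ)} (hGm : MeasurableSet G) {e p U : ℝ}
    (hG : ∀ F ∈ G, |Mx N l b T 0 F - Mx N l b T 0 (cutm D 0 F)| ≤ e)
    (hp : (gau (V (N / l))).real {g | pinK (acl N l b T T) κ *ᵥ g ∉ G} ≤ p) (hU : 0 ≤ U)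
    (hC : ∀ v, ∑ i, pinK (acl N l b T T) κ v i ^ 2 ≤ U) (s : ℕ) :
    ∑ z : V (N / l), |(z.1.valMinAbs : ℝ)| ^ s * |qK N l b T κ z| ≤
      2 * (T * (l : ℝ) ^ 2) * (D : ℝ) ^ s + ((N / l : ℕ) : ℝ) ^ (s + 2) *
        √((T * (l : ℝ) ^ 2 + κ) * (e ^ 2 + (T * (l : ℝ) ^ 2) ^ 2 *
          (79 * ((N / l : ℕ) : ℝ) ^ 2 * U + 12) * √p)) := by
  classical
  obtain ⟨E, hE⟩ : ∃ E, E = √((T * (l : ℝ) ^ 2 + κ) * (e ^ 2 + (T * (l : ℝ) ^ 2) ^ 2 *
    (79 * ((N / l : ℕ) : ℝ) ^ 2 * U + 12) * √p)) := ⟨_, rfl⟩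
  have hE0 : 0 ≤ E := by rw [hE]; exact Real.sqrt_nonneg _
  rw [← hE]
  have h1 := sum_wt_qK (b := b) hb hl hT hN hκ (f := fun z : V (N / l) =>
    |(z.1.valMinAbs : ℝ)| ^ s) (W := (D : ℝ) ^ s)
    (E := ((N / l : ℕ) : ℝ) ^ (s + 2) * E) (H462.box (0 : V (N / l)) D) (fun z hz => by
      rw [H462.mem_box, sub_zero] at hz
      rw [abs_pow, abs_abs]
      refine pow_le_pow_left₀ (abs_nonneg _) ?_ s
      have h5 : |(z.1.valMinAbs : ℝ)| = (z.1.valMinAbs.natAbs : ℝ) := by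
        rw [Nat.cast_natAbs, Int.cast_abs]
      rw [h5]
      exact_mod_cast hz.1) (by positivity) ?_
  · refine (le_of_eq ?_).trans h1
    refine Finset.sum_congr rfl fun z _ => ?_
    rw [abs_pow, abs_abs]
  · have h2 : ∀ z ∈ (H462.box (0 : V (N / l)) D)ᶜ,
        |(|(z.1.valMinAbs : ℝ)| ^ s)| * |qK N l b T κ z| ≤ ((N / l : ℕ) : ℝ) ^ s * E := by
      intro z hz
      rw [Finset.mem_compl] at hz
      rw [abs_pow, abs_abs]
      refine mul_le_mul (pow_le_pow_left₀ (abs_nonneg _) ?_ s) ?_ (abs_nonneg _) (by positivity)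
      · have h3 := ZMod.natAbs_valMinAbs_le z.1
        have h4 : z.1.valMinAbs.natAbs ≤ N / l := h3.trans (Nat.div_le_self _ _)
        have h5 : |(z.1.valMinAbs : ℝ)| = (z.1.valMinAbs.natAbs : ℝ) := by
          rw [Nat.cast_natAbs, Int.cast_abs]
        rw [h5]
        exact_mod_cast h4
      · rw [hE]
        exact qK_far_le hb hl hT hN hκ hGm hG hp hU hC hz
    refine (Finset.sum_le_sum h2).trans ?_
    rw [Finset.sum_const, nsmul_eq_mul]
    have h5 : (((H462.box (0 : V (N / l)) D)ᶜ.card : ℕ) : ℝ) ≤ ((N / l : ℕ) : ℝ) ^ 2 := by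
      rw [← H462.cardVr]
      exact_mod_cast Finset.card_le_univ _
    refine (mul_le_mul_of_nonneg_right h5 (by positivity)).trans (le_of_eq ?_)
    ring

end tail

end

end Vale.Agent.P159.H159
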