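import Vale.Agent.P159.H159.Mz2

/-!
P159 / (P#) (helper159): the tail of the kernel from the distance in `L²` of the cell gradient to its
local approximant.
-/

set_option linter.unusedSectionVars false
set_option linter.unusedVariables false

namespace Vale.Agent.P159.H159

open Finset MeasureTheory Matrix
open Vale.Agent.P159.H37
open Vale.Agent.P159.H896 (WM pinK)
open Vale.Agent.P159.H363 (lf acl pin Nf)
open Vale.Agent.P159.TM.Spec (V)
open Vale.Agent.P159.TM.SpecC (wT)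
open Vale.Agent.P159.H963 (Pn)
open Vale.Agent.P159.H462 (Mx qK qz egr_mv egr_lin' egr_Mx)
open Vale.Agent.P159.H358 (cutm)

noncomputable section

/-! ### the tail of the kernel from the `L²` distance -/

section tail

variable {N l : ℕ} [NeZero N] [NeZero (N / l)] {b T κ : ℝ}

/-- the kernel outside the window from the `L²` distance -/
theorem qK_far_l2 (hb : 0 ≤ b) (hl : l ∣ N) (hT : 0 < T) (hN : Nf (acl N l b T T)) (hκ : 0 ≤ κ)
    {D : ℕ} {e0 : ℝ} (he : 0 ≤ e0)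
    (h : ∫ g, (Mx N l b T 0 (pinK (acl N l b T T) κ *ᵥ g) -
      Mx N l b T 0 (cutm D 0 (pinK (acl N l b T T) κ *ᵥ g))) ^ 2 ∂(gau (V (N / l))) ≤ e0 ^ 2)
    {z : V (N / l)} (hz : z ∉ H462.box (0 : V (N / l)) D) :
    |qK N l b T κ z| ≤ √(T * (l : ℝ) ^ 2 + κ) * e0 := by
  rw [qK_far hb hl hT hN hκ hz, abs_neg]
  set A' : Matrix (V (N / l)) (V (N / l)) ℝ :=
    acl N l b T T + κ • (Pn : Matrix (V (N / l)) (V (N / l)) ℝ) with hA'
  have hCd : pinK (acl N l b T T) κ = pin A' := rfl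
  have hN' : Nf A' := H896.nf_add hN hκ
  rw [hCd] at h ⊢
  set C := pin A' with hCC
  have eu : EGr fun g : V (N / l) → ℝ => Mx N l b T 0 (C *ᵥ g) -
      Mx N l b T 0 (cutm D 0 (C *ᵥ g)) :=
    (egr_mv (egr_Mx hb hl hT 0) C).sub (egr_mv (egr_cut hb hl hT D 0) C)
  have ev : EGr fun g : V (N / l) → ℝ => (A' *ᵥ (C *ᵥ g)) z := egr_mv (egr_lin' A' z) C
  have hB : ∀ k, H864.sym A' k ≤ T * (l : ℝ) ^ 2 + κ := by
    intro k
    rw [hA', H864.sym_add, H864.sym_smul, H963.sym_Pn]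
    have h2 := H363.sym_acl_le (b := b) hb hl hT (le_refl T) k
    have h3 : κ * (if k = 0 then (0 : ℝ) else 1) ≤ κ := by
      split_ifs
      · rw [mul_zero]
        exact hκ
      · rw [mul_one]
    linarith
  have h2 := var_lin hN' hB z
  have h3 := H552.int_cs (H708.egr_integrable (H462.EGr.pow eu 2))
    (H708.egr_integrable (H462.EGr.pow ev 2)) (H708.egr_integrable (eu.mul ev))
  have hνκ : 0 ≤ T * (l : ℝ) ^ 2 + κ := by positivity
  refine abs_le_of_sq_le_sq ?_ (by positivity)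
  rw [mul_pow, Real.sq_sqrt hνκ, mul_comm (T * (l : ℝ) ^ 2 + κ)]
  exact h3.trans (mul_le_mul h h2 (integral_nonneg fun g => sq_nonneg _) (sq_nonneg _))

/-- **tail of the kernel** -/
theorem far_l2 (hb : 0 ≤ b) (hl : l ∣ N) (hT : 0 < T) (hN : Nf (acl N l b T T)) (hκ : 0 ≤ κ)
    {D : ℕ} {e0 : ℝ} (he : 0 ≤ e0)
    (h : ∫ g, (Mx N l b T 0 (pinK (acl N l b T T) κ *ᵥ g) -
      Mx N l b T 0 (cutm D 0 (pinK (acl N l b T T) κ *ᵥ g))) ^ 2 ∂(gau (V (N / l))) ≤ e0 ^ 2) :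
    ∑ z ∈ (H462.box (0 : V (N / l)) D)ᶜ, |qK N l b T κ z| ≤
      ((N / l : ℕ) : ℝ) ^ 2 * (√(T * (l : ℝ) ^ 2 + κ) * e0) := by
  classical
  refine (Finset.sum_le_sum fun z hz => qK_far_l2 hb hl hT hN hκ he h
    (Finset.mem_compl.1 hz)).trans ?_
  rw [Finset.sum_const, nsmul_eq_mul]
  refine mul_le_mul_of_nonneg_right ?_ (by positivity)
  rw [← H462.cardVr]
  exact_mod_cast Finset.card_le_univ _

end tail

end

end Vale.Agent.P159.H159
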