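import Vale.Agent.P159.H159.Mz3
import Vale.Agent.P159.H114.Ex7
import Vale.Agent.P159.H358.Un7

/-!
P159 / (P#) (helper159): the locality of the cell gradient and the tail of the kernel in the letters of
the parameters (`Par`, `Ev`), order of constants as in helper358's `vt_ev`.
-/

open Finset MeasureTheory

set_option linter.unusedSectionVars false
set_option linter.unusedDecidableInType false

namespace Vale.Agent.P159.H159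

open Vale.Agent.P159.TM.Spec (V Rng)
open Vale.Agent.P159.TM.SpecC (wT)
open Vale.Agent.P159.H37 (gau)
open Vale.Agent.P159.H552 (lft)
open Vale.Agent.P159.H813 (LB4)
open Vale.Agent.P159.H462 (Dom Mx qK qz)
open Vale.Agent.P159.H363 (pin acl Nf)
open Vale.Agent.P159.H733.Vt (trp)
open Vale.Agent.P159.H972 (Par tn Good)
open Vale.Agent.P159.H801 (Ev)
open Vale.Agent.P159.H640 (rng_thr)
open Vale.Agent.P159.H114.Ex (βm KE mx_num_pin mx_numc_pin)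
open Vale.Agent.P159.H358 hiding cutm
open Vale.Agent.P159.H358 (cutm)
open Matrix

/-- the conclusion on one torus -/
def MxOne (P : Par) (b c0 β : ℝ) (n s : ℕ) (e T : ℝ) (D0 r : ℕ) [NeZero (2 ^ r / 2 ^ s)] : Prop :=
  ∀ {A : Matrix (V (2 ^ r / 2 ^ s)) (V (2 ^ r / 2 ^ s)) ℝ} {c : ℝ},
    Dom A (T * ((2 ^ s : ℕ) : ℝ) ^ 2) c → c0 ≤ c →
    (gau (V (2 ^ r / 2 ^ s))).real {g | 8 < Rn (2 ^ r) b T
      (lft (H864.cl : V (2 ^ r) → V (2 ^ r / 2 ^ s)) (pin A *ᵥ g))} ≤ Real.exp (-(e ^ (-(P.th / 20)))) →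
    ∀ x, Integrable (fun g : V (2 ^ r / 2 ^ s) → ℝ => (Mx (2 ^ r) (2 ^ s) b T x (pin A *ᵥ g) -
      Mx (2 ^ r) (2 ^ s) b T x (cutm D0 x (pin A *ᵥ g))) ^ 2) (gau (V (2 ^ r / 2 ^ s))) ∧
    ∫ g, (Mx (2 ^ r) (2 ^ s) b T x (pin A *ᵥ g) -
      Mx (2 ^ r) (2 ^ s) b T x (cutm D0 x (pin A *ᵥ g))) ^ 2 ∂(gau (V (2 ^ r / 2 ^ s))) ≤
      Real.exp (-(β * Ls n s)) ^ 2

/-- the conclusion on two tori: base torus `2 ^ r1`, law on `2 ^ r2` -/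
def MxTwo (P : Par) (b c0 β : ℝ) (n s : ℕ) (e T : ℝ) (D0 r1 r2 : ℕ) [NeZero (2 ^ r1 / 2 ^ s)]
    [NeZero (2 ^ r2 / 2 ^ s)] : Prop :=
  ∀ {A : Matrix (V (2 ^ r2 / 2 ^ s)) (V (2 ^ r2 / 2 ^ s)) ℝ} {c : ℝ},
    Dom A (T * ((2 ^ s : ℕ) : ℝ) ^ 2) c → c0 ≤ c →
    (gau (V (2 ^ r2 / 2 ^ s))).real {g | 8 < Rn (2 ^ r2) b T
      (lft (H864.cl : V (2 ^ r2) → V (2 ^ r2 / 2 ^ s)) (pin A *ᵥ g))} ≤
      Real.exp (-(e ^ (-(P.th / 20)))) →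
    ∀ x, Integrable (fun g : V (2 ^ r2 / 2 ^ s) → ℝ => (Mx (2 ^ r2) (2 ^ s) b T x (pin A *ᵥ g) -
      Mx (2 ^ r1) (2 ^ s) b T 0 (cutm D0 0 (trp D0 0 x (pin A *ᵥ g)))) ^ 2)
        (gau (V (2 ^ r2 / 2 ^ s))) ∧
    ∫ g, (Mx (2 ^ r2) (2 ^ s) b T x (pin A *ᵥ g) -
      Mx (2 ^ r1) (2 ^ s) b T 0 (cutm D0 0 (trp D0 0 x (pin A *ᵥ g)))) ^ 2
        ∂(gau (V (2 ^ r2 / 2 ^ s))) ≤ Real.exp (-(β * Ls n s)) ^ 2

theorem βm_nonneg {q c0 β₀ : ℝ} (hq : 0 ≤ q) (hβ : 0 ≤ β₀) : 0 ≤ βm q c0 β₀ := by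
  unfold H114.Ex.βm
  positivity

/-- **the distance of the cell gradient to its local approximants**, order of constants -/
theorem mx_ev {b1 b2 : ℝ} (hb1 : 0 < b1) (hb2 : 0 < b2) {c0 β₀ : ℝ} (hc0 : 0 < c0)
    (hβ₀ : 0 ≤ β₀) :
    ∃ A00 : ℝ, 1 ≤ A00 ∧ ∀ A0 : ℝ, A00 ≤ A0 → ∀ (pf : ℝ) (Q : ℕ), Ev b1 b2 pf Q fun P c1 =>
      0 < c1 ∧ 100 * c1 ≤ P.th ∧ ∀ (b : ℝ) (n s : ℕ) (e T Y X δ : ℝ) (r1 r2 : ℕ)
        [NeZero (2 ^ r1 / 2 ^ s)] [NeZero (2 ^ r2 / 2 ^ s)],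
        VtIn P b c1 n s e T Y X δ r1 r2 → ∀ D0 : ℕ, A0 * Ls n s * 2 ^ n ≤ D0 * 2 ^ s →
        (D0 : ℝ) * 2 ^ s ≤ 2 * A0 * Ls n s * 2 ^ n →
        0 < b ∧ 1 ≤ Ls n s ∧ (((2 ^ r2 / 2 ^ s : ℕ) : ℝ) ≤ Real.exp (2 * Ls n s)) ∧
        MxOne P b c0 β₀ n s e T D0 r1 ∧ MxOne P b c0 β₀ n s e T D0 r2 ∧
        MxTwo P b c0 β₀ n s e T D0 r1 r2 := by
  set β : ℝ := βm 1 c0 β₀ with hβd
  have hβ : 0 ≤ β := βm_nonneg zero_le_one hβ₀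
  obtain ⟨c4, C4, W₀, hc4, hC4, h0⟩ := tn_rng hb1 b2 (5 / 2)
  obtain ⟨A00, hA00, hA⟩ := cst_A (q := 1) hb2.le hc4 hC4 zero_le_one hβ hc0
  refine ⟨A00, hA00, fun A0 hA0 pf Q => Ev.of ⟨W₀, fun W hW => ?_⟩⟩
  obtain ⟨cx, Cx, ys, X, hcx, hCx, hys, hX, h1⟩ := h0 W hW
  obtain ⟨κ₀, bo, bb, g, K1, R, hC⟩ := hA A0 hA0 cx Cx hcx hCx
  refine ⟨ys, hys, fun ys' hys0 hys' => ⟨max X 2, fun X0 hX0 => ?_⟩⟩
  refine ⟨1 / 80, by norm_num, fun x1 hx1 hx1' => ?_⟩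
  refine ⟨1 / (80 * (Q + 3)), by positivity, fun thp hthp hthp' => ?_⟩
  refine ⟨1 / 80, by norm_num, fun th hth hth' => ⟨0, fun C0 _ => ?_⟩⟩
  refine ⟨th / 100, by positivity, fun c1 hc1 hc1' => ?_⟩
  have hthp2 : ((Q : ℝ) + 3) * thp ≤ 1 / 80 := by
    rw [le_div_iff₀ (by positivity)] at hthp'
    linarith
  have hq0 : ((Q + ⌈x1 / thp⌉₊ + 2 : ℕ) : ℝ) * thp ≤ x1 + (Q + 3) * thp := by
    push_cast
    have h2 : (⌈x1 / thp⌉₊ : ℝ) ≤ x1 / thp + 1 := (Nat.ceil_lt_add_one (by positivity)).le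
    have h3 : (⌈x1 / thp⌉₊ : ℝ) * thp ≤ x1 + thp := by
      calc (⌈x1 / thp⌉₊ : ℝ) * thp ≤ (x1 / thp + 1) * thp := by gcongr
        _ = x1 + thp := by field_simp
    linarith
  have hsum : th + 4 * ((Q + ⌈x1 / thp⌉₊ + 2 : ℕ) : ℝ) * thp < 1 / 4 := by linarith
  obtain ⟨E0, hE0, hS⟩ := sp_ex (Q + ⌈x1 / thp⌉₊ + 2) K1 R (K7 (2 * A0) 1 c0 bb)
    ((2 * (2 + 1) + 4) * Kc (2 * A0) g) β hcx hc4 hth hc1 (by linarith) (by linarith) hsum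
  refine ⟨E0, hE0, fun P hP => ⟨hc1, by rw [hP.eth]; linarith, ?_⟩⟩
  intro b n s e T Y Xa δ r1 r2 _ _ hV D0 hD1 hD2
  have he := hV.lv.e0
  have hes := hV.lv.ees
  obtain ⟨τ0, a0, -, -, hGP⟩ := hV.lv.G
  have hr := ((hGP e le_rfl hes).rng r1 (Or.inl hV.T1)).1
  have hbb : b1 ≤ b := by
    have h2 := hr.hb1
    rwa [hP.eb1] at h2
  have hbb2 : b ≤ b2 := by
    have h2 := hr.hb2
    rwa [hP.eb2] at h2
  have hb0 : 0 < b := hb1.trans_le hbb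
  have hb : 0 ≤ b := hb0.le
  have S : Sp P.th P.thp c1 P.q0 cx c4 K1 R (K7 (2 * A0) 1 c0 bb)
      ((2 * (2 + 1) + 4) * Kc (2 * A0) g) β e := by
    rw [hP.eth, hP.ethp, hP.eq0]
    exact hS e he (hes.trans hP.ees)
  have C := hC b hb hbb2
  have hK1 : 0 ≤ K1 := by
    rw [C.hK1]
    linarith [C.R2, C.A1]
  have hX0' : X ≤ P.X0 ∧ 2 ≤ P.X0 := by
    rw [hP.eX0]
    exact ⟨(le_max_left _ _).trans hX0, (le_max_right _ _).trans hX0⟩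
  have hysP : P.ys ≤ ys := by rw [hP.eys]; exact hys'
  have hH : ∀ (K : ℕ) [NeZero K] (b : ℝ) (hb : 0 ≤ b) (l : ℕ) (y t : ℝ),
      Rng P.b1 b2 (5 / 2) P.W ys X K b l y → Rng P.b1 b2 (5 / 2) P.W ys X K b (2 * l) y →
      1 / ((2 * l : ℕ) : ℝ) ^ 2 ≤ t → t ≤ 4 / ((2 * l : ℕ) : ℝ) ^ 2 →
      (K : ℝ) * y ≤ c4 * ((2 * l : ℕ) : ℝ) →
      HAt K b (2 * l) t hb y cx Cx ∧ LB4 K b t (2 * l) c4 C4 := by
    rw [hP.eb1, hP.eW]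
    exact h1
  have N := numOk_of C hV.lv S hV.X1
  have T1 := hV.lv.tn (Cx := Cx) (C4 := C4) hb hb0 S hK1 hH hP.eb2 hysP hX0'.1 hX0'.2 hV.T1 hV.y1
    hV.Y2
  have T2 := hV.lv.tn (Cx := Cx) (C4 := C4) hb hb0 S hK1 hH hP.eb2 hysP hX0'.1 hX0'.2 hV.T2 hV.y2
    hV.Y2
  have H := hV.lv.nm S.e4 (A' := 2 * A0) C.A1 hD2
  have hD : A0 * Ls n s * ((2 ^ n : ℕ) : ℝ) ≤ D0 * ((2 ^ s : ℕ) : ℝ) := by
    push_cast
    exact hD1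
  have hy0 : 0 ≤ e ^ (1 / 4 : ℝ) := (Real.rpow_pos_of_pos he _).le
  have hL := N.hL
  refine ⟨hb0, hL, ?_, ?_, ?_, ?_⟩
  · have h5 := H.side T2.hl T2.up
    rwa [mul_one] at h5
  · intro A c hA hc hf x
    exact mx_numc_pin C H hD N.hy hy0 T1 T1 hV.δ0 hV.δ1 hV.ap N.hX N.hX0 N.hl N.hl1 (by norm_num)
      (by linarith) hA hc hf N.hpf le_rfl x
  · intro A c hA hc hf x
    exact mx_numc_pin C H hD N.hy hy0 T2 T1 hV.δ0 hV.δ1 hV.ap N.hX N.hX0 N.hl N.hl1 (by norm_num)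
      (by linarith) hA hc hf N.hpf le_rfl x
  · intro A c hA hc hf x
    exact mx_num_pin C H hD N.hy hy0 T2 T1 hV.δ0 hV.δ1 hV.ap N.hX N.hX0 N.hl N.hl1 (by norm_num)
      (by linarith) hA hc hf N.hpf le_rfl x

theorem rpow_Ls {n s : ℕ} (h : s ≤ n) (β : ℝ) :
    ((2 : ℝ) ^ s / 2 ^ n) ^ β = Real.exp (-(β * Ls n s)) := by
  have e : (2 : ℝ) ^ s / 2 ^ n = Real.exp (-(Ls n s)) := by
    rw [Real.exp_neg, exp_Ls, pow_sub₀ _ two_ne_zero h]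
    field_simp
  rw [e, ← Real.exp_mul]
  congr 1
  ring

/-- numbers of the tail -/
theorem far_num {n s r : ℕ} [NeZero (2 ^ r / 2 ^ s)] {b T : ℝ} (hb : 0 ≤ b)
    (hl : 2 ^ s ∣ 2 ^ r) (hT : 0 < T) (hN : Nf (acl (2 ^ r) (2 ^ s) b T T)) (hT4 : T ≤ 4 * tn n)
    (hsn : s ≤ n) (hL : 1 ≤ Ls n s)
    (hn : ((2 ^ r / 2 ^ s : ℕ) : ℝ) ≤ Real.exp (2 * Ls n s)) {D0 : ℕ} {β₀ : ℝ}
    (h : ∫ g, (Mx (2 ^ r) (2 ^ s) b T 0 (pin (acl (2 ^ r) (2 ^ s) b T T) *ᵥ g) -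
      Mx (2 ^ r) (2 ^ s) b T 0 (cutm D0 0 (pin (acl (2 ^ r) (2 ^ s) b T T) *ᵥ g))) ^ 2
        ∂(gau (V (2 ^ r / 2 ^ s))) ≤ Real.exp (-((β₀ + 6) * Ls n s)) ^ 2) :
    ∑ z ∈ (H462.box (0 : V (2 ^ r / 2 ^ s)) D0)ᶜ, |qz (2 ^ r) (2 ^ s) b T z| ≤
      ((2 : ℝ) ^ s / 2 ^ n) ^ β₀ := by
  have hpk : H896.pinK (acl (2 ^ r) (2 ^ s) b T T) 0 = pin (acl (2 ^ r) (2 ^ s) b T T) := by
    unfold H896.pinK
    rw [zero_smul, add_zero]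
  have h1 := far_l2 (N := 2 ^ r) (l := 2 ^ s) (κ := 0) (D := D0) hb hl hT hN le_rfl
    (Real.exp_pos (-((β₀ + 6) * Ls n s))).le (by rw [hpk]; exact h)
  simp only [H462.qK_zero, add_zero] at h1
  refine h1.trans ?_
  rw [rpow_Ls hsn]
  have hν : √(T * ((2 ^ s : ℕ) : ℝ) ^ 2) ≤ 2 := by
    rw [Real.sqrt_le_left (by norm_num)]
    have h2 : (((2 ^ s : ℕ) : ℝ)) ^ 2 ≤ 4 ^ n := by
      push_cast
      rw [← pow_mul, mul_comm, pow_mul]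
      norm_num
      exact pow_le_pow_right₀ (by norm_num) hsn
    have h3 : tn n * 4 ^ n = 1 := by
      unfold H972.tn
      field_simp
    calc T * ((2 ^ s : ℕ) : ℝ) ^ 2 ≤ (4 * tn n) * 4 ^ n :=
          mul_le_mul hT4 h2 (by positivity) (by have := H972.tn_pos n; positivity)
      _ = 2 ^ 2 := by rw [mul_assoc, h3]; norm_num
  have h4 : (((2 ^ r / 2 ^ s : ℕ) : ℝ)) ^ 2 ≤ Real.exp (4 * Ls n s) := by
    have h5 := pow_le_pow_left₀ (Nat.cast_nonneg _) hn 2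
    rw [← Real.exp_nat_mul] at h5
    refine h5.trans (le_of_eq ?_)
    congr 1
    push_cast
    ring
  have h6 : (2 : ℝ) ≤ Real.exp (Ls n s) := by
    have := Real.add_one_le_exp (Ls n s)
    linarith
  calc (((2 ^ r / 2 ^ s : ℕ) : ℝ)) ^ 2 * (√(T * ((2 ^ s : ℕ) : ℝ) ^ 2) *
        Real.exp (-((β₀ + 6) * Ls n s)))
      ≤ Real.exp (4 * Ls n s) * (Real.exp (Ls n s) * Real.exp (-((β₀ + 6) * Ls n s))) := by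
        refine mul_le_mul h4 (mul_le_mul_of_nonneg_right (hν.trans h6) (Real.exp_pos _).le)
          (by positivity) (Real.exp_pos _).le
    _ = Real.exp (4 * Ls n s + (Ls n s + -((β₀ + 6) * Ls n s))) := by
        rw [← Real.exp_add, ← Real.exp_add]
    _ ≤ Real.exp (-(β₀ * Ls n s)) := by
        refine Real.exp_le_exp.2 ?_
        have e : 4 * Ls n s + (Ls n s + -((β₀ + 6) * Ls n s)) = -(β₀ * Ls n s) - Ls n s := by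
          ring
        rw [e]
        linarith

/-- **the tail of the kernel `qz`**, order of constants -/
theorem far_ev {b1 b2 : ℝ} (hb1 : 0 < b1) (hb2 : 0 < b2) {c0 β₀ : ℝ} (hc0 : 0 < c0)
    (hβ₀ : 0 ≤ β₀) :
    ∃ A00 : ℝ, 1 ≤ A00 ∧ ∀ A0 : ℝ, A00 ≤ A0 → ∀ (pf : ℝ) (Q : ℕ), Ev b1 b2 pf Q fun P c1 =>
      0 < c1 ∧ 100 * c1 ≤ P.th ∧ ∀ (b : ℝ) (n s : ℕ) (e T Y X δ : ℝ) (r1 r : ℕ)
        [NeZero (2 ^ r1 / 2 ^ s)] [NeZero (2 ^ r / 2 ^ s)],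
        VtIn P b c1 n s e T Y X δ r1 r → ∀ D0 : ℕ, A0 * Ls n s * 2 ^ n ≤ D0 * 2 ^ s →
        (D0 : ℝ) * 2 ^ s ≤ 2 * A0 * Ls n s * 2 ^ n →
        ∀ c, Dom (acl (2 ^ r) (2 ^ s) b T T) (T * ((2 ^ s : ℕ) : ℝ) ^ 2) c → c0 ≤ c →
        Nf (acl (2 ^ r) (2 ^ s) b T T) →
        (gau (V (2 ^ r / 2 ^ s))).real {g | 8 < Rn (2 ^ r) b T
          (lft (H864.cl : V (2 ^ r) → V (2 ^ r / 2 ^ s)) (pin (acl (2 ^ r) (2 ^ s) b T T) *ᵥ g))} ≤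
          Real.exp (-(e ^ (-(P.th / 20)))) →
        ∑ z ∈ (H462.box (0 : V (2 ^ r / 2 ^ s)) D0)ᶜ, |qz (2 ^ r) (2 ^ s) b T z| ≤
          ((2 : ℝ) ^ s / 2 ^ n) ^ β₀ := by
  obtain ⟨A00, hA00, hA⟩ := mx_ev hb1 hb2 hc0 (β₀ := β₀ + 6) (by linarith)
  refine ⟨A00, hA00, fun A0 hA0 pf Q => (hA A0 hA0 pf Q).mono fun P c1 _ h => ?_⟩
  refine ⟨h.1, h.2.1, ?_⟩
  intro b n s e T Y X δ r1 r _ _ hV D0 hD1 hD2 c hdom hc hN hf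
  obtain ⟨hb0, hL, hn, -, hone, -⟩ := h.2.2 b n s e T Y X δ r1 r hV D0 hD1 hD2
  have hT0 : 0 < T := (H972.tn_pos n).trans_le hV.lv.t1
  have hl : 2 ^ s ∣ 2 ^ r := pow_dvd_pow 2 (hV.lv.sn.trans ((Nat.le_add_right _ _).trans hV.T2.1))
  exact far_num hb0.le hl hT0 hN hV.lv.t2 hV.lv.sn hL hn (hone hdom hc hf 0).2

end Vale.Agent.P159.H159
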