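import Vale.Agent.P159.H159.Mz5
import Vale.Agent.P159.H358.Un11

/-!
P159 / (P#) (helper159): the same as in `Mz5` at every real mass `T`, `tn n ≤ T ≤ 4 tn n`.
-/

open Finset MeasureTheory

set_option linter.unusedSectionVars false
set_option linter.unusedDecidableInType false

namespace Vale.Agent.P159.H159

open Vale.Agent.P159.TM.Spec (V Rng)
open Vale.Agent.P159.TM.SpecC (wT)
open Vale.Agent.P159.H37 (gau)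
open Vale.Agent.P159.H552 (lft)
open Vale.Agent.P159.H864 (yt)
open Vale.Agent.P159.H462 (Dom Mx qK qz)
open Vale.Agent.P159.H363 (pin acl Nf rel Below below_pin)
open Vale.Agent.P159.H733.Vt (trp)
open Vale.Agent.P159.H972 (Par tn Good GP)
open Vale.Agent.P159.H801 (Ev)
open Vale.Agent.P159.H358 (cutm Ls VtIn Lvl LvR RnT in_ev)
open Matrix

/-- locality of the cell gradient in the law `pin A` on the torus `2 ^ r`, mass `T` -/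
def LocMT (b β : ℝ) (n s : ℕ) (T : ℝ) (D0 r : ℕ) [NeZero (2 ^ r / 2 ^ s)]
    (A : Matrix (V (2 ^ r / 2 ^ s)) (V (2 ^ r / 2 ^ s)) ℝ) : Prop :=
  ∀ x, Integrable (fun g : V (2 ^ r / 2 ^ s) → ℝ => (Mx (2 ^ r) (2 ^ s) b T x (pin A *ᵥ g) -
      Mx (2 ^ r) (2 ^ s) b T x (cutm D0 x (pin A *ᵥ g))) ^ 2) (gau (V (2 ^ r / 2 ^ s))) ∧
    ∫ g, (Mx (2 ^ r) (2 ^ s) b T x (pin A *ᵥ g) -
      Mx (2 ^ r) (2 ^ s) b T x (cutm D0 x (pin A *ᵥ g))) ^ 2 ∂(gau (V (2 ^ r / 2 ^ s))) ≤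
      Real.exp (-(β * Ls n s)) ^ 2

/-- the common local functional, base torus `2 ^ r1`, law `pin A` on the torus `2 ^ r2`, mass `T` -/
def LocFT (b β : ℝ) (n s : ℕ) (T : ℝ) (D0 r1 r2 : ℕ) [NeZero (2 ^ r1 / 2 ^ s)]
    [NeZero (2 ^ r2 / 2 ^ s)] (A : Matrix (V (2 ^ r2 / 2 ^ s)) (V (2 ^ r2 / 2 ^ s)) ℝ) : Prop :=
  ∀ x, Integrable (fun g : V (2 ^ r2 / 2 ^ s) → ℝ =>
      (Mx (2 ^ r2) (2 ^ s) b T x (pin A *ᵥ g) -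
      Mx (2 ^ r1) (2 ^ s) b T 0 (cutm D0 0 (trp D0 0 x (pin A *ᵥ g)))) ^ 2)
        (gau (V (2 ^ r2 / 2 ^ s))) ∧
    ∫ g, (Mx (2 ^ r2) (2 ^ s) b T x (pin A *ᵥ g) -
      Mx (2 ^ r1) (2 ^ s) b T 0 (cutm D0 0 (trp D0 0 x (pin A *ᵥ g)))) ^ 2
        ∂(gau (V (2 ^ r2 / 2 ^ s))) ≤ Real.exp (-(β * Ls n s)) ^ 2

theorem locMT_tn {b β : ℝ} {n s D0 r : ℕ} [NeZero (2 ^ r / 2 ^ s)]
    {A : Matrix (V (2 ^ r / 2 ^ s)) (V (2 ^ r / 2 ^ s)) ℝ} :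
    LocMT b β n s (tn n) D0 r A ↔ LocM b β n s D0 r A := Iff.rfl

theorem locFT_tn {b β : ℝ} {n s D0 r1 r2 : ℕ} [NeZero (2 ^ r1 / 2 ^ s)]
    [NeZero (2 ^ r2 / 2 ^ s)] {A : Matrix (V (2 ^ r2 / 2 ^ s)) (V (2 ^ r2 / 2 ^ s)) ℝ} :
    LocFT b β n s (tn n) D0 r1 r2 A ↔ LocF b β n s D0 r1 r2 A := Iff.rfl

/-- **locality of the cell gradient at every real mass**, all inputs from the state -/
theorem mxT_ev {b1 b2 b pf : ℝ} (hb1 : 0 < b1) (hb : b1 ≤ b) (hb2 : 0 < b2) (hpf : 0 < pf)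
    {c0 β : ℝ} (hc0 : 0 < c0) (hβ : 0 ≤ β) :
    ∃ A00 : ℝ, 1 ≤ A00 ∧ ∀ A0 : ℝ, A00 ≤ A0 → ∀ Q : ℕ, Ev b1 b2 pf Q fun P c1 =>
      ∀ (n s : ℕ) (e T Y : ℝ) (r1 r2 : ℕ) [NeZero (2 ^ r1 / 2 ^ s)] [NeZero (2 ^ r2 / 2 ^ s)],
        LvR P b c1 n s e T Y r1 r2 → ∀ D0 : ℕ, A0 * Ls n s * 2 ^ n ≤ D0 * 2 ^ s →
        (D0 : ℝ) * 2 ^ s ≤ 2 * A0 * Ls n s * 2 ^ n →
        1 ≤ Ls n s ∧ (((2 ^ r2 / 2 ^ s : ℕ) : ℝ) ≤ Real.exp (2 * Ls n s)) ∧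
        (∀ {A : Matrix (V (2 ^ r2 / 2 ^ s)) (V (2 ^ r2 / 2 ^ s)) ℝ} {c : ℝ},
          Dom A (T * ((2 ^ s : ℕ) : ℝ) ^ 2) c → c0 ≤ c → Nf A →
          ∑ k, rel (acl (2 ^ r2) (2 ^ s) b T T) A k ^ 2 ≤ (e ^ (22 / 25 : ℝ)) ^ 2 →
          LocMT b β n s T D0 r2 A ∧ LocFT b β n s T D0 r1 r2 A) := by
  obtain ⟨A00, hA00, hvt⟩ := mx_ev (β₀ := β) hb1 hb2 hc0 hβ
  refine ⟨A00, hA00, fun A0 hA0 Q => ?_⟩
  refine ((hvt A0 hA0 pf Q).and (in_ev (b2 := b2) hb1 hb hpf Q)).mono ?_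
  rintro P c1 hA ⟨⟨hc1, hc1t, hv⟩, hin⟩
  intro n s e T Y r1 r2 _ _ h D0 hD1 hD2
  obtain ⟨hV, -, hR2⟩ := hin n s e T Y r1 r2 h
  obtain ⟨-, hL, hn2, -, N1, N2⟩ := hv b n s e T Y (e ^ (-(P.th / 4))) (e ^ P.x1) r1 r2 hV D0
    hD1 hD2
  refine ⟨hL, hn2, fun {A} {c} hdom hc hnf hHS => ?_⟩
  have hf := hR2 hnf hHS (below_pin A)
  exact ⟨N1 hdom hc hf, N2 hdom hc hf⟩

/-- **the cell gradient in the typical law of each torus, and the tail of the kernel `qz`**, at every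
real mass -/
theorem farT_ev {b1 b2 b pf : ℝ} (hb1 : 0 < b1) (hb : b1 ≤ b) (hb2 : 0 < b2) (hpf : 0 < pf)
    {β : ℝ} (hβ : 0 ≤ β) :
    ∃ A00 : ℝ, 1 ≤ A00 ∧ ∀ A0 : ℝ, A00 ≤ A0 → ∀ Q : ℕ, Ev b1 b2 pf Q fun P c1 =>
      ∀ (n s : ℕ) (e T Y : ℝ) (r1 r2 : ℕ) [NeZero (2 ^ r1 / 2 ^ s)] [NeZero (2 ^ r2 / 2 ^ s)],
        LvR P b c1 n s e T Y r1 r2 → ∀ D0 : ℕ, A0 * Ls n s * 2 ^ n ≤ D0 * 2 ^ s →
        (D0 : ℝ) * 2 ^ s ≤ 2 * A0 * Ls n s * 2 ^ n →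
        LocMT b β n s T D0 r2 (acl (2 ^ r2) (2 ^ s) b T T) ∧
        LocFT b β n s T D0 r1 r2 (acl (2 ^ r2) (2 ^ s) b T T) ∧
        ∑ z ∈ (H462.box (0 : V (2 ^ r2 / 2 ^ s)) D0)ᶜ, |qz (2 ^ r2) (2 ^ s) b T z| ≤
          ((2 : ℝ) ^ s / 2 ^ n) ^ β := by
  have hb0 : 0 < b := hb1.trans_le hb
  obtain ⟨A00, hA00, hvt⟩ := mxT_ev (b2 := b2) (pf := pf) hb1 hb hb2 hpf (c0 := 1 / b)
    (β := β + 6) (by positivity) (by linarith)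
  refine ⟨A00, hA00, fun A0 hA0 Q => (hvt A0 hA0 Q).mono fun P c1 _ h => ?_⟩
  intro n s e T Y r1 r2 _ _ hL D0 hD1 hD2
  obtain ⟨hL1, hn2, hone⟩ := h n s e T Y r1 r2 hL D0 hD1 hD2
  have hsn := hL.lv.sn
  have hT0 : 0 < T := (H972.tn_pos n).trans_le hL.lv.t1
  have hl : 2 ^ s ∣ 2 ^ r2 := pow_dvd_pow 2 (hsn.trans ((Nat.le_add_right _ _).trans hL.T2.1))
  have hdom := H375.dom_acl (N := 2 ^ r2) (l := 2 ^ s) (b := b) hb0 hl hT0 (le_refl T)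
  have hnf : Nf (acl (2 ^ r2) (2 ^ s) b T T) := Nf.of_dom hdom
  obtain ⟨h1, h2⟩ := hone hdom le_rfl hnf (rel_self_sum hnf)
  have hle : Real.exp (-((β + 6) * Ls n s)) ^ 2 ≤ Real.exp (-(β * Ls n s)) ^ 2 := by
    refine pow_le_pow_left₀ (Real.exp_pos _).le (Real.exp_le_exp.2 ?_) 2
    nlinarith
  exact ⟨fun x => ⟨(h1 x).1, (h1 x).2.trans hle⟩, fun x => ⟨(h2 x).1, (h2 x).2.trans hle⟩,
    far_num hb0.le hl hT0 hnf hL.lv.t2 hsn hL1 hn2 (h1 0).2⟩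

end Vale.Agent.P159.H159
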