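import Vale.Agent.P159.H773.Rst
import Vale.Agent.P159.H191.Ct14
import Vale.Agent.P159.H859.E4w

/-!
P159: **the first question**, no hypothesis left (last plug, helper159): helper191's `cutW_ev` with
helper859's `e4w_ev`, into helper773's `q1_of_cut`.
-/

open Filter Topology

namespace Vale.Agent.P159.H159

theorem cutEv_crit {b1 b2 : ℝ} (hb1 : 0 < b1) (h1 : b1 ≤ bCrit) (Q : ℕ) :
    H773.CutEv b1 b2 Q :=
  H191.Cf.cutW_ev (b := bCrit) (b2 := b2) hb1 h1 (by norm_num) (TM.Frame.thmA6 hb1) Q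
    (H859.Gn.e4w_ev (b := bCrit) (b2 := b2) hb1 h1 le_rfl Q)

/-- **QUESTION 1** -/
theorem q1 : H801.Q1 := by
  have hb : 0 < bCrit := H170.bCrit_pos
  exact H773.q1_of_cut (b1 := bCrit / 2) (b2 := 2 * bCrit) (Q := 4) (by linarith) (by linarith)
    (by linarith) (cutEv_crit (by linarith) (by linarith) 4)

end Vale.Agent.P159.H159
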