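import Vale.Agent.P159.H801.Sp4
import Vale.Agent.P159.H43.Se2

/-!
P159, P# (helper159): **the torus change at the states**, no hypothesis left: helper801's `tor_of` with
helper43's oscillations on the base torus.
-/

open Filter Topology Finset MeasureTheory Matrix

namespace Vale.Agent.P159.H159

open Vale.Agent.P159.H972 (Par)
open Vale.Agent.P159.H801 (Ev Base OscIn tor_of)
open Vale.Agent.P159.H43 (CHB)
open Vale.Agent.P159.H114 (TB aT)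
open Vale.Agent.P159.H889 (Cx)
open Vale.Agent.P159.H846.Two (Ev2)

theorem osc_in (b1 b2 : ℝ) (Q : ℕ) : OscIn b1 b2 Q := by
  refine (H43.ev_base_num b1 b2 (9 / 10) Q).mono fun P c1 _ h => ?_
  obtain ⟨E, hE, -, h⟩ := h
  exact ⟨E, hE, fun P' b an n ε y e1 r1 j _ hb hB hj hy hes hlo hup hC =>
    h P' b an n ε y e1 r1 j hb hB hj hy hes hlo hup hC⟩

/-- **the torus change at the states** -/
theorem tor_ev {b b1 b2 K : ℝ} {Q : ℕ} (hb1 : 0 < b1) (h1 : b1 ≤ b) (h2 : b ≤ b2) :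
    Ev2 b1 b2 (9 / 10) Q fun P P' c1 => ∀ C1 : ℝ, 1 ≤ C1 → P.C0 ≤ C1 → C1 ≤ K * P.C0 →
      ∃ E : ℝ, 0 < E ∧ ∀ (an ε y : ℝ) (n j r1 : ℕ),
        Base P P' b an (P.x1 / 100) n ε y (y ^ (2 - P.x1 / 10)) r1 → Cx P b C1 c1 n j ε y →
        ε ≤ y ^ (9 / 5 : ℝ) → 11 / 10 ≤ an → an ≤ 159 / 100 →
        CHB P b n ε (y ^ (2 - P.x1 / 50) + y * ε ^ (2 : ℝ)) → y ≤ E →
        ∀ r r', TB P n ε r → TB P n ε r' → |aT b n r j - aT b n r' j| ≤ y ^ (2 + P.x1) :=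
  tor_of hb1 h1 h2 (osc_in b1 b2 Q)

end Vale.Agent.P159.H159
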