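import Vale.Agent.P159.H159.Trn

/-!
P159, module TRN (helper159), part 2: the trace norm of a translation invariant kernel when the far
blocks are only controlled through the sign flip of one of the two boxes.
-/

namespace Vale.Agent.P159.H159

open Finset Matrix
open Vale.Agent.P159.H37 Vale.Agent.P159.H864

section abstract

variable {V ι J : Type*} [Fintype V] [Fintype ι] [Fintype J] [DecidableEq ι]

/-- the rows of the box `w'` with the opposite sign -/
def flp (β : V → ι) (w' : ι) (B : Matrix V J ℝ) : Matrix V J ℝ :=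
  rw' (fun x => if β x = w' then -1 else 1) B

/-- the hypotheses of the trace norm lemma, sign flip form for the far pairs -/
structure Bx2 (T : Matrix V V ℝ) (β : V → ι) (nr : ι → ι → Prop) (δ δf : ℝ) : Prop where
  rfl' : ∀ w, nr w w
  bx : Bx (J := J) T β nr δ
  far : ∀ w w', ¬nr w w' → ∀ B : Matrix V J ℝ, Ct B →
    (∀ x j, B x j ≠ 0 → β x = w ∨ β x = w') →
    |pr (B * Bᵀ) T - pr (flp β w' B * (flp β w' B)ᵀ) T| ≤ δf

theorem tt_far {T : Matrix V V ℝ} {β : V → ι} {nr : ι → ι → Prop} {δ δf : ℝ}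
    (h : Bx2 (J := J) T β nr δ δf) {B : Matrix V J ℝ} (hB : Ct B) {w w' : ι} (hn : ¬nr w w') :
    |tt (B * Bᵀ) T β w w'| ≤ δf / 4 := by
  have hsy : ∀ x y, (B * Bᵀ) x y = (B * Bᵀ) y x := by
    intro x y
    simp only [Matrix.mul_apply, Matrix.transpose_apply, mul_comm]
  have hw : w ≠ w' := by
    rintro rfl
    exact hn (h.rfl' w)
  set e0 : V → ℝ := fun x => if β x = w then 1 else if β x = w' then 1 else 0 with he0
  have h1 := h.far w w' hn (rw' e0 B) (hB.row fun x => by
      simp only [he0]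
      split_ifs <;> simp) (fun x j hx => by
      by_contra hc
      rw [not_or] at hc
      exact hx (by simp [rw', he0, hc.1, hc.2]))
  have e : pr (rw' e0 B * (rw' e0 B)ᵀ) T -
      pr (flp β w' (rw' e0 B) * (flp β w' (rw' e0 B))ᵀ) T =
      2 * (tt (B * Bᵀ) T β w w' + tt (B * Bᵀ) T β w' w) := by
    unfold pr tt flp
    rw [← Finset.sum_sub_distrib, ← Finset.sum_add_distrib, Finset.mul_sum]
    refine Finset.sum_congr rfl fun x _ => ?_
    rw [← Finset.sum_sub_distrib, ← Finset.sum_add_distrib, Finset.mul_sum]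
    refine Finset.sum_congr rfl fun y _ => ?_
    rw [rw'_mul_tr, rw'_mul_tr, rw'_mul_tr]
    generalize (B * Bᵀ) x y = m
    have hw' : ¬w' = w := fun hc => hw hc.symm
    simp only [he0]
    by_cases hx : β x = w
    · by_cases hy : β y = w
      · simp [hx, hy, hw]
      · by_cases hy' : β y = w'
        · simp [hx, hy', hw, hw']
          ring
        · simp [hx, hy, hy', hw]
    · by_cases hx' : β x = w'
      · by_cases hy : β y = w
        · simp [hx', hy, hw, hw']
          ring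
        · by_cases hy' : β y = w'
          · simp [hx', hy', hw']
          · simp [hx', hy, hy', hw']
      · simp [hx, hx']
  rw [e, tt_comm hsy h.bx.sy β w' w] at h1
  rw [abs_le] at h1 ⊢
  constructor <;> linarith [h1.1, h1.2]

/-- partition of the pairing -/
theorem pr_eq_tt (W T : Matrix V V ℝ) (β : V → ι) : pr W T = ∑ w, ∑ w', tt W T β w w' := by
  unfold tt
  have e4 : ∀ f : ι → ι → V → V → ℝ, ∑ w, ∑ w', ∑ x, ∑ y, f w w' x y =
      ∑ x, ∑ y, ∑ w, ∑ w', f w w' x y := by
    intro f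
    calc ∑ w, ∑ w', ∑ x, ∑ y, f w w' x y
        = ∑ w, ∑ x, ∑ w', ∑ y, f w w' x y :=
          Finset.sum_congr rfl fun w _ => Finset.sum_comm
      _ = ∑ x, ∑ w, ∑ w', ∑ y, f w w' x y := Finset.sum_comm
      _ = ∑ x, ∑ w, ∑ y, ∑ w', f w w' x y :=
          Finset.sum_congr rfl fun x _ => Finset.sum_congr rfl fun w _ => Finset.sum_comm
      _ = ∑ x, ∑ y, ∑ w, ∑ w', f w w' x y :=
          Finset.sum_congr rfl fun x _ => Finset.sum_comm
  rw [e4]
  unfold pr
  refine Finset.sum_congr rfl fun x _ => Finset.sum_congr rfl fun y _ => ?_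
  rw [Finset.sum_eq_single (β x), Finset.sum_eq_single (β y)]
  · rw [if_pos ⟨rfl, rfl⟩]
  · intro w' _ hw'
    rw [if_neg fun hc => hw' hc.2.symm]
  · simp
  · intro w _ hw
    refine Finset.sum_eq_zero fun w' _ => ?_
    rw [if_neg fun hc => hw hc.1.symm]
  · simp

/-- **trace norm lemma, sign flip form** -/
theorem pr_le2 {T : Matrix V V ℝ} {β : V → ι} {nr : ι → ι → Prop} [DecidableRel nr] {δ δf : ℝ}
    (h : Bx2 (J := J) T β nr δ δf) {B : Matrix V J ℝ} (hB : Ct B) :
    |pr (B * Bᵀ) T| ≤ ((Finset.univ : Finset (ι × ι)).filter fun p => nr p.1 p.2).card * δ +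
      ((Finset.univ : Finset (ι × ι)).filter fun p => ¬nr p.1 p.2).card * (δf / 4) := by
  rw [pr_eq_tt _ _ β]
  refine (Finset.abs_sum_le_sum_abs _ _).trans ?_
  have h2 : ∀ w, |∑ w', tt (B * Bᵀ) T β w w'| ≤ ∑ w', if nr w w' then δ else δf / 4 := by
    intro w
    refine (Finset.abs_sum_le_sum_abs _ _).trans (Finset.sum_le_sum fun w' _ => ?_)
    split_ifs with hn
    · exact tt_near h.bx hB hn
    · exact tt_far h hB hn
  refine (Finset.sum_le_sum fun w _ => h2 w).trans (le_of_eq ?_)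
  rw [← Fintype.sum_prod_type' (f := fun w w' => if nr w w' then δ else δf / 4),
    Finset.sum_ite, Finset.sum_const, Finset.sum_const, nsmul_eq_mul, nsmul_eq_mul]

end abstract

section torus

variable {N : ℕ} [NeZero N]

open Vale.Agent.P159.TM.Spec (V)

theorem sum_weight_le2 {ι : Type*} [Fintype ι] [DecidableEq ι] {T : Matrix (V N) (V N) ℝ}
    (hT : TI T) {β : V N → ι} {nr : ι → ι → Prop} [DecidableRel nr] {δ δf : ℝ}
    (h : Bx2 (J := V N) T β nr δ δf) {ω : V N → ℝ}
    (hω : ∀ k, ω (-k) = ω k) (h0 : ∀ k, 0 ≤ ω k) (h1 : ∀ k, ω k ≤ 1) :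
    |∑ k, ω k * sym T k| ≤
      ((Finset.univ : Finset (ι × ι)).filter fun p => nr p.1 p.2).card * δ +
      ((Finset.univ : Finset (ι × ι)).filter fun p => ¬nr p.1 p.2).card * (δf / 4) := by
  obtain ⟨e, hc⟩ := ct_mlt hω h0 h1
  have h2 := pr_le2 h hc
  rw [e, pr_eq_sym (ti_mlt _) hT] at h2
  simpa only [sym_mlt _ hω] using h2

/-- **trace norm of a translation invariant kernel, sign flip form** -/
theorem sum_abs_sym_le2 {ι : Type*} [Fintype ι] [DecidableEq ι] {T : Matrix (V N) (V N) ℝ}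
    (hT : TI T) {β : V N → ι} {nr : ι → ι → Prop} [DecidableRel nr] {δ δf : ℝ}
    (h : Bx2 (J := V N) T β nr δ δf) :
    ∑ k, |sym T k| ≤
      2 * (((Finset.univ : Finset (ι × ι)).filter fun p => nr p.1 p.2).card * δ +
      ((Finset.univ : Finset (ι × ι)).filter fun p => ¬nr p.1 p.2).card * (δf / 4)) := by
  have a1 := sum_weight_le2 hT h (ω := fun k => if 0 ≤ sym T k then 1 else 0)
    (fun k => by simp only [sym_neg_arg]) (fun k => by split_ifs <;> simp)
    fun k => by split_ifs <;> simp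
  have a2 := sum_weight_le2 hT h (ω := fun k => if 0 ≤ sym T k then 0 else 1)
    (fun k => by simp only [sym_neg_arg]) (fun k => by split_ifs <;> simp)
    fun k => by split_ifs <;> simp
  have e : ∑ k, |sym T k| = (∑ k, (if 0 ≤ sym T k then (1 : ℝ) else 0) * sym T k) -
      ∑ k, (if 0 ≤ sym T k then (0 : ℝ) else 1) * sym T k := by
    rw [← Finset.sum_sub_distrib]
    refine Finset.sum_congr rfl fun k _ => ?_
    split_ifs with hk
    · rw [abs_of_nonneg hk]; ring
    · rw [abs_of_neg (not_le.1 hk)]; ring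
  rw [e]
  rw [abs_le] at a1 a2
  linarith [a1.2, a2.1]

end torus

end Vale.Agent.P159.H159
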