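import Vale.Agent.P159.H159.LinT
import Vale.Agent.P159.H159.Drec4
import Vale.Agent.P159.H239.Glu1

/-!
P159 (helper159): **STEP_D**, final form. One torus, one posterior mass `T`, two priors `a < c`;
only the smooth cell momenta `smo N l ρ` need TOP and BOT; both halves of (*) are `lmk_right`,
`lmk_left` (no good set, no intermediate mass); the rough modes are unconditional (`drec3`).
-/

set_option linter.unusedSectionVars false

namespace Vale.Agent.P159.H159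

open Finset Matrix MeasureTheory
open Vale.Agent.P159.H37
open Vale.Agent.P159.TM.H764 (EE)
open Vale.Agent.P159.TM.Spec (V)
open Vale.Agent.P159.TM.SpecC (wT)
open Vale.Agent.P159.H864 (TI sym)
open Vale.Agent.P159.H447 (K4S SN CN)
open Vale.Agent.P159.H963 (Gnc PinC nwt obsN nMC)
open Vale.Agent.P159.H730 (wN CbNk gN)
open Vale.Agent.P159.H239 (Blk dNm ti_dNm row_dNm sym_dNm dl1 dl2)

noncomputable section

/-- the inputs of one step -/
structure SM (N l ρ nb m K : ℕ) [NeZero N] [NeZero (N / l)] [NeZero nb] [NeZero m]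
    (b T a c a0 a1 cc δ₀ δ₁ δt δf : ℝ) : Prop where
  b0 : 0 < b
  hl : l ∣ N
  h8 : 8 * l ∣ ρ
  hρ : ρ ∣ N
  hn : N / l = nb * m
  ha : 0 < a
  hac : a < c
  hc : c ≤ T
  ha0 : 0 ≤ a0
  ha1 : 0 ≤ a1
  hcc : 0 < cc
  /-- TOP -/
  top : ∀ k ∈ smo N l ρ, PinC N l b T T k ≤ a0 * T + a1 * (EE k / (l : ℝ) ^ 2)
  /-- domination at the lowest mass -/
  bot : ∀ k ∈ smo N l ρ, sym (Gnc N l b T a) k ≤ 1 / (a + cc * (EE k / (l : ℝ) ^ 2))
  /-- near and far control -/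
  blk : Blk nb m K (dNm N l b T a c) δ₀ δ₁ δt δf

variable {N l ρ nb m K : ℕ} [NeZero N] [NeZero (N / l)] [NeZero nb] [NeZero m]
variable {b T a c a0 a1 cc δ₀ δ₁ δt δf : ℝ}

theorem SM.dr (h : SM N l ρ nb m K b T a c a0 a1 cc δ₀ δ₁ δt δf) :
    Dr (N / l) (smo N l ρ) ((l : ℝ) ^ 2) T a cc a0 a1 0 (dl1 l nb m K T δ₀ δ₁)
      (dl2 nb K δt δf) (fun k => gN N l b T T k) (fun k => sym (Gnc N l b T a) k)
      (fun k => CbNk N l b T c T k - gN N l b T T k)
      (fun k => CbNk N l b T a T k - gN N l b T T k)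
      (fun k => PinC N l b T T k - PinC N l b T c k)
      (fun k => PinC N l b T c k - PinC N l b T a k)
      (fun k => Vk N l b T a T k / gN N l b T T k ^ 2) := by
  have hT : 0 < T := h.ha.trans (h.hac.trans_le h.hc)
  have hl0 : 0 < l := H864.l_pos h.hl
  have hlp : (0 : ℝ) < l := by exact_mod_cast hl0
  have hti := ti_dNm (N := N) (l := l) h.b0.le h.hl h.ha h.hac.le h.hc
  have hg : ∀ k : V (N / l), k ≠ 0 → 0 < gN N l b T T k := fun k hk =>
    H963.sym_Gnc_pos (N := N) (l := l) (t := T) h.b0 h.hl hT le_rfl hk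
  have hc0 : 0 < c := h.ha.trans h.hac
  have haT : a ≤ T := h.hac.le.trans h.hc
  have h0 : ∀ k ∈ smo N l ρ, k ≠ 0 := fun k hk => (mem_smo.1 hk).1
  refine ⟨by positivity, h.ha, hT, h.hcc, h.ha0, h.ha1, ?_, by norm_num,
    h0, fun k hk => hg k (h0 k hk), fun k hk => ?_, fun k hk => ?_, fun k hk => h.bot k hk,
    fun k hk => ?_, fun k hk => ?_, fun k hk => ?_, fun k hk => ?_, fun k hk => ?_, ?_⟩
  · unfold dl1
    have := h.blk.d0
    have := h.blk.d1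
    positivity
  · have h1 := h.top k hk
    rw [PinC_def'] at h1
    simp only [one_div]
    linarith
  · exact (H963.sym_Gnc_pos (N := N) (l := l) (t := T) h.b0 h.hl h.ha haT (h0 k hk)).le
  · exact sub_nonneg.2 (cb_ge h.b0 h.hl hc0 h.hc le_rfl (h0 k hk))
  · have h1 := cb_ge h.b0 h.hl h.ha haT le_rfl (h0 k hk)
    have h2 := hg k (h0 k hk)
    linarith
  · have h1 := lmk_right h.b0 h.hl hc0 h.hc le_rfl (h0 k hk)
    simp only [one_div]
    rw [add_sub_cancel]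
    exact h1
  · have h1 := lmk_left h.b0 h.hl h.ha haT le_rfl (h0 k hk)
    simp only [one_div]
    rw [add_sub_cancel, sub_zero, one_mul]
    have e1 : PinC N l b T T k - PinC N l b T c k + (PinC N l b T c k - PinC N l b T a k) =
        PinC N l b T T k - PinC N l b T a k := by ring
    rw [e1]
    exact h1
  · have h1 := h.blk.low h.hn hti row_dNm k
    rw [sym_dNm] at h1
    have e1 : CbNk N l b T a T k - gN N l b T T k - (CbNk N l b T c T k - gN N l b T T k) =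
        CbNk N l b T a T k - CbNk N l b T c T k := by ring
    rw [e1]
    unfold dl1
    calc T ^ 2 * |CbNk N l b T a T k - CbNk N l b T c T k|
        ≤ T ^ 2 * ((m : ℝ) ^ 2 * (2 * δ₀ * ((2 * K + 1) ^ 2 * (3 * K ^ 2 + 32))
          + δ₁ * (nb ^ 2 * (3 * nb ^ 2 + 32))) * EE k) :=
          mul_le_mul_of_nonneg_left h1 (sq_nonneg _)
      _ = _ := by field_simp
  · have h1 := h.blk.tr hti
    refine le_trans ?_ h1
    refine (Finset.sum_le_sum_of_subset_of_nonneg (Finset.subset_univ _)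
      fun k _ _ => abs_nonneg _).trans (le_of_eq ?_)
    refine Finset.sum_congr rfl fun k _ => ?_
    rw [sym_dNm]
    congr 1
    ring

/-- the weight of a mode -/
lemma SM.ratio (h : SM N l ρ nb m K b T a c a0 a1 cc δ₀ δ₁ δt δf) {k : V (N / l)}
    (hk : k ∈ smo N l ρ) : (sym (Gnc N l b T a) k / gN N l b T T k) ^ 2 ≤
      ((1 + a0) * T / a + a1 / cc) ^ 2 := by
  have hT : 0 < T := h.ha.trans (h.hac.trans_le h.hc)
  have hk0 := (mem_smo.1 hk).1
  have hg : 0 < gN N l b T T k :=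
    H963.sym_Gnc_pos (N := N) (l := l) (t := T) h.b0 h.hl hT le_rfl hk0
  have hga : 0 < sym (Gnc N l b T a) k := H963.sym_Gnc_pos (N := N) (l := l) (t := T) h.b0 h.hl
    h.ha (h.hac.le.trans h.hc) hk0
  have ha := h.ha
  have hcc := h.hcc
  have ha0 := h.ha0
  have ha1 := h.ha1
  have hE : 0 ≤ EE k / (l : ℝ) ^ 2 := div_nonneg (TM.H764.EE_nonneg k) (by positivity)
  refine pow_le_pow_left₀ (div_nonneg hga.le hg.le) ?_ 2
  have h1 : (gN N l b T T k)⁻¹ ≤ (1 + a0) * T + a1 * (EE k / (l : ℝ) ^ 2) := by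
    have h1 := h.top k hk
    rw [PinC_def'] at h1
    linarith
  rw [div_eq_mul_inv]
  have h2 := h.bot k hk
  set x := EE k / (l : ℝ) ^ 2 with hx
  calc sym (Gnc N l b T a) k * (gN N l b T T k)⁻¹
      ≤ 1 / (a + cc * x) * ((1 + a0) * T + a1 * x) :=
        mul_le_mul h2 h1 (inv_nonneg.2 hg.le) (by positivity)
    _ = (1 + a0) * T / (a + cc * x) + a1 * x / (a + cc * x) := by
        field_simp
    _ ≤ (1 + a0) * T / a + a1 / cc := by
        refine add_le_add (div_le_div_of_nonneg_left (by positivity) ha (by nlinarith)) ?_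
        rw [div_le_div_iff₀ (by positivity) hcc]
        nlinarith [mul_nonneg ha1 ha.le]

/-- lower bound of the covariance at the lowest mass on the smooth modes -/
lemma SM.low (h : SM N l ρ nb m K b T a c a0 a1 cc δ₀ δ₁ δt δf) (hT : T * (ρ : ℝ) ^ 2 ≤ 1)
    {k : V (N / l)} (hk : k ∈ smo N l ρ) :
    (ρ : ℝ) ^ 2 / (1 + a0 + 32 * a1) ≤ sym (Gnc N l b T a) k := by
  have hT0 : 0 < T := h.ha.trans (h.hac.trans_le h.hc)
  have hk0 := (mem_smo.1 hk).1
  have ha0 := h.ha0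
  have ha1 := h.ha1
  have haT : a ≤ T := h.hac.le.trans h.hc
  have hga : 0 < sym (Gnc N l b T a) k := H963.sym_Gnc_pos (N := N) (l := l) (t := T) h.b0 h.hl
    h.ha haT hk0
  have hρ0 : 0 < ρ := Nat.pos_of_dvd_of_pos h.hρ (NeZero.pos N)
  have hρp : (0 : ℝ) < ρ := by exact_mod_cast hρ0
  have hlp : (0 : ℝ) < l := by exact_mod_cast H864.l_pos h.hl
  have hE : (ρ : ℝ) ^ 2 * (EE k / (l : ℝ) ^ 2) ≤ 32 := by
    have h1 := (mem_smo.1 hk).2
    rw [← mul_div_assoc, div_le_iff₀ (by positivity)]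
    exact h1.le
  have hm := H447.PinC_mono (N := N) (l := l) h.b0 h.hl h.ha haT le_rfl hk0
  have ht := h.top k hk
  have h2 : (sym (Gnc N l b T a) k)⁻¹ ≤ (1 + a0 + 32 * a1) / (ρ : ℝ) ^ 2 := by
    rw [le_div_iff₀ (by positivity)]
    have h3 : (sym (Gnc N l b T a) k)⁻¹ ≤ a + (a0 * T + a1 * (EE k / (l : ℝ) ^ 2)) := by
      have e : PinC N l b T a k = (sym (Gnc N l b T a) k)⁻¹ - a := rfl
      rw [e] at hm
      linarith
    calc (sym (Gnc N l b T a) k)⁻¹ * (ρ : ℝ) ^ 2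
        ≤ (a + (a0 * T + a1 * (EE k / (l : ℝ) ^ 2))) * (ρ : ℝ) ^ 2 :=
          mul_le_mul_of_nonneg_right h3 (by positivity)
      _ ≤ 1 + a0 + 32 * a1 := by nlinarith [sq_nonneg (ρ : ℝ)]
  have h4 := inv_anti₀ (inv_pos.2 hga) h2
  rw [inv_inv, inv_div] at h4
  exact h4

/-- **STEP_D**. -/
theorem step_D {b : ℝ} (hb : 0 < b) : ∃ C e : ℝ, 0 < C ∧ 0 < e ∧
    ∀ (N l ρ nb m K : ℕ) [NeZero N] [NeZero (N / l)] [NeZero nb] [NeZero m],
    ∀ T a c a0 a1 cc δ₀ δ₁ δt δf : ℝ, SM N l ρ nb m K b T a c a0 a1 cc δ₀ δ₁ δt δf →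
      9 ≤ T * (N : ℝ) ^ 2 → T * (ρ : ℝ) ^ 2 ≤ 1 →
      C / a * √(T * (N : ℝ) ^ 2) * (T * (l : ℝ) ^ 2) ^ e ≤ (ρ : ℝ) ^ 2 / (1 + a0 + 32 * a1) →
      ∃ τ ∈ Set.Ioo a c, 1 / 2 * K4S (nwt N b τ 0) (SN N l) (SN N l) ≤
        4 * (c - a)⁻¹ * (25 * ((1 + a0 + a1) / cc) ^ 2 * dl1 l nb m K T δ₀ δ₁ *
            (((N / l : ℕ) : ℝ) ^ 2 * (l : ℝ) ^ 2) * (1 + Real.log (1 + cc * T / a)) +
          ((1 + a0 + a1) / cc) ^ 2 * dl2 nb K δt δf +
          ((1 + a0) * T / a + a1 / cc) ^ 2 * ∑ k ∈ smo N l ρ, Vk N l b T a T k +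
          128 * ((N : ℝ) / ρ) ^ 2 *
            (C / a * √(T * (N : ℝ) ^ 2) * (T * (l : ℝ) ^ 2) ^ e)) +
        (c - a)⁻¹ * (C * (N : ℝ) ^ 2 * (T * (ρ : ℝ) ^ 2) ^ e) := by
  obtain ⟨C, e, hC, he, hD⟩ := drec3 hb
  refine ⟨C, e, hC, he, ?_⟩
  intro N l ρ nb m K _ _ _ _ T a c a0 a1 cc δ₀ δ₁ δt δf h h9 h1 hs
  have hT : 0 < T := h.ha.trans (h.hac.trans_le h.hc)
  obtain ⟨τ, hτ, h2⟩ := hD N l ρ h.hl h.h8 h.hρ T a c h.ha h.hac h.hc h9 h1 _ _ _ _ _ _ _ _ _ _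
    _ _ _ _ _ h.dr (fun k _ => rfl) (fun k _ => rfl) (fun k hk => hs.trans (h.low h1 hk))
  refine ⟨τ, hτ, h2.trans ?_⟩
  have hca : 0 < (c - a)⁻¹ := inv_pos.2 (sub_pos.2 h.hac)
  have haT : a ≤ T := h.hac.le.trans h.hc
  have s2 : ∑ k ∈ smo N l ρ, sym (Gnc N l b T a) k ^ 2 *
      (Vk N l b T a T k / gN N l b T T k ^ 2) ≤ ((1 + a0) * T / a + a1 / cc) ^ 2 *
        ∑ k ∈ smo N l ρ, Vk N l b T a T k := by
    rw [Finset.mul_sum]
    refine Finset.sum_le_sum fun k hk => ?_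
    have hr := h.ratio hk
    calc sym (Gnc N l b T a) k ^ 2 * (Vk N l b T a T k / gN N l b T T k ^ 2)
        = (sym (Gnc N l b T a) k / gN N l b T T k) ^ 2 * Vk N l b T a T k := by
          rw [div_pow]; ring
      _ ≤ _ := mul_le_mul_of_nonneg_right hr (Vk_nonneg h.b0.le h.hl h.ha haT le_rfl k)
  rw [sub_zero, inv_one, one_mul, zero_mul, zero_add]
  refine add_le_add (mul_le_mul_of_nonneg_left (add_le_add (add_le_add le_rfl s2) le_rfl)
    (by positivity)) le_rfl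

end

end Vale.Agent.P159.H159
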