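import Vale.Agent.P159.H159.StepD
import Vale.Agent.P159.H859.NeuE
import Vale.Agent.P159.H280.Top2

/-!
P159 (helper159): **STEP_D with unconditional TOP and BOT** (`H280.top1`, `H280.top2n`,
`H859.Gnck_dom`): for fixed `b` with `1 / helicity b < 5 / 2` the only structural input is
`Blk` (near and far control of `dNm`).
-/

set_option linter.unusedSectionVars false

namespace Vale.Agent.P159.H159

open Finset Matrix MeasureTheory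
open Vale.Agent.P159.H37
open Vale.Agent.P159.TM.H764 (EE)
open Vale.Agent.P159.TM.Spec (V)
open Vale.Agent.P159.H864 (TI sym)
open Vale.Agent.P159.H447 (K4S SN CN)
open Vale.Agent.P159.H963 (Gnc PinC nwt obsN nMC)
open Vale.Agent.P159.H239 (Blk dNm dl1 dl2)

noncomputable section

/-- scalar data of one step, no TOP, no BOT -/
structure SN' (N l ρ nb m K : ℕ) [NeZero N] [NeZero (N / l)] [NeZero nb] [NeZero m]
    (b T a c δ₀ δ₁ δt δf : ℝ) : Prop where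
  hl : l ∣ N
  h8 : 8 * l ∣ ρ
  hρ : ρ ∣ N
  hn : N / l = nb * m
  ha : 0 < a
  hac : a < c
  hc : c ≤ T
  /-- near and far control -/
  blk : Blk nb m K (dNm N l b T a c) δ₀ δ₁ δt δf

/-- TOP and BOT are unconditional -/
theorem SN'.sm {b C1 t1 : ℝ} (hb : 0 < b) (hC1 : 0 < C1)
    (h1 : ∀ (N : ℕ) [NeZero N] (t : ℝ), 0 < t → t ≤ t1 → ∀ k : V N, k ≠ 0 →
      Pik N b t k ≤ C1 * (t + EE k)) {N l ρ nb m K : ℕ} [NeZero N] [NeZero (N / l)] [NeZero nb]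
    [NeZero m] {T a c δ₀ δ₁ δt δf : ℝ} (h : SN' N l ρ nb m K b T a c δ₀ δ₁ δt δf) (hT : T ≤ t1) :
    SM N l ρ nb m K b T a c (108 * (1 + C1)) (108 * (1 + C1)) (1 / b) δ₀ δ₁ δt δf := by
  have hT0 : 0 < T := h.ha.trans (h.hac.trans_le h.hc)
  refine ⟨hb, h.hl, h.h8, h.hρ, h.hn, h.ha, h.hac, h.hc, by positivity, by positivity,
    by positivity, fun k hk => ?_, fun k hk => ?_, h.blk⟩
  · have h2 := H280.top2n (N := N) (l := l) hb hC1 h1 h.hl hT0 le_rfl hT (mem_smo.1 hk).1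
    linarith
  · have h2 := H859.Gnck_dom (N := N) (l := l) hb.le h.hl h.ha (h.hac.le.trans h.hc)
      (κ := 1 / b) (by positivity) (by field_simp; rfl) k
    refine h2.trans (le_of_eq ?_)
    rw [one_div (a + _)]
    congr 2
    ring

/-- scalar -/
lemma se_log {L x y : ℝ} (hx : 1 ≤ x) (hL : 1 ≤ L) (hy : 0 ≤ y) (h : y ≤ L - 1) :
    1 + Real.log (1 + y * x) ≤ (1 + L) * (1 + Real.log x) := by
  have hlog : 0 ≤ Real.log x := Real.log_nonneg hx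
  have e1 : 1 + y * x ≤ L * x := by
    have := mul_le_mul_of_nonneg_right h (zero_le_one.trans hx)
    linarith
  have hx0 : 0 < x := by linarith
  have e2 : Real.log (1 + y * x) ≤ Real.log L + Real.log x := by
    rw [← Real.log_mul (by linarith) (by linarith)]
    exact Real.log_le_log (by positivity) e1
  have e3 : Real.log L ≤ L := (Real.log_le_sub_one_of_pos (by linarith)).trans (by linarith)
  have e4 : 0 ≤ L * Real.log x := mul_nonneg (by linarith) hlog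
  calc 1 + Real.log (1 + y * x) ≤ 1 + (L + Real.log x) := by linarith
    _ ≤ (1 + L) * (1 + Real.log x) := by
        have : (1 + L) * (1 + Real.log x) = 1 + L + Real.log x + L * Real.log x := by ring
        linarith

/-- scalar -/
lemma se_sq {A D x : ℝ} (hA : 0 ≤ A) (hD : 0 ≤ D) (hx : 1 ≤ x) :
    ((1 + A) * x + D) ^ 2 ≤ ((1 + A) + D) ^ 2 * x ^ 2 := by
  rw [← mul_pow]
  refine pow_le_pow_left₀ (by positivity) ?_ 2
  have : D ≤ D * x := le_mul_of_one_le_right hD hx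
  linarith

/-- scalar -/
lemma se_sum {B2 L R C A X1 X2 X3 X4 X5 : ℝ} (hB : 0 ≤ B2) (hL : 0 ≤ L) (hR : 0 ≤ R)
    (hC : 0 ≤ C) (hA : 0 ≤ A) (h1 : 0 ≤ X1) (h2 : 0 ≤ X2) (h3 : 0 ≤ X3) (h4 : 0 ≤ X4)
    (h5 : 0 ≤ X5) : 4 * (25 * B2 * (1 + L) * X1 + B2 * X2 + R * X3 + 128 * C * X4) + C * X5 ≤
      (100 * B2 * (1 + L) + 4 * B2 + 4 * R + 512 * C + C * (1 + A + 32 * A) + C + 1) *
        (X1 + X2 + X3 + X4 + X5) := by
  set Q := 100 * B2 * (1 + L) + 4 * B2 + 4 * R + 512 * C + C * (1 + A + 32 * A) + C + 1 with hQ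
  have q1 : 0 ≤ B2 * (1 + L) := by positivity
  have q4 : 0 ≤ C * (1 + A + 32 * A) := by positivity
  have z1 : 100 * B2 * (1 + L) * X1 ≤ Q * X1 :=
    mul_le_mul_of_nonneg_right (by rw [hQ]; linarith) h1
  have z2 : 4 * B2 * X2 ≤ Q * X2 := mul_le_mul_of_nonneg_right (by rw [hQ]; linarith) h2
  have z3 : 4 * R * X3 ≤ Q * X3 := mul_le_mul_of_nonneg_right (by rw [hQ]; linarith) h3
  have z4 : 512 * C * X4 ≤ Q * X4 := mul_le_mul_of_nonneg_right (by rw [hQ]; linarith) h4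
  have z5 : C * X5 ≤ Q * X5 := mul_le_mul_of_nonneg_right (by rw [hQ]; linarith) h5
  calc 4 * (25 * B2 * (1 + L) * X1 + B2 * X2 + R * X3 + 128 * C * X4) + C * X5
      = 100 * B2 * (1 + L) * X1 + 4 * B2 * X2 + 4 * R * X3 + 512 * C * X4 + C * X5 := by ring
    _ ≤ Q * X1 + Q * X2 + Q * X3 + Q * X4 + Q * X5 := by linarith
    _ = _ := by ring

/-- **STEP_D**, constants depend on `b` only -/
theorem step_E {b : ℝ} (hb : 0 < b) (hh : 0 < helicity b) (hs : 1 / helicity b < 5 / 2) :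
    ∃ C e t1 : ℝ, 1 ≤ C ∧ 0 < e ∧ 0 < t1 ∧
    ∀ (N l ρ nb m K : ℕ) [NeZero N] [NeZero (N / l)] [NeZero nb] [NeZero m],
    ∀ T a c δ₀ δ₁ δt δf : ℝ, SN' N l ρ nb m K b T a c δ₀ δ₁ δt δf → T ≤ t1 →
      9 ≤ T * (N : ℝ) ^ 2 → T * (ρ : ℝ) ^ 2 ≤ 1 →
      C / a * √(T * (N : ℝ) ^ 2) * (T * (l : ℝ) ^ 2) ^ e ≤ (ρ : ℝ) ^ 2 →
      ∃ τ ∈ Set.Ioo a c, 1 / 2 * K4S (nwt N b τ 0) (SN N l) (SN N l) ≤
        C * (c - a)⁻¹ * (dl1 l nb m K T δ₀ δ₁ * (N : ℝ) ^ 2 * (1 + Real.log (T / a)) +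
          dl2 nb K δt δf + (T / a) ^ 2 * ∑ k ∈ smo N l ρ, Vk N l b T a T k +
          ((N : ℝ) / ρ) ^ 2 * (1 / a * √(T * (N : ℝ) ^ 2) * (T * (l : ℝ) ^ 2) ^ e) +
          (N : ℝ) ^ 2 * (T * (ρ : ℝ) ^ 2) ^ e) := by
  obtain ⟨C1, t1, hC1, ht1, h1⟩ := H280.top1 hb hh hs
  obtain ⟨C, e, hC, he, hD⟩ := step_D hb
  obtain ⟨A, hA⟩ : ∃ A : ℝ, A = 108 * (1 + C1) := ⟨_, rfl⟩
  have hA0 : 0 < A := by rw [hA]; positivity
  have hib : 0 < 1 / b := by positivity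
  obtain ⟨B, hB⟩ : ∃ B : ℝ, B = (1 + A + A) / (1 / b) := ⟨_, rfl⟩
  have hB0 : 0 < B := by rw [hB]; positivity
  obtain ⟨L, hL⟩ : ∃ L : ℝ, L = 1 + 1 / b := ⟨_, rfl⟩
  have hL1 : 1 ≤ L := by rw [hL]; linarith
  obtain ⟨R, hR⟩ : ∃ R : ℝ, R = ((1 + A) + A / (1 / b)) ^ 2 := ⟨_, rfl⟩
  have hR0 : 0 ≤ R := by rw [hR]; positivity
  obtain ⟨Q, hQ⟩ : ∃ Q : ℝ, Q = 100 * B ^ 2 * (1 + L) + 4 * B ^ 2 + 4 * R + 512 * C +
    C * (1 + A + 32 * A) + C + 1 := ⟨_, rfl⟩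
  have q1 : 0 ≤ 100 * B ^ 2 * (1 + L) := by positivity
  have q2 : 0 ≤ 4 * B ^ 2 := by positivity
  have q4 : 0 ≤ C * (1 + A + 32 * A) := by positivity
  have hQ1 : 1 ≤ Q := by rw [hQ]; linarith
  have hQC : C * (1 + A + 32 * A) ≤ Q := by rw [hQ]; linarith
  refine ⟨Q, e, t1, hQ1, he, ht1, ?_⟩
  intro N l ρ nb m K _ _ _ _ T a c δ₀ δ₁ δt δf h hTt h9 hρ hsm
  have hT : 0 < T := h.ha.trans (h.hac.trans_le h.hc)
  have ha := h.ha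
  have haT : a ≤ T := h.hac.le.trans h.hc
  have hNp : (0 : ℝ) < N := by exact_mod_cast NeZero.pos N
  have hlp : (0 : ℝ) < l := by exact_mod_cast H864.l_pos h.hl
  have hSM := h.sm hb hC1 h1 hTt
  rw [← hA] at hSM
  obtain ⟨F, hF⟩ : ∃ F : ℝ, F = 1 / a * √(T * (N : ℝ) ^ 2) * (T * (l : ℝ) ^ 2) ^ e := ⟨_, rfl⟩
  have hF0 : 0 ≤ F := by rw [hF]; positivity
  have hFe : C / a * √(T * (N : ℝ) ^ 2) * (T * (l : ℝ) ^ 2) ^ e = C * F := by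
    rw [hF]; ring
  have hQF : Q / a * √(T * (N : ℝ) ^ 2) * (T * (l : ℝ) ^ 2) ^ e = Q * F := by
    rw [hF]; ring
  rw [hQF] at hsm
  obtain ⟨τ, hτ, hK⟩ := hD N l ρ nb m K T a c A A (1 / b) δ₀ δ₁ δt δf hSM h9 hρ (by
    rw [hFe, le_div_iff₀ (by positivity)]
    calc C * F * (1 + A + 32 * A) = C * (1 + A + 32 * A) * F := by ring
      _ ≤ Q * F := mul_le_mul_of_nonneg_right hQC hF0
      _ ≤ _ := hsm)
  refine ⟨τ, hτ, hK.trans ?_⟩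
  have hca : 0 < (c - a)⁻¹ := inv_pos.2 (sub_pos.2 h.hac)
  have hNl : ((N / l : ℕ) : ℝ) ^ 2 * (l : ℝ) ^ 2 = (N : ℝ) ^ 2 := by
    rw [← mul_pow, H864.Nl h.hl]
  rw [hNl, hFe, ← hB, ← hF]
  have hd1 : 0 ≤ dl1 l nb m K T δ₀ δ₁ := by
    have e1 := h.blk.d0
    have e2 := h.blk.d1
    unfold dl1
    positivity
  have hd2 : 0 ≤ dl2 nb K δt δf := by
    have e1 := h.blk.dt
    have e2 := h.blk.df
    unfold dl2
    positivity
  have hTa : 1 ≤ T / a := (one_le_div ha).2 haT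
  have hlog : 0 ≤ Real.log (T / a) := Real.log_nonneg hTa
  have hlg : 1 + Real.log (1 + 1 / b * T / a) ≤ (1 + L) * (1 + Real.log (T / a)) := by
    have h2 := se_log hTa hL1 hib.le (le_of_eq (by rw [hL]; ring))
    have e1 : 1 / b * T / a = 1 / b * (T / a) := by ring
    rw [e1]
    exact h2
  have hV : 0 ≤ ∑ k ∈ smo N l ρ, Vk N l b T a T k :=
    Finset.sum_nonneg fun k _ => Vk_nonneg hb.le h.hl ha haT le_rfl k
  have hRR : ((1 + A) * T / a + A / (1 / b)) ^ 2 ≤ R * (T / a) ^ 2 := by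
    have h2 := se_sq hA0.le (show 0 ≤ A / (1 / b) by positivity) hTa
    have e1 : (1 + A) * T / a = (1 + A) * (T / a) := by ring
    rw [e1, hR]
    exact h2
  obtain ⟨V', hV'⟩ : ∃ V' : ℝ, V' = ∑ k ∈ smo N l ρ, Vk N l b T a T k := ⟨_, rfl⟩
  obtain ⟨D1, hD1⟩ : ∃ D1 : ℝ, D1 = dl1 l nb m K T δ₀ δ₁ := ⟨_, rfl⟩
  obtain ⟨D2, hD2⟩ : ∃ D2 : ℝ, D2 = dl2 nb K δt δf := ⟨_, rfl⟩
  rw [← hV'] at hV ⊢
  rw [← hD1] at hd1 ⊢
  rw [← hD2] at hd2 ⊢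
  have y1 : 25 * B ^ 2 * D1 * (N : ℝ) ^ 2 * (1 + Real.log (1 + 1 / b * T / a)) ≤
      25 * B ^ 2 * (1 + L) * (D1 * (N : ℝ) ^ 2 * (1 + Real.log (T / a))) := by
    calc 25 * B ^ 2 * D1 * (N : ℝ) ^ 2 * (1 + Real.log (1 + 1 / b * T / a))
        ≤ 25 * B ^ 2 * D1 * (N : ℝ) ^ 2 * ((1 + L) * (1 + Real.log (T / a))) :=
          mul_le_mul_of_nonneg_left hlg (by positivity)
      _ = _ := by ring
  have y3 : ((1 + A) * T / a + A / (1 / b)) ^ 2 * V' ≤ R * ((T / a) ^ 2 * V') := by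
    calc _ ≤ R * (T / a) ^ 2 * V' := mul_le_mul_of_nonneg_right hRR hV
      _ = _ := by ring
  have y4 : 128 * ((N : ℝ) / ρ) ^ 2 * (C * F) = 128 * C * (((N : ℝ) / ρ) ^ 2 * F) := by ring
  have y5 : C * (N : ℝ) ^ 2 * (T * (ρ : ℝ) ^ 2) ^ e =
      C * ((N : ℝ) ^ 2 * (T * (ρ : ℝ) ^ 2) ^ e) := by ring
  rw [y4, y5]
  have hz := se_sum (X1 := D1 * (N : ℝ) ^ 2 * (1 + Real.log (T / a))) (X2 := D2)
    (X3 := (T / a) ^ 2 * V') (X4 := ((N : ℝ) / ρ) ^ 2 * F)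
    (X5 := (N : ℝ) ^ 2 * (T * (ρ : ℝ) ^ 2) ^ e) (sq_nonneg B) (zero_le_one.trans hL1) hR0 hC.le
    hA0.le (by positivity) hd2 (by positivity) (by positivity) (by positivity)
  rw [← hQ] at hz
  calc 4 * (c - a)⁻¹ * (25 * B ^ 2 * D1 * (N : ℝ) ^ 2 *
          (1 + Real.log (1 + 1 / b * T / a)) + B ^ 2 * D2 +
          ((1 + A) * T / a + A / (1 / b)) ^ 2 * V' +
          128 * C * (((N : ℝ) / ρ) ^ 2 * F)) +
        (c - a)⁻¹ * (C * ((N : ℝ) ^ 2 * (T * (ρ : ℝ) ^ 2) ^ e))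
      ≤ 4 * (c - a)⁻¹ * (25 * B ^ 2 * (1 + L) * (D1 * (N : ℝ) ^ 2 * (1 + Real.log (T / a))) +
          B ^ 2 * D2 + R * ((T / a) ^ 2 * V') + 128 * C * (((N : ℝ) / ρ) ^ 2 * F)) +
        (c - a)⁻¹ * (C * ((N : ℝ) ^ 2 * (T * (ρ : ℝ) ^ 2) ^ e)) :=
        add_le_add (mul_le_mul_of_nonneg_left
          (add_le_add (add_le_add (add_le_add y1 le_rfl) y3) le_rfl) (by positivity)) le_rfl
    _ = (c - a)⁻¹ * (4 * (25 * B ^ 2 * (1 + L) * (D1 * (N : ℝ) ^ 2 * (1 + Real.log (T / a))) +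
          B ^ 2 * D2 + R * ((T / a) ^ 2 * V') + 128 * C * (((N : ℝ) / ρ) ^ 2 * F)) +
          C * ((N : ℝ) ^ 2 * (T * (ρ : ℝ) ^ 2) ^ e)) := by ring
    _ ≤ (c - a)⁻¹ * (Q * (D1 * (N : ℝ) ^ 2 * (1 + Real.log (T / a)) + D2 + (T / a) ^ 2 * V' +
          ((N : ℝ) / ρ) ^ 2 * F + (N : ℝ) ^ 2 * (T * (ρ : ℝ) ^ 2) ^ e)) :=
        mul_le_mul_of_nonneg_left hz hca.le
    _ = _ := by ring

end

end Vale.Agent.P159.H159
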