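import Vale.Agent.P159.H972.StepG

/-!
P159, MASTER (helper159, asked for by helper801, row 6527): the second set of parameters `P'` runs
inside the windows of the first one.  The zero background numbers of `P'` at the levels `n + d`
come from those of `P` at the level `n` (`ybn_sub`), and the step of `P'` over a window of `P` is
a chain of steps of `P'` (`substep`).
-/

set_option linter.unusedSectionVars false

namespace Vale.Agent.P159.H159

open Vale.Agent.P159.H864 (yt)
open Vale.Agent.P159.H972 (Par lg tn Good YBn StepP' lg_anti w1 tn_pos yt_mass)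

/-- `lg` at a smaller size, small exponent -/
lemma lg_sub {c c' e e' : ℝ} {d : ℕ} (hc : 0 ≤ c) (hcc : c ≤ c') (hc2 : c ≤ 1 / 2) (he : 0 < e)
    (he1 : e ≤ 1) (h : e / 4 ^ d ≤ e') : lg c e' ≤ d + lg c' e := by
  have h4 : (0 : ℝ) < 4 ^ d := by positivity
  have h0 : 0 < e / 4 ^ d := by positivity
  refine (lg_anti hc h0 h).trans ?_
  unfold H972.lg
  rw [Nat.ceil_le]
  have h1 : Real.logb 2 (1 / (e / 4 ^ d)) = 2 * d + Real.logb 2 (1 / e) := by
    rw [one_div_div, div_eq_mul_one_div, Real.logb_mul h4.ne' (by positivity)]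
    congr 1
    rw [show (4 : ℝ) ^ d = 2 ^ (2 * d) by rw [pow_mul]; norm_num, Real.logb_pow,
      Real.logb_self_eq_one one_lt_two]
    push_cast
    ring
  have hl : 0 ≤ Real.logb 2 (1 / e) :=
    Real.logb_nonneg one_lt_two (by rw [one_le_div he]; exact he1)
  have h2 := Nat.le_ceil (c' * Real.logb 2 (1 / e))
  have h3 : c * Real.logb 2 (1 / e) ≤ c' * Real.logb 2 (1 / e) :=
    mul_le_mul_of_nonneg_right hcc hl
  have h5 : c * (2 * (d : ℝ)) ≤ d := by
    have : (0 : ℝ) ≤ d := Nat.cast_nonneg d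
    nlinarith
  rw [h1]
  push_cast
  linarith

lemma tn_add (n d : ℕ) : tn n / tn (n + d) = 4 ^ d := by
  unfold H972.tn
  rw [pow_add]
  field_simp

lemma tn_add_le (n d : ℕ) : tn (n + d) ≤ tn n := by
  unfold H972.tn
  apply inv_anti₀ (by positivity)
  exact pow_le_pow_right₀ (by norm_num) (Nat.le_add_right _ _)

variable {P P' : Par} {b : ℝ}

/-- **the zero background numbers of `P'` at the level `n + d`** -/
theorem ybn_sub (hth : P.th ≤ P'.th) (hth2 : P.th ≤ 1 / 2) (hes : P'.es ≤ P.es) (hb : 0 < b)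
    {n : ℕ} {ε Y : ℝ} (hY : YBn P b n ε Y) (h0 : 0 < ε) (h1 : ε ≤ Y) (hε : ε ≤ P.es)
    {d D : ℕ} (hd : d ≤ D) {e : ℝ} (he : 0 < e) : YBn P' b (n + d) e (4 ^ D * Y) := by
  obtain ⟨hY0, hY1, hY2⟩ := hY
  have h4 : (0 : ℝ) < 4 ^ d := by positivity
  have h4d : (1 : ℝ) ≤ 4 ^ d := one_le_pow₀ (by norm_num)
  have hdD : (4 : ℝ) ^ d ≤ 4 ^ D := pow_le_pow_right₀ (by norm_num) hd
  have htn := tn_pos n
  have htn' := tn_pos (n + d)
  -- the numbers
  have key : ∀ e2, e ≤ e2 → e2 ≤ P'.es → 4 ^ d * max Y (max ε (e2 / 4 ^ d)) ≤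
      max (4 ^ D * Y) e2 := by
    intro e2 h2 h3
    rw [mul_max_of_nonneg _ _ h4.le, mul_max_of_nonneg _ _ h4.le, mul_div_cancel₀ _ h4.ne']
    have k1 : 4 ^ d * Y ≤ 4 ^ D * Y := mul_le_mul_of_nonneg_right hdD hY0.le
    have k2 : 4 ^ d * ε ≤ 4 ^ D * Y := (mul_le_mul_of_nonneg_left h1 h4.le).trans k1
    exact max_le (k1.trans (le_max_left _ _))
      (max_le (k2.trans (le_max_left _ _)) (le_max_right _ _))
  have rng : ∀ e2, e ≤ e2 → e2 ≤ P'.es → ∀ r, n + d + P'.kE e2 ≤ r →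
      n + P.kE (max ε (e2 / 4 ^ d)) ≤ r := by
    intro e2 h2 h3 r hr
    have h5 : P.kE (max ε (e2 / 4 ^ d)) ≤ d + P'.kE e2 :=
      lg_sub P.th0.le hth hth2 (he.trans_le h2) (h3.trans (P'.es1.trans (by norm_num)))
        (le_max_right _ _)
    omega
  have es3 : ∀ e2, e ≤ e2 → e2 ≤ P'.es → max ε (e2 / 4 ^ d) ≤ P.es := by
    intro e2 h2 h3
    refine max_le hε ?_
    exact (div_le_self (he.trans_le h2).le h4d).trans (h3.trans hes)
  refine ⟨by positivity, fun e2 h2 h3 r hr => ?_, fun e2 h2 h3 r hr => ?_⟩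
  · have k1 := hY1 _ (le_max_left _ _) (es3 e2 h2 h3) r (rng e2 h2 h3 r hr)
    have k2 := yt_mass (N := 2 ^ r) hb htn' (tn_add_le n d)
    rw [tn_add] at k2
    exact (k2.trans (mul_le_mul_of_nonneg_left k1 h4.le)).trans (key e2 h2 h3)
  · have k1 := hY2 _ (le_max_left _ _) (es3 e2 h2 h3) r (rng e2 h2 h3 r hr)
    have k2 := yt_mass (N := 2 ^ r) hb (show 0 < 4 * tn (n + d) by positivity)
      (show 4 * tn (n + d) ≤ 4 * tn n by linarith [tn_add_le n d])
    rw [mul_div_mul_left _ _ (by norm_num : (4 : ℝ) ≠ 0), tn_add] at k2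
    exact (k2.trans (mul_le_mul_of_nonneg_left k1 h4.le)).trans (key e2 h2 h3)

/-- a state of size larger than `es` is void -/
lemma good_void {n : ℕ} {e : ℝ} (h : P'.es < e) : Good P' b n e :=
  ⟨tn n, 0, le_rfl, by linarith [tn_pos n], fun e' h1 h2 => absurd (h1.trans h2) (not_le.2 h)⟩

/-- **a step of `P'` over a long window** -/
theorem step_long {sg' : ℝ} {N0 : ℕ} (hsg : 0 ≤ sg') (st : StepP' P' b sg' N0) {n L : ℕ}
    {e Y : ℝ} (hn : N0 ≤ n) (hY : ∀ d, d ≤ L → ∀ e', e ≤ e' → YBn P' b (n + d) e' Y)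
    (hg : Good P' b n e) (he : e ≤ P'.es) (hYe : Y ^ 2 ≤ e) :
    ∀ d, P'.w e ≤ d → d ≤ L → Good P' b (n + d) (max (e / 2) (e ^ (-sg') * Y ^ 2)) := by
  have hY0 : 0 < Y := (hY 0 (Nat.zero_le _) e le_rfl).1
  have he0 : 0 < e := (pow_pos hY0 2).trans_le hYe
  have hw1 := w1 (P := P') he0 he
  rcases le_or_gt (e ^ (-sg') * Y ^ 2) e with hA | hB
  · -- the size does not increase
    have hle : max (e / 2) (e ^ (-sg') * Y ^ 2) ≤ e := max_le (by linarith) hA
    intro d
    induction d using Nat.strong_induction_on with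
    | _ d ih =>
      intro h1 h2
      rcases le_or_gt d (4 * P'.w e) with h3 | h3
      · exact st n (n + d) e Y hn hg (hY 0 (Nat.zero_le _) e le_rfl) hYe he (by omega) (by omega)
      · have h4 := ih (d - P'.w e) (by omega) (by omega) (by omega)
        exact st (n + (d - P'.w e)) (n + d) e Y (by omega) (h4.mono hle)
          (hY _ (by omega) e le_rfl) hYe he (by omega) (by omega)
  · -- the size increases to `f`
    obtain ⟨f, hf⟩ : ∃ f, f = max (e / 2) (e ^ (-sg') * Y ^ 2) := ⟨_, rfl⟩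
    have hf2 : f = e ^ (-sg') * Y ^ 2 := by
      rw [hf]
      exact max_eq_right (by linarith)
    have hef : e ≤ f := by rw [hf2]; exact hB.le
    rw [← hf]
    rcases le_or_gt f P'.es with hC | hD
    · have hf0 : 0 < f := he0.trans_le hef
      have hw2 : P'.w f ≤ P'.w e := lg_anti P'.thp0.le he0 hef
      have hw3 := w1 (P := P') hf0 hC
      have hsz : max (f / 2) (f ^ (-sg') * Y ^ 2) ≤ f := by
        refine max_le (by linarith) ?_
        conv_rhs => rw [hf2]
        apply mul_le_mul_of_nonneg_right _ (by positivity)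
        exact Real.rpow_le_rpow_of_nonpos he0 hef (by linarith)
      intro d
      induction d using Nat.strong_induction_on with
      | _ d ih =>
        intro h1 h2
        rcases le_or_gt d (4 * P'.w e) with h3 | h3
        · have h5 := st n (n + d) e Y hn hg (hY 0 (Nat.zero_le _) e le_rfl) hYe he (by omega)
            (by omega)
          rwa [← hf] at h5
        · have h4 := ih (d - P'.w f) (by omega) (by omega) (by omega)
          have h5 := st (n + (d - P'.w f)) (n + d) f Y (by omega) h4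
            (hY _ (by omega) f hef) (hYe.trans hef) hC (by omega) (by omega)
          exact h5.mono hsz
    · intro d _ _
      exact good_void hD

/-- **SUBSTEP** (helper801): the step of `P'` over a window of `P` -/
theorem substep {sg' : ℝ} {N0 : ℕ} (hth : P.th ≤ P'.th) (hth2 : P.th ≤ 1 / 2)
    (hes : P'.es ≤ P.es) (hb : 0 < b) (hsg : 0 ≤ sg') (st : StepP' P' b sg' N0) {n m : ℕ}
    {ε Y e : ℝ} (hn : N0 ≤ n) (hY : YBn P b n ε Y) (h0 : 0 < ε) (h1 : ε ≤ Y) (hε : ε ≤ P.es)
    (hg : Good P' b n e) (he : e ≤ P'.es) (hw : P'.w e ≤ P.w ε)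
    (hYe : (4 ^ (4 * P.w ε) * Y) ^ 2 ≤ e) (hm1 : n + P.w ε ≤ m) (hm2 : m ≤ n + 4 * P.w ε) :
    Good P' b m (max (e / 2) (e ^ (-sg') * (4 ^ (4 * P.w ε) * Y) ^ 2)) := by
  have hY0 : 0 < 4 ^ (4 * P.w ε) * Y := mul_pos (by positivity) hY.1
  have he0 : 0 < e := (pow_pos hY0 2).trans_le hYe
  have h := step_long (L := 4 * P.w ε) hsg st hn
    (fun d hd e' he' => ybn_sub hth hth2 hes hb hY h0 h1 hε hd (he0.trans_le he')) hg he hYe
    (m - n) (by omega) (by omega)
  rwa [show n + (m - n) = m by omega] at h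

end Vale.Agent.P159.H159
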