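import Vale.Agent.P159.H159.Harris
import Vale.Agent.P159.H159.Inst

/-!
P159, module ASSOC (helper159), part 6: association of the law of the source in the channel, the
law of total covariance, the tower inequality `0 ≤ E_J Cm(post) ≤ Cm(prior)` entrywise.
-/

namespace Vale.Agent.P159.H159

open MeasureTheory Finset Matrix
open Vale.Agent.P159.TM.H104
open Vale.Agent.P159.T1.H897 (Hol)
open Vale.Agent.P159.H37

variable {V I : Type*} [Fintype V] [Fintype I] {μ : (V → ℤ) → ℝ}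

theorem obs_mono {P : Matrix I V ℝ} (hP : ∀ i x, 0 ≤ P i x) {g g' : I → ℝ} (h : g ≤ g') :
    Pᵀ *ᵥ g ≤ Pᵀ *ᵥ g' := by
  intro x
  simp only [mulVec, dotProduct, transpose_apply]
  exact Finset.sum_le_sum fun i _ => mul_le_mul_of_nonneg_left (h i) (hP i x)

theorem mulVec_re_mono {P : Matrix I V ℝ} (hP : ∀ i x, 0 ≤ P i x) {h k : V → ℤ} (hk : h ≤ k) :
    P *ᵥ re h ≤ P *ᵥ re k := by
  intro i
  simp only [mulVec, dotProduct, re]
  exact Finset.sum_le_sum fun x _ => mul_le_mul_of_nonneg_left (by exact_mod_cast hk x) (hP i x)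

theorem egr_obs {Φ : (V → ℝ) → ℝ} (hΦ : EGr Φ) (J₁ : V → ℝ) (P : Matrix I V ℝ) :
    EGr fun g : I → ℝ => Φ (J₁ + Pᵀ *ᵥ g) := egr_lin hΦ J₁ Pᵀ

theorem gr_re {Ψ : (V → ℝ) → ℝ} (hΨ : EGr Ψ) : Gr fun h : V → ℤ => Ψ (re h) := by
  obtain ⟨C, hC, h⟩ := hΨ.bdd
  exact ⟨C, fun k => h (re k)⟩

/-- the average over the noise -/
theorem egr_noise {Φ : (V → ℝ) → ℝ} (hΦ : EGr Φ) (J₁ : V → ℝ) (P : Matrix I V ℝ) :
    EGr fun x : V → ℝ => ∫ g, Φ (J₁ + Pᵀ *ᵥ (P *ᵥ x + g)) ∂(gau I) := by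
  have h := egr_gint (egr_lin hΦ J₁ (fromCols (Pᵀ * P) Pᵀ))
  simp only [fromCols_mulVec_sumElim] at h
  simpa only [mulVec_add, mulVec_mulVec] using h

theorem gr_noise {Φ : (V → ℝ) → ℝ} (hΦ : EGr Φ) (J₁ : V → ℝ) (P : Matrix I V ℝ) :
    Gr fun h : V → ℤ => ∫ g, Φ (J₁ + Pᵀ *ᵥ (P *ᵥ re h + g)) ∂(gau I) :=
  gr_re (egr_noise hΦ J₁ P)

theorem egr_shift_obs {Φ : (V → ℝ) → ℝ} (hΦ : EGr Φ) (J₁ : V → ℝ) (P : Matrix I V ℝ)
    (a : I → ℝ) : EGr fun g : I → ℝ => Φ (J₁ + Pᵀ *ᵥ (a + g)) := by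
  have h := egr_obs hΦ (J₁ + Pᵀ *ᵥ a) P
  simpa only [mulVec_add, add_assoc] using h

/-- **association of the source in the channel** -/
theorem Ech_assoc (hμ : EM μ) (hL : Hol μ μ) {P : Matrix I V ℝ} (hP : ∀ i x, 0 ≤ P i x)
    (J₁ : V → ℝ) {Φ Ψ : (V → ℝ) → ℝ} (hΦ : EGr Φ) (hΨ : EGr Ψ) (mΦ : Monotone Φ)
    (mΨ : Monotone Ψ) :
    Ech μ J₁ P Φ * Ech μ J₁ P Ψ ≤ Ech μ J₁ P fun J => Φ J * Ψ J := by
  rw [Ech_eq hμ J₁ P hΦ, Ech_eq hμ J₁ P hΨ, Ech_eq hμ J₁ P (hΦ.mul hΨ)]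
  have gΦ := gr_noise hΦ J₁ P
  have gΨ := gr_noise hΨ J₁ P
  have gX := gr_noise (hΦ.mul hΨ) J₁ P
  have mm : ∀ {Φ : (V → ℝ) → ℝ}, EGr Φ → Monotone Φ → Monotone fun h : V → ℤ =>
      ∫ g, Φ (J₁ + Pᵀ *ᵥ (P *ᵥ re h + g)) ∂(gau I) := by
    intro Φ hΦ mΦ h k hk
    refine integral_mono (egr_integrable (egr_shift_obs hΦ J₁ P _))
      (egr_integrable (egr_shift_obs hΦ J₁ P _)) fun g => mΦ ?_
    exact add_le_add le_rfl (obs_mono hP (add_le_add (mulVec_re_mono hP hk) le_rfl))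
  have h1 := Cv_nonneg hμ hL gΦ gΨ (mm hΦ mΦ) (mm hΨ mΨ) J₁
  unfold Cv at h1
  have h2 := Ex_mono hμ (gΦ.mul gΨ) gX (fun h => ?_) J₁
  · linarith
  · refine harris I _ _ (egr_shift_obs hΦ J₁ P _) (egr_shift_obs hΨ J₁ P _) ?_ ?_
    · exact fun g g' hg => mΦ (add_le_add le_rfl (obs_mono hP (add_le_add le_rfl hg)))
    · exact fun g g' hg => mΨ (add_le_add le_rfl (obs_mono hP (add_le_add le_rfl hg)))

/-! ### functions of the field -/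

/-- positive functions of exponential growth times the weight -/
theorem em_mul (hμ : EM μ) {F : (V → ℤ) → ℝ} (gF : Gr F) (hF : ∀ h, 0 < F h) :
    EM fun h => F h * μ h := by
  refine ⟨fun h => mul_nonneg (hF h).le (hμ.nn h), ?_, fun C => ?_⟩
  · obtain ⟨h, hh⟩ := hμ.pos
    exact ⟨h, mul_pos (hF h) hh⟩
  · refine (hμ.summ' gF C).congr fun h => ?_
    rw [abs_of_pos (hF h)]

theorem Zs_mul (F : (V → ℤ) → ℝ) (P : Matrix I V ℝ) (J : V → ℝ) :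
    Zs (post (fun h => F h * μ h) P) J = TM.H104.T (post μ P) J F := by
  unfold Zs TM.H104.T post
  exact tsum_congr fun h => by ring

theorem T_post_int (hμ : EM μ) {F : (V → ℤ) → ℝ} (gF : Gr F) (P : Matrix I V ℝ) (J₁ : V → ℝ) :
    Integrable (fun g : I → ℝ => TM.H104.T (post μ P) (J₁ + Pᵀ *ᵥ g) F) (gau I) ∧
      ∫ g, TM.H104.T (post μ P) (J₁ + Pᵀ *ᵥ g) F ∂(gau I) = TM.H104.T μ J₁ F := by
  have pos : ∀ {F : (V → ℤ) → ℝ}, Gr F → (∀ h, 0 < F h) →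
      Integrable (fun g : I → ℝ => TM.H104.T (post μ P) (J₁ + Pᵀ *ᵥ g) F) (gau I) ∧
      ∫ g, TM.H104.T (post μ P) (J₁ + Pᵀ *ᵥ g) F ∂(gau I) = TM.H104.T μ J₁ F := by
    intro F gF hF
    have hE := em_mul hμ gF hF
    have h1 := ch_int hE J₁ P (EGr.const (V := V) 1)
    have h2 := ch_norm hE J₁ P
    simp only [one_mul, Zs_mul] at h1 h2
    refine ⟨h1, h2.trans ?_⟩
    unfold Zs TM.H104.T
    exact tsum_congr fun h => by ring
  obtain ⟨A, hA, hF⟩ := gF.pos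
  have gG : Gr fun h : V → ℤ => A * Real.exp (A * nh h) + 1 := by
    refine Gr.add ⟨A, fun h => ?_⟩ (Gr.const 1)
    rw [abs_of_nonneg (by positivity)]
  obtain ⟨i1, e1⟩ := pos gG fun h => by positivity
  obtain ⟨i2, e2⟩ := pos (gG.add gF) fun h => by
    have := neg_abs_le (F h)
    have := hF h
    linarith
  have hp := em_post hμ P
  have e : ∀ J, TM.H104.T (post μ P) J F =
      (TM.H104.T (post μ P) J fun h => A * Real.exp (A * nh h) + 1 + F h) -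
        TM.H104.T (post μ P) J fun h => A * Real.exp (A * nh h) + 1 := by
    intro J
    rw [T_add hp gG gF]
    ring
  simp_rw [e]
  refine ⟨i2.sub i1, ?_⟩
  rw [integral_sub i2 i1, e1, e2, T_add hμ gG gF]
  ring

/-- the posterior mean averages to the prior mean -/
theorem Ech_Ex (hμ : EM μ) {F : (V → ℤ) → ℝ} (gF : Gr F) (P : Matrix I V ℝ) (J₁ : V → ℝ) :
    (Ech μ J₁ P fun J => Ex (post μ P) J F) = Ex μ J₁ F := by
  have hp := em_post hμ P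
  unfold Ech
  rw [ch_norm hμ]
  have h1 : ∀ J, Ex (post μ P) J F * Zs (post μ P) J = TM.H104.T (post μ P) J F := by
    intro J
    unfold Ex Zs
    rw [div_mul_cancel₀ _ (T_one_pos hp J).ne']
  simp_rw [h1]
  rw [(T_post_int hμ gF P J₁).2]
  rfl

/-- **law of total covariance** -/
theorem Ech_Cv (hμ : EM μ) {P : Matrix I V ℝ} (hG : GT (post μ P)) {F G : (V → ℤ) → ℝ}
    (gF : Gr F) (gG : Gr G) (J₁ : V → ℝ) :
    (Ech μ J₁ P fun J => Cv (post μ P) J F G) = Cv μ J₁ F G -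
      ((Ech μ J₁ P fun J => Ex (post μ P) J F * Ex (post μ P) J G) - Ex μ J₁ F * Ex μ J₁ G) := by
  have hp := em_post hμ P
  unfold Cv
  rw [Ech_sub hμ J₁ P (egr_Ex hp hG (gF.mul gG)) ((egr_Ex hp hG gF).mul (egr_Ex hp hG gG)),
    Ech_Ex hμ (gF.mul gG)]
  ring

/-- **(AS5) tower inequality** for increasing functionals -/
theorem Ech_Cv_le (hμ : EM μ) {P : Matrix I V ℝ} (hG : GT (post μ P)) (hL : Hol μ μ)
    (hLp : Hol (post μ P) (post μ P)) (hP : ∀ i x, 0 ≤ P i x) {F G : (V → ℤ) → ℝ}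
    (gF : Gr F) (gG : Gr G) (mF : Monotone F) (mG : Monotone G) (J₁ : V → ℝ) :
    (Ech μ J₁ P fun J => Cv (post μ P) J F G) ≤ Cv μ J₁ F G := by
  have hp := em_post hμ P
  rw [Ech_Cv hμ hG gF gG]
  have h1 := Ech_assoc hμ hL hP J₁ (egr_Ex hp hG gF) (egr_Ex hp hG gG)
    (fun J J' h => Ex_mono_source hp hLp gF mF h) fun J J' h => Ex_mono_source hp hLp gG mG h
  rw [Ech_Ex hμ gF, Ech_Ex hμ gG] at h1
  linarith

theorem Ech_Cv_nonneg (hμ : EM μ) (P : Matrix I V ℝ) (hLp : Hol (post μ P) (post μ P))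
    {F G : (V → ℤ) → ℝ} (gF : Gr F) (gG : Gr G) (mF : Monotone F) (mG : Monotone G)
    (J₁ : V → ℝ) : 0 ≤ Ech μ J₁ P fun J => Cv (post μ P) J F G :=
  Ech_nonneg hμ J₁ P fun J => Cv_nonneg (em_post hμ P) hLp gF gG mF mG J

/-- **(AS5) tower inequality, entrywise**: `0 ≤ Cbar ≤ Cm μ' J₁` -/
theorem Cbar_le (hμ : EM μ) {P : Matrix I V ℝ} (hG : GT (post μ P)) (hL : Hol μ μ)
    (hLp : Hol (post μ P) (post μ P)) (hP : ∀ i x, 0 ≤ P i x) (J₁ : V → ℝ) (x y : V) :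
    0 ≤ Cbar μ J₁ P x y ∧ Cbar μ J₁ P x y ≤ Cm μ J₁ x y :=
  ⟨Ech_Cv_nonneg hμ P hLp (gr_x x) (gr_x y) (mono_x x) (mono_x y) J₁,
    Ech_Cv_le hμ hG hL hLp hP (gr_x x) (gr_x y) (mono_x x) (mono_x y) J₁⟩

end Vale.Agent.P159.H159
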